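import Crest.Agent.X212.Dsc37.Defs

/-!
# Combinatorial loop theorem: local conditions, domain, leaf statements TOP and TOWER
-/

namespace Crest.Agent.X212.Dsc37

variable {G : Type}

/-- local manifold conditions at the good vertices (needed only on the unsubdivided levels) -/
structure Dat.Loc (X : Dat G) : Prop where
  pure : ∀ σ ∈ X.K, Mt X.A σ → ∃ T ∈ X.K, T.card = 4 ∧ σ ⊆ T
  edge : ∀ e ∈ X.K, e.card = 2 → Mt X.A e → Conn sub {σ | σ ∈ X.K ∧ e ⊆ σ ∧ σ ≠ e}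
  vert : ∀ a ∈ X.A, H0 sub {σ | σ ∈ X.K ∧ a ∈ σ ∧ σ ≠ {a}}
  vertF : ∀ a ∈ X.A, {a} ∈ X.F → Conn sub {σ | σ ∈ X.F ∧ a ∈ σ ∧ σ ≠ {a}}

/-- every `ZMod 2` edge cocycle of the full subcomplex of `K` on `A` is a coboundary -/
def H1On {V : Type*} (K : Set (Finset V)) (A : Set V) : Prop :=
  ∀ θ : V → V → ZMod 2,
    (∀ σ ∈ K, ∀ x ∈ σ, ∀ y ∈ σ, ∀ z ∈ σ, x ∈ A → y ∈ A → z ∈ A → θ x z = θ x y + θ y z) →
    ∃ l : V → ZMod 2, ∀ σ ∈ K, ∀ x ∈ σ, ∀ y ∈ σ, x ∈ A → y ∈ A → θ x y = l x + l y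

/-- the good boundary simplices -/
def Dat.Fg (X : Dat G) : Set (Finset X.V) := {σ | σ ∈ X.F ∧ Mt X.A σ}

/-- A singular "disc": a finite complex `L` with `H^1(L; Z/2) = 0`, mapped simplicially onto the
good vertices, whose part over `F` is connected and carries non-trivial holonomy. -/
structure Dom [AddGroup G] (X : Dat G) where
  ι : Type
  fin : Fintype ι
  dec : DecidableEq ι
  L : Set (Finset ι)
  f : ι → X.V
  vtx : ∀ i, {i} ∈ L
  simp : ∀ s ∈ L, s.image f ∈ X.K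
  fA : ∀ i, f i ∈ X.A
  onto : ∀ a ∈ X.A, ∃ i, f i = a
  h1 : H1On L Set.univ
  connI : Conn (fun i j => {i, j} ∈ L ∧ {f i, f j} ∈ X.F) {i | {f i} ∈ X.F}
  essI : ¬ ∃ l : ι → G, ∀ i j, {i, j} ∈ L → {f i, f j} ∈ X.F →
    l i + X.g {f i} {f i, f j} = l j + X.g {f j} {f i, f j}

/-- TOP of the tower -/
def TopStmt : Prop :=
  ∀ (G : Type) [AddGroup G] (X : Dat G), X.OK → X.Loc → H1On X.K X.A → Conn sub X.Fg →
    ¬ Cob sub X.Fg X.g → X.HasDisc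

/-- the combinatorial loop theorem -/
def LtcStmt : Prop :=
  ∀ (G : Type) [AddGroup G] (X : Dat G), X.OK → X.Loc → Dom X → ∃ n, (X.subN n).HasDisc

/-- TOWER -/
def TowerStmt : Prop := OkSubStmt → DcSubStmt → DescStmt → TopStmt → LtcStmt

end Crest.Agent.X212.Dsc37
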