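import Crest.Agent.X212.Dsc37.Arm

/-!
# The abstract cut and paste setting: a surface poset with half cells, states, cut relation
-/

namespace Crest.Agent.X212.Dsc37

open Finset

/-- the Klein four group -/
abbrev K4 := ZMod 2 × ZMod 2
/-- flip of the two arms -/
def fl : K4 := (1, 0)
/-- the deck transformation -/
def dk : K4 := (0, 1)

theorem K4.add_self (u : K4) : u + u = 0 := by revert u; decide
theorem fl_ne : fl ≠ 0 := by decide

/-- component of `x0` -/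
def cmp {α : Type*} (r : α → α → Prop) (W : Set α) (x0 : α) : Set α :=
  {y | y ∈ W ∧ ∀ κ : α → Prop, (∀ a ∈ W, ∀ b ∈ W, r a b → (κ a ↔ κ b)) → (κ x0 ↔ κ y)}

theorem cmp_closed {α : Type*} {r : α → α → Prop} {W : Set α} {x0 a b : α} (ha : a ∈ W)
    (hb : b ∈ W) (e : r a b) : a ∈ cmp r W x0 ↔ b ∈ cmp r W x0 :=
  ⟨fun h => ⟨hb, fun κ hκ => (h.2 κ hκ).trans (hκ a ha b hb e)⟩,
    fun h => ⟨ha, fun κ hκ => (h.2 κ hκ).trans (hκ a ha b hb e).symm⟩⟩

theorem cmp_conn {α : Type*} {r : α → α → Prop} {W : Set α} {x0 : α} (h0 : x0 ∈ W) :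
    x0 ∈ cmp r W x0 ∧ Conn r (cmp r W x0) := by
  have m0 : x0 ∈ cmp r W x0 := ⟨h0, fun _ _ => Iff.rfl⟩
  refine ⟨m0, ⟨x0, m0⟩, fun κ hκ => ?_⟩
  have key : ∀ y ∈ cmp r W x0, (κ x0 ↔ κ y) := by
    intro y hy
    have := hy.2 (fun z => z ∈ cmp r W x0 ∧ κ z) fun a ha b hb e => by
      by_cases h : a ∈ cmp r W x0
      · have h' := (cmp_closed ha hb e).1 h
        simp only [h, h', true_and]; exact hκ a h b h' e
      · have h' : b ∉ cmp r W x0 := fun e' => h ((cmp_closed ha hb e).2 e')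
        simp only [h, h', false_and]
    simpa only [m0, hy, true_and] using this
  exact fun x hx y hy => (key x hx).symm.trans (key y hy)

theorem even_of_invol {α : Type*} [Fintype α] {T : Set α} (i : α → α) (h1 : ∀ x ∈ T, i x ∈ T)
    (h2 : ∀ x ∈ T, i (i x) = x) (h3 : ∀ x ∈ T, i x ≠ x) : Even T.ncard := by
  classical
  have : ∑ _x ∈ T.toFinset, (1 : ZMod 2) = 0 :=
    sum_involution (fun x _ => i x) (fun _ _ => by decide)
      (fun x hx _ => h3 x (by simpa using hx)) (fun x hx => by simpa using h1 x (by simpa using hx))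
      (fun x hx => h2 x (by simpa using hx))
  rw [sum_const, nsmul_eq_mul, mul_one, ZMod.natCast_eq_zero_iff_even] at this
  rwa [Set.ncard_eq_toFinset_card']

/-- a surface poset cut along its double curves; `H` = half cells -/
structure Cut (P G : Type) [Fintype P] [AddGroup G] where
  le : P → P → Prop
  H : Set P
  bd : Set P
  lo : Set P
  act : K4 → P → P
  lab : P → ZMod 2
  g : P → P → G
  refl : ∀ x, le x x
  trans : ∀ x y z, le x y → le y z → le x z
  up : ∀ x ∈ H, ∀ y, le x y → y ∈ H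
  act_zero : ∀ x, act 0 x = x
  act_add : ∀ u v, ∀ x ∈ H, act (u + v) x = act u (act v x)
  actH : ∀ u, ∀ x ∈ H, act u x ∈ H
  act_mono : ∀ u, ∀ x ∈ H, ∀ y, le x y → le (act u x) (act u y)
  sep : ∀ u, u ≠ 0 → ∀ y ∈ H, ∀ x, le x y → ¬ le x (act u y)
  act_bd : ∀ u, ∀ x ∈ H, x ∈ bd → act u x ∈ bd
  lab_le : ∀ x ∈ H, ∀ y, le x y → lab x = lab y
  lab_act : ∀ u, ∀ x ∈ H, lab (act u x) = lab x + u.1
  two : Two le H lo bd
  stokes : ∀ U : Set P, (∀ x y, le x y → (x ∈ U ↔ y ∈ U)) → U ∩ bd = ∅ →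
    ∀ c, Coc le U c → per le (U ∩ H) c = 0
  parity : ∀ U ⊆ bd, (∀ x ∈ bd, ∀ y ∈ bd, le x y → (x ∈ U ↔ y ∈ U)) → Even (U ∩ H).ncard
  g_act : ∀ u, ∀ y ∈ H, ∀ x, g x (act u y) = g x y
  g_self : ∀ x ∈ bd, g x x = 0

namespace Cut

variable {P G : Type} [Fintype P] [AddGroup G] (C : Cut P G)

/-- the singular surface of the state `s` -/
def ls (s : P → K4) (x y : P) : Prop := C.le x y ∨ (y ∈ C.H ∧ C.le x (C.act (s y) y))

/-- a state -/
structure St (s : P → K4) : Prop where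
  ne : ∀ x ∈ C.H, s x ≠ 0
  loc : ∀ x ∈ C.H, ∀ y, C.le x y → s x = s y
  inv : ∀ u, ∀ x ∈ C.H, s (C.act u x) = s x

/-- an essential singular disc -/
structure Good (s : P → K4) (D : Set P) : Prop where
  st : C.St s
  clo : ∀ x y, C.ls s x y → (x ∈ D ↔ y ∈ D)
  conn : Conn (C.ls s) D
  h0 : H0 (C.ls s) D
  connB : Conn (C.ls s) (D ∩ C.bd)
  ess : ¬ Cob (C.ls s) (D ∩ C.bd) C.g

variable {C}

theorem act_act (u : K4) {x : P} (hx : x ∈ C.H) : C.act u (C.act u x) = x := by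
  rw [← C.act_add u u x hx, K4.add_self, C.act_zero]

theorem act_ne {u : K4} (hu : u ≠ 0) {x : P} (hx : x ∈ C.H) : C.act u x ≠ x := fun e =>
  C.sep u hu x hx x (C.refl x) (by rw [e]; exact C.refl x)

theorem act_comm (u v : K4) {x : P} (hx : x ∈ C.H) :
    C.act u (C.act v x) = C.act v (C.act u x) := by
  rw [← C.act_add u v x hx, ← C.act_add v u x hx, add_comm]

theorem le_act {u : K4} {x y : P} (hx : x ∈ C.H) (hy : y ∈ C.H) (h : C.le x (C.act u y)) :
    C.le (C.act u x) y := by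
  have := C.act_mono u x hx _ h
  rwa [act_act u hy] at this

theorem ls_trans {s : P → K4} (hs : C.St s) {x y z : P} (a : C.ls s x y) (b : C.ls s y z) :
    C.ls s x z := by
  rcases a with a | ⟨hy, a⟩ <;> rcases b with b | ⟨hz, b⟩
  · exact Or.inl (C.trans _ _ _ a b)
  · exact Or.inr ⟨hz, C.trans _ _ _ a b⟩
  · refine Or.inr ⟨C.up y hy z b, C.trans _ _ _ a ?_⟩
    rw [← hs.loc y hy z b]; exact C.act_mono _ y hy z b
  · refine Or.inl (C.trans _ _ _ a ?_)
    rw [hs.loc y hy _ b, hs.inv _ z hz]; exact le_act hy hz b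

/-- a union `O` of orbits of arms on which the state is the flip -/
structure Orb (s : P → K4) (D O : Set P) : Prop where
  good : C.Good s D
  OH : O ⊆ C.H
  OD : O ⊆ D
  Ole : ∀ x ∈ C.H, ∀ y, C.le x y → (x ∈ O ↔ y ∈ O)
  Oact : ∀ u, ∀ x ∈ O, C.act u x ∈ O
  sO : ∀ x ∈ O, s x = fl

variable (C) in
/-- the relation cut along `O` -/
def cut (s : P → K4) (O : Set P) (x y : P) : Prop :=
  C.le x y ∨ (y ∈ C.H ∧ y ∉ O ∧ C.le x (C.act (s y) y))

open Classical in
/-- the state changed to `γ` on `O` -/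
noncomputable def upd (s : P → K4) (O : Set P) (γ : K4) (x : P) : K4 := if x ∈ O then γ else s x

namespace Orb
variable {s : P → K4} {D O : Set P} (h : C.Orb s D O)
include h

theorem Oact' (u : K4) {x : P} (hx : x ∈ C.H) : C.act u x ∈ O ↔ x ∈ O :=
  ⟨fun e => by have := h.Oact u _ e; rwa [act_act u hx] at this, h.Oact u x⟩

theorem st_upd {γ : K4} (hγ : γ ≠ 0) : C.St (upd s O γ) := by
  classical
  refine ⟨fun x hx => ?_, fun x hx y e => ?_, fun u x hx => ?_⟩
  · unfold upd; split_ifs; exacts [hγ, h.good.st.ne x hx]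
  · unfold upd; rw [h.good.st.loc x hx y e]; exact if_congr (h.Ole x hx y e) rfl rfl
  · unfold upd; rw [h.good.st.inv u x hx]; exact if_congr (h.Oact' u hx) rfl rfl

theorem ls_upd {γ : K4} {x y : P} :
    C.ls (upd s O γ) x y ↔ C.cut s O x y ∨ (y ∈ O ∧ C.le x (C.act γ y)) := by
  unfold ls cut upd
  by_cases hy : y ∈ O
  · simp [hy, h.OH hy]
  · simp [hy]

theorem upd_fl : upd s O fl = s := by
  funext x; unfold upd; split_ifs with e; exacts [(h.sO x e).symm, rfl]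

theorem ls_iff {x y : P} : C.ls s x y ↔ C.cut s O x y ∨ (y ∈ O ∧ C.le x (C.act fl y)) := by
  rw [← h.ls_upd, h.upd_fl]

theorem cut_O {x y : P} (hx : x ∈ O) (e : C.cut s O x y) : C.le x y := by
  rcases e with e | ⟨a, b, e⟩
  · exact e
  · exact (b ((h.Oact' _ a).1 ((h.Ole x (h.OH hx) _ e).1 hx))).elim

omit h in
theorem cut_O' {x y : P} (hy : y ∈ O) (e : C.cut s O x y) : C.le x y :=
  e.resolve_right fun e => e.2.1 hy

theorem cut_trans {x y z : P} (a : C.cut s O x y) (b : C.cut s O y z) : C.cut s O x z := by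
  rcases a with a | ⟨hy, hy', a⟩ <;> rcases b with b | ⟨hz, hz', b⟩
  · exact Or.inl (C.trans _ _ _ a b)
  · exact Or.inr ⟨hz, hz', C.trans _ _ _ a b⟩
  · refine Or.inr ⟨C.up y hy z b, fun e => hy' ((h.Ole y hy z b).2 e), C.trans _ _ _ a ?_⟩
    rw [← h.good.st.loc y hy z b]; exact C.act_mono _ y hy z b
  · refine Or.inl (C.trans _ _ _ a ?_)
    rw [h.good.st.loc y hy _ b, h.good.st.inv _ z hz]; exact le_act hy hz b

theorem clo_cut {x y : P} (e : C.cut s O x y) : x ∈ D ↔ y ∈ D :=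
  h.good.clo x y (h.ls_iff.2 (Or.inl e))

/-- potentials on the cut surface -/
theorem pot {c : P → P → ZMod 2} (hc : Coc (C.cut s O) D c)
    (h0 : ∀ x ∈ O, ∀ y, C.le x y → c x y = 0) :
    ∃ l : P → ZMod 2, (∀ x ∈ D, ∀ y ∈ D, C.cut s O x y → l y = l x + c x y) ∧
      ∀ y ∈ O, l (C.act fl y) = l y := by
  classical
  let c' : P → P → ZMod 2 := fun x y => if y ∈ O ∧ ¬ C.le x y then c x (C.act fl y) else c x y
  have k1 : ∀ x y, C.cut s O x y → c' x y = c x y := fun x y e =>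
    if_neg fun e' => e'.2 (cut_O' e'.1 e)
  have k2 : ∀ x, ∀ y ∈ O, C.le x (C.act fl y) → c' x y = c x (C.act fl y) := fun x y hy e =>
    if_pos ⟨hy, fun e' => C.sep fl fl_ne y (h.OH hy) x e' e⟩
  have hc' : Coc (C.ls s) D c' := by
    intro x hx y hy z hz a b
    rcases h.ls_iff.1 a with a | ⟨hO, a⟩
    · rcases h.ls_iff.1 b with b | ⟨hO, b⟩
      · rw [k1 _ _ a, k1 _ _ b, k1 _ _ (h.cut_trans a b)]; exact hc x hx y hy z hz a b
      · have hO' := h.Oact fl z hO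
        rw [k1 _ _ a, k2 _ _ hO b, k2 _ _ hO (cut_O' hO' (h.cut_trans a (Or.inl b)))]
        exact hc x hx y hy _ (h.OD hO') a (Or.inl b)
    · have hO' := h.Oact fl y hO
      rw [k2 _ _ hO a]
      rcases h.ls_iff.1 b with b | ⟨hz', b⟩
      · have b := h.cut_O hO b
        have hz' := (h.Ole y (h.OH hO) z b).1 hO
        have b' := C.act_mono fl y (h.OH hO) z b
        rw [k1 _ _ (Or.inl b), k2 _ _ hz' (C.trans _ _ _ a b'), h0 y hO z b,
          hc x hx _ (h.OD hO') _ (h.OD (h.Oact fl z hz')) (Or.inl a) (Or.inl b'), h0 _ hO' _ b']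
      · have b' := le_act (h.OH hO) (h.OH hz') b
        rw [k2 _ _ hz' b, k1 _ _ (Or.inl (C.trans _ _ _ a b')), h0 y hO _ b,
          hc x hx _ (h.OD hO') z hz (Or.inl a) (Or.inl b'), h0 _ hO' _ b']
  obtain ⟨l, hl⟩ := h.good.h0 c' hc'
  refine ⟨l, fun x hx y hy e => ?_, fun y hy => ?_⟩
  · rw [hl x hx y hy (h.ls_iff.2 (Or.inl e)), k1 _ _ e]
  · have hO' := h.Oact fl y hy
    rw [hl _ (h.OD hO') y (h.OD hy) (h.ls_iff.2 (Or.inr ⟨hy, C.refl _⟩)), k2 _ _ hy (C.refl _),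
      h0 _ hO' _ (C.refl _), add_zero]

open Classical in
/-- jump function of a union of arms `X` -/
theorem jump {X : Set P} (hX : ∀ x ∈ O, ∀ y, C.le x y → (x ∈ X ↔ y ∈ X)) :
    ∃ κ : P → ZMod 2, (∀ x ∈ D, ∀ y ∈ D, C.cut s O x y → κ x = κ y) ∧
      ∀ y ∈ O, κ (C.act fl y) = κ y + (if y ∈ X then 1 else 0) +
        (if C.act fl y ∈ X then 1 else 0) := by
  let i : P → ZMod 2 := fun y => if y ∈ X then 1 else 0
  obtain ⟨l, h1, h2⟩ := h.pot (c := fun x y => i y - i x) (fun x _ y _ z _ _ _ => by ring)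
    (fun x hx y e => by simp only [i, hX x hx y e, sub_self])
  refine ⟨fun y => l y - i y, fun x hx y hy e => ?_, fun y hy => ?_⟩
  · simp only [h1 x hx y hy e]; ring
  · simp only [h2 y hy]
    change l y - i (C.act fl y) = l y - i y + i y + i (C.act fl y)
    generalize l y = a; generalize i y = b; generalize i (C.act fl y) = c
    revert a b c; decide

/-- normalisation: `H^1 = 0` after regluing -/
theorem norm {γ : K4} {D' : Set P}
    (hcl : ∀ x y, C.ls (upd s O γ) x y → (x ∈ D' ↔ y ∈ D')) {c : P → P → ZMod 2}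
    (hc : Coc (C.ls (upd s O γ)) D' c) (hO : Cob (C.ls (upd s O γ)) (O ∩ D') c)
    (hfix : ∀ l : P → ZMod 2, (∀ x ∈ O, ∀ y, C.le x y → l x = l y) →
      (∀ y ∈ O, l (C.act fl y) = l y) → ∃ n : P → ZMod 2,
        (∀ x ∈ D', ∀ y ∈ D', C.cut s O x y → n x = n y) ∧
        ∀ y ∈ O, y ∈ D' → l (C.act γ y) + n (C.act γ y) = l y + n y) (hD : D' ⊆ D) :
    Cob (C.ls (upd s O γ)) D' c := by
  classical
  obtain ⟨m, hm⟩ := hO
  let m' : P → ZMod 2 := fun x => if x ∈ O then m x else 0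
  let c0 : P → P → ZMod 2 := fun x y => if x ∈ D' then c x y - m' y + m' x else 0
  have hc0 : Coc (C.cut s O) D c0 := by
    intro x _ y _ z _ a b
    have a' := h.ls_upd (γ := γ).2 (Or.inl a)
    have b' := h.ls_upd (γ := γ).2 (Or.inl b)
    by_cases hx : x ∈ D'
    · have hy := (hcl x y a').1 hx
      simp only [c0, hx, hy, if_true, hc x hx y hy z ((hcl y z b').1 hy) a' b']; ring
    · have hy : y ∉ D' := fun e => hx ((hcl x y a').2 e)
      simp [c0, hx, hy]
  have h00 : ∀ x ∈ O, ∀ y, C.le x y → c0 x y = 0 := by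
    intro x hx y e
    have hy := (h.Ole x (h.OH hx) y e).1 hx
    by_cases hx' : x ∈ D'
    · have hy' := (hcl x y (Or.inl e)).1 hx'
      simp only [c0, m', hx, hy, hx', if_true, hm x ⟨hx, hx'⟩ y ⟨hy, hy'⟩ (Or.inl e)]; ring
    · simp [c0, hx']
  obtain ⟨l, h1, h2⟩ := h.pot hc0 h00
  obtain ⟨n, n1, n2⟩ := hfix l (fun x hx y e => by
    rw [h1 x (h.OD hx) y (h.OD ((h.Ole x (h.OH hx) y e).1 hx)) (Or.inl e), h00 x hx y e,
      add_zero]) h2
  have key : ∀ x ∈ D', ∀ y ∈ D', C.cut s O x y →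
      l y + n y + m' y = l x + n x + m' x + c x y := by
    intro x hx y hy e
    rw [h1 x (hD hx) y (hD hy) e, n1 x hx y hy e]
    simp only [c0, hx, if_true]; ring
  refine ⟨fun x => l x + n x + m' x, fun x hx y hy e => ?_⟩
  rcases h.ls_upd.1 e with e | ⟨hy', e⟩
  · exact key x hx y hy e
  · have hO' := h.Oact γ y hy'
    have b : C.ls (upd s O γ) (C.act γ y) y := h.ls_upd.2 (Or.inr ⟨hy', C.refl _⟩)
    have hD' := (hcl _ _ b).2 hy
    have e1 := key x hx _ hD' (Or.inl e)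
    have e2 := hc x hx _ hD' y hy (Or.inl e) b
    have e3 := hm _ ⟨hO', hD'⟩ y ⟨hy', hy⟩ b
    have e4 := n2 y hy' hy
    simp only [m', hO', hy', if_true] at e1 ⊢
    linear_combination e1 - e2 + e3 - e4

/-- a potential on half of the arms gives one on the glued arms -/
theorem glue {γ : K4} {D' Z : Set P}
    (hcl : ∀ x y, C.ls (upd s O γ) x y → (x ∈ D' ↔ y ∈ D')) {c : P → P → ZMod 2}
    (hc : Coc (C.ls (upd s O γ)) D' c) (hZ : ∀ x ∈ O, ∀ y, C.le x y → (x ∈ Z ↔ y ∈ Z))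
    (hx : ∀ y ∈ O, y ∈ D' → (y ∈ Z ↔ C.act γ y ∉ Z)) (hb : Cob C.le Z c) :
    Cob (C.ls (upd s O γ)) (O ∩ D') c := by
  classical
  obtain ⟨m, hm⟩ := hb
  have gl : ∀ y ∈ O, C.ls (upd s O γ) (C.act γ y) y := fun y hy =>
    h.ls_upd.2 (Or.inr ⟨hy, C.refl _⟩)
  refine ⟨fun y => if y ∈ Z then m y else m (C.act γ y) + c (C.act γ y) y, ?_⟩
  rintro x ⟨x1, x2⟩ y ⟨y1, y2⟩ e
  have x3 := (hcl _ _ (gl x x1)).2 x2
  have y3 := (hcl _ _ (gl y y1)).2 y2
  have xa := h.Oact γ x x1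
  rcases h.ls_upd.1 e with e' | ⟨_, e'⟩
  · have e' := h.cut_O x1 e'
    by_cases hz : x ∈ Z
    · have hz' := (hZ x x1 y e').1 hz
      simp only [hz, hz', if_true]; exact hm x hz y hz' e'
    · have hz' : y ∉ Z := fun q => hz ((hZ x x1 y e').2 q)
      have a : C.act γ x ∈ Z := by by_contra q; exact hz ((hx x x1 x2).2 q)
      have b := C.act_mono γ x (h.OH x1) y e'
      have e1 := hm _ a _ ((hZ _ xa _ b).1 a) b
      have e2 := hc _ x3 x x2 y y2 (gl x x1) e
      have e3 := hc _ x3 _ y3 y y2 (Or.inl b) (gl y y1)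
      simp only [hz, hz', if_false]
      linear_combination e1 + e2 - e3
  · by_cases hz : x ∈ Z
    · have a := (hZ x x1 _ e').1 hz
      have hz' : y ∉ Z := fun q => (hx y y1 y2).1 q a
      have e1 := hm x hz _ a e'
      have e2 := hc x x2 _ y3 y y2 (Or.inl e') (gl y y1)
      simp only [hz, hz', if_true, if_false]
      linear_combination e1 - e2
    · have a : C.act γ x ∈ Z := by by_contra q; exact hz ((hx x x1 x2).2 q)
      have b := le_act (h.OH x1) (h.OH y1) e'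
      have hz' := (hZ _ xa _ b).1 a
      have e1 := hm _ a y hz' b
      have e2 := hc _ x3 x x2 y y2 (gl x x1) e
      simp only [hz, hz', if_true, if_false]
      linear_combination e1 + e2

end Orb

end Cut

end Crest.Agent.X212.Dsc37
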