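import Crest.Agent.X212.Dsc37.Abs

/-!
# The abstract cut and paste: periods, boundary arcs, the two regluings
-/

namespace Crest.Agent.X212.Dsc37

open Finset

theorem K4.four' : ∀ γ u : K4, γ ≠ 0 → γ ≠ fl → u = 0 ∨ u = fl ∨ u = γ ∨ u = γ + fl := by decide
theorem K4.four {γ : K4} (h0 : γ ≠ 0) (h1 : γ ≠ fl) (u : K4) :
    u = 0 ∨ u = fl ∨ u = γ ∨ u = γ + fl := K4.four' γ u h0 h1
theorem K4.a1 : ∀ γ u : K4, (u + γ = 0 ↔ u = γ) := by decide
theorem K4.a2 : ∀ γ u : K4, (γ + u = 0 ∨ γ + u = γ ↔ u = 0 ∨ u = γ) := by decide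
theorem K4.a3 : ∀ γ : K4, γ ≠ 0 → γ ≠ fl → ¬ (γ + fl = 0 ∨ γ + fl = γ) ∧ ¬ (fl = 0 ∨ fl = γ) := by
  decide
theorem K4.a4 : ∀ γ u : K4, γ ≠ 0 → u = 0 ∨ u = γ → (u = 0 ↔ ¬ γ + u = 0) := by decide
theorem K4.a5 : ∀ γ u : K4, γ ≠ 0 → γ ≠ fl →
    (u = 0 ∨ u = γ ↔ ¬ (γ + fl + u = 0 ∨ γ + fl + u = γ)) := by decide

theorem z2_self (a : ZMod 2) : a + a = 0 := by revert a; decide

namespace Cut

variable {P G : Type} [Fintype P] [AddGroup G] {C : Cut P G}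

namespace Orb
variable {s : P → K4} {D O : Set P} (h : C.Orb s D O)
include h

theorem io {x : P} (hx : x ∈ C.H) (hO : x ∉ O) :
    C.act (s x) x ∈ C.H ∧ C.act (s x) x ∉ O ∧
      C.act (s (C.act (s x) x)) (C.act (s x) x) = x ∧ C.act (s x) x ≠ x ∧
      C.cut s O (C.act (s x) x) x ∧ C.cut s O x (C.act (s x) x) := by
  have a := C.actH (s x) x hx
  have b : C.act (s x) x ∉ O := fun e => hO ((h.Oact' _ hx).1 e)
  have c : C.act (s (C.act (s x) x)) (C.act (s x) x) = x := by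
    rw [h.good.st.inv _ x hx, act_act _ hx]
  exact ⟨a, b, c, act_ne (h.good.st.ne x hx) hx, Or.inr ⟨hx, hO, C.refl _⟩,
    Or.inr ⟨a, b, by rw [c]; exact C.refl x⟩⟩

/-- Stokes on a closed part -/
theorem per_zero {U : Set P} {c : P → P → ZMod 2} (hc : Coc (C.cut s O) U c)
    (hU : ∀ x y, C.cut s O x y → (x ∈ U ↔ y ∈ U)) (hb : U ∩ C.bd = ∅) :
    per C.le (U ∩ O) c = 0 := by
  classical
  let ι : P → P := fun x => C.act (s x) x
  let n := Fintype.equivFin P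
  let m : P → ZMod 2 := fun x => if (x ∈ C.H ∧ x ∉ O) ∧ n x < n (ι x) then c x (ι x) else 0
  let c' : P → P → ZMod 2 := fun x y => c x y + m x + m y
  have hc' : Coc (C.cut s O) U c' := by
    intro x hx y hy z hz a b
    simp only [c', hc x hx y hy z hz a b]
    linear_combination (-1 : ZMod 2) * z2_self (m y)
  have k : ∀ x ∈ U, x ∈ C.H → x ∉ O → c' x (ι x) = 0 := by
    intro x hx hH hO
    obtain ⟨a, b, e, ne, c1, c2⟩ := h.io hH hO
    have hi : ι x ∈ U := (hU _ _ c1).2 hx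
    have e0 := hc x hx _ hi x hx c2 c1
    rw [hc.self hx (Or.inl (C.refl x))] at e0
    have e' : ι (ι x) = x := e
    rcases lt_trichotomy (n x) (n (ι x)) with l | l | l
    · have l' : ¬ n (ι x) < n (ι (ι x)) := by rw [e']; exact not_lt.2 l.le
      simp only [c', m, hH, hO, l, l', not_false_eq_true, and_self, if_true, and_false, if_false]
      linear_combination z2_self (c x (ι x))
    · exact (ne (n.injective l).symm).elim
    · have a' : ι x ∈ C.H := a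
      have b' : ι x ∉ O := b
      simp only [c', m, not_lt.2 l.le, l, a', b', not_false_eq_true, and_self, if_true, and_false,
        if_false, e']
      linear_combination -e0
  have st := C.stokes U (fun x y e => hU x y (Or.inl e)) hb c'
    (hc'.mono subset_rfl fun _ _ _ _ e => Or.inl e)
  rw [per, ← sum_filter_add_sum_filter_not _ (fun p : P × P => p.1 ∈ O)] at st
  have s2 : ∑ p ∈ (prs C.le (U ∩ C.H)).filter (fun p => ¬ p.1 ∈ O), c' p.1 p.2 = 0 := by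
    have mem : ∀ p ∈ (prs C.le (U ∩ C.H)).filter (fun p => ¬ p.1 ∈ O),
        p.1 ∈ U ∧ p.1 ∈ C.H ∧ p.1 ∉ O ∧ p.2 ∈ U ∧ p.2 ∈ C.H ∧ p.2 ∉ O ∧ C.le p.1 p.2 ∧
          p.1 ≠ p.2 ∧ C.le (ι p.1) (ι p.2) := by
      intro p hp
      obtain ⟨a, b⟩ := mem_filter.1 hp
      obtain ⟨a1, a2, a3, a4⟩ := mem_prs.1 a
      refine ⟨a1.1, a1.2, b, a2.1, a2.2, fun e => b ((h.Ole _ a1.2 _ a3).2 e), a3, a4, ?_⟩
      simp only [ι, ← h.good.st.loc _ a1.2 _ a3]; exact C.act_mono _ _ a1.2 _ a3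
    refine sum_involution (fun p _ => (ι p.1, ι p.2)) (fun p hp => ?_) (fun p hp _ e => ?_)
      (fun p hp => ?_) fun p hp => ?_
    · obtain ⟨x1, x2, x3, y1, y2, y3, e, -, e'⟩ := mem p hp
      obtain ⟨a, b, ee, -, c1, c2⟩ := h.io x2 x3
      obtain ⟨-, -, -, -, d1, d2⟩ := h.io y2 y3
      have xi : ι p.1 ∈ U := (hU _ _ c1).2 x1
      have yi : ι p.2 ∈ U := (hU _ _ d1).2 y1
      have e1 := hc' _ x1 _ xi _ yi c2 (Or.inl e')
      have e2 := hc' _ x1 _ y1 _ yi (Or.inl e) d2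
      rw [k _ x1 x2 x3] at e1
      rw [k _ y1 y2 y3] at e2
      simp only
      linear_combination z2_self (c' p.1 p.2) - e1 + e2
    · obtain ⟨-, x2, x3, -⟩ := mem p hp
      exact (h.io x2 x3).2.2.2.1 (congrArg Prod.fst e)
    · obtain ⟨x1, x2, x3, y1, y2, y3, -, ne, e'⟩ := mem p hp
      obtain ⟨a, b, ee, -, c1, -⟩ := h.io x2 x3
      obtain ⟨a', -, ee', -, d1, -⟩ := h.io y2 y3
      refine mem_filter.2 ⟨mem_prs.2 ⟨⟨(hU _ _ c1).2 x1, a⟩, ⟨(hU _ _ d1).2 y1, a'⟩, e',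
        fun q => ne ?_⟩, b⟩
      have q : ι p.1 = ι p.2 := q
      have := congrArg ι q
      rwa [show ι (ι p.1) = p.1 from ee, show ι (ι p.2) = p.2 from ee'] at this
    · obtain ⟨-, x2, x3, -, y2, y3, -⟩ := mem p hp
      exact Prod.ext (h.io x2 x3).2.2.1 (h.io y2 y3).2.2.1
  rw [s2, add_zero] at st
  rw [per, ← st]
  refine sum_congr ?_ fun p hp => ?_
  · ext p
    simp only [mem_prs, mem_filter, Set.mem_inter_iff]
    exact ⟨fun ⟨a, b, e⟩ => ⟨⟨⟨a.1, h.OH a.2⟩, ⟨b.1, h.OH b.2⟩, e⟩, a.2⟩,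
      fun ⟨⟨a, b, e⟩, f⟩ => ⟨⟨a.1, f⟩, ⟨b.1, (h.Ole _ a.2 _ e.1).1 f⟩, e⟩⟩
  · obtain ⟨a, b⟩ := mem_filter.1 hp
    obtain ⟨a1, -, a3, -⟩ := mem_prs.1 a
    have b' := (h.Ole _ a1.2 _ a3).1 b
    simp [c', m, b, b']

/-- the boundary arc of an outer part is connected -/
theorem bconn {U : Set P} (hUD : U ⊆ D) (hU : ∀ x y, C.cut s O x y → (x ∈ U ↔ y ∈ U))
    (h2 : (U ∩ O ∩ C.bd).ncard = 2) : Conn (C.cut s O) (U ∩ C.bd) := by
  obtain ⟨e, he⟩ : (U ∩ O ∩ C.bd).Nonempty := Set.nonempty_of_ncard_ne_zero (by omega)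
  refine ⟨⟨e, he.1.1, he.2⟩, fun κ hκ => ?_⟩
  let N : Set P := {z | z ∈ U ∩ C.bd ∧ ¬ (κ e ↔ κ z)}
  have Ncl : ∀ x ∈ C.bd, ∀ y ∈ C.bd, C.cut s O x y → (x ∈ N ↔ y ∈ N) := by
    intro x hx y hy a
    by_cases q : x ∈ U
    · have q' := (hU x y a).1 q
      simp only [N, Set.mem_ofPred_eq, Set.mem_inter_iff, q, q', hx, hy, true_and,
        hκ x ⟨q, hx⟩ y ⟨q', hy⟩ a]
    · have q' : y ∉ U := fun w => q ((hU x y a).2 w)
      simp only [N, Set.mem_ofPred_eq, Set.mem_inter_iff, q, q', false_and]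
  have p1 := C.parity N (fun z hz => hz.1.2) fun x hx y hy a => Ncl x hx y hy (Or.inl a)
  have p2 : Even ((N ∩ C.H) \ O).ncard := by
    refine even_of_invol (fun x => C.act (s x) x) (fun x hx => ?_)
      (fun x hx => (h.io hx.1.2 hx.2).2.2.1) fun x hx => (h.io hx.1.2 hx.2).2.2.2.1
    obtain ⟨a, b, -, -, c1, -⟩ := h.io hx.1.2 hx.2
    exact ⟨⟨(Ncl _ (C.act_bd _ x hx.1.2 hx.1.1.1.2) x hx.1.1.1.2 c1).2 hx.1.1, a⟩, b⟩
  have p3 := Set.ncard_inter_add_ncard_sdiff_eq_ncard (N ∩ C.H) O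
  have p4 : (N ∩ C.H ∩ O).ncard < 2 := by
    rw [← h2]
    exact Set.ncard_lt_ncard ⟨fun z hz => ⟨⟨hz.1.1.1.1, hz.2⟩, hz.1.1.1.2⟩,
      fun q => (q he).1.1.2 Iff.rfl⟩
  have p5 : (N ∩ C.H ∩ O).ncard = 0 := by
    rw [Nat.even_iff] at p1 p2; omega
  have NO : ∀ z ∈ N, z ∉ O := fun z hz q => by
    have : z ∈ N ∩ C.H ∩ O := ⟨⟨hz, h.OH q⟩, q⟩
    rw [(Set.ncard_eq_zero).1 p5] at this; exact this
  have key : ∀ z ∈ U ∩ C.bd, (κ e ↔ κ z) := by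
    intro z hz
    by_contra q
    have := h.good.connB.2 (· ∈ N) (fun x hx y hy a => by
      rcases h.ls_iff.1 a with a | ⟨hO, a⟩
      · exact Ncl x hx.2 y hy.2 a
      · exact ⟨fun w => (NO _ ((Ncl x hx.2 _ (C.act_bd _ y (h.OH hO) hy.2) (Or.inl a)).1 w)
          (h.Oact fl y hO)).elim, fun w => (NO y w hO).elim⟩)
      z ⟨hUD hz.1, hz.2⟩ e ⟨hUD he.1.1, he.2⟩
    exact (this.1 ⟨hz, q⟩).2 Iff.rfl
  exact fun x hx y hy => (key x hx).symm.trans (key y hy)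

end Orb

/-- the two outer parts `D1`, `D3` of the disc cut along two paired curves -/
structure Parts (s : P → K4) (D O D1 D3 : Set P) (γ : K4) : Prop where
  orb : C.Orb s D O
  g0 : γ ≠ 0
  g1 : γ ≠ fl
  s1 : D1 ⊆ D
  s3 : D3 ⊆ D
  cl1 : ∀ x y, C.cut s O x y → (x ∈ D1 ↔ y ∈ D1)
  cl3 : ∀ x y, C.cut s O x y → (x ∈ D3 ↔ y ∈ D3)
  dis : ∀ x ∈ D1, x ∉ D3
  m1 : ∀ y ∈ D1 ∩ O, ∀ u, (C.act u y ∈ D1 ↔ u = 0)
  m3 : ∀ y ∈ D1 ∩ O, ∀ u, (C.act u y ∈ D3 ↔ u = γ)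
  cov : ∀ z ∈ O, ∃ y ∈ D1 ∩ O, ∃ u, z = C.act u y
  conn : Conn C.le (D1 ∩ O)

namespace Parts
variable {s : P → K4} {D O D1 D3 : Set P} {γ : K4} (h : C.Parts s D O D1 D3 γ)
include h

theorem aa (u v : K4) {y : P} (hy : y ∈ D1 ∩ O) : C.act u (C.act v y) = C.act (u + v) y :=
  (C.act_add u v y (h.orb.OH hy.2)).symm

theorem to3 {y : P} (hy : y ∈ D1 ∩ O) : C.act γ y ∈ D3 ∩ O :=
  ⟨(h.m3 y hy γ).2 rfl, h.orb.Oact γ y hy.2⟩

theorem of3 {z : P} (hz : z ∈ D3 ∩ O) : ∃ y ∈ D1 ∩ O, z = C.act γ y := by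
  obtain ⟨y, hy, u, rfl⟩ := h.cov z hz.2
  exact ⟨y, hy, by rw [(h.m3 y hy u).1 hz.1]⟩

theorem symm : C.Parts s D O D3 D1 γ := by
  refine ⟨h.orb, h.g0, h.g1, h.s3, h.s1, h.cl3, h.cl1, fun x a b => h.dis x b a,
    fun z hz u => ?_, fun z hz u => ?_, fun z hz => ?_, ?_⟩
  · obtain ⟨y, hy, rfl⟩ := h.of3 hz
    rw [h.aa _ _ hy, h.m3 y hy]; simp
  · obtain ⟨y, hy, rfl⟩ := h.of3 hz
    rw [h.aa _ _ hy, h.m1 y hy]; exact K4.a1 γ u
  · obtain ⟨y, hy, u, rfl⟩ := h.cov z hz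
    exact ⟨_, h.to3 hy, u + γ, by rw [h.aa _ _ hy, add_assoc, K4.add_self, add_zero]⟩
  · obtain ⟨e, he⟩ := h.conn.1
    refine ⟨⟨_, h.to3 he⟩, fun κ hκ x hx z hz => ?_⟩
    obtain ⟨y, hy, rfl⟩ := h.of3 hx
    obtain ⟨y', hy', rfl⟩ := h.of3 hz
    exact h.conn.2 (fun a => κ (C.act γ a)) (fun a ha b hb e =>
      hκ _ (h.to3 ha) _ (h.to3 hb) (C.act_mono γ a (h.orb.OH ha.2) b e)) y hy y' hy'

theorem arm_const {β : Type*} (l : P → β) (hl : ∀ x ∈ O, ∀ y, C.le x y → l x = l y) (u : K4)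
    {y y' : P} (hy : y ∈ D1 ∩ O) (hy' : y' ∈ D1 ∩ O) : l (C.act u y) = l (C.act u y') :=
  h.conn.const (fun a => l (C.act u a)) (fun a ha b _ e =>
    hl _ (h.orb.Oact u a ha.2) _ (C.act_mono u a (h.orb.OH ha.2) b e)) hy hy'

theorem fl_inv {β : Type*} (l : P → β) {T : Set P} (hT : ∀ u, ∀ x ∈ O, x ∈ T → C.act u x ∈ T)
    (h1 : ∀ y ∈ D1 ∩ O, y ∈ T → l (C.act fl y) = l y ∧ l (C.act (γ + fl) y) = l (C.act γ y))
    {z : P} (hz : z ∈ O) (hzT : z ∈ T) : l (C.act fl z) = l z := by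
  obtain ⟨y, hy, u, rfl⟩ := h.cov z hz
  have yT : y ∈ T := by
    have := hT u _ hz hzT
    rwa [act_act u (h.orb.OH hy.2)] at this
  obtain ⟨a, b⟩ := h1 y hy yT
  rw [h.aa _ _ hy]
  rcases K4.four h.g0 h.g1 u with rfl | rfl | rfl | rfl
  · rw [add_zero, C.act_zero, a]
  · rw [K4.add_self, C.act_zero, a]
  · rw [add_comm, b]
  · rw [add_left_comm, K4.add_self, add_zero, b]

theorem clo1 (x y : P) (e : C.ls (upd s O γ) x y) : x ∈ D1 ∪ D3 ↔ y ∈ D1 ∪ D3 := by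
  rcases h.orb.ls_upd.1 e with e | ⟨hy, e⟩
  · exact or_congr (h.cl1 x y e) (h.cl3 x y e)
  · rw [Set.mem_union, h.cl1 x _ (Or.inl e), h.cl3 x _ (Or.inl e)]
    obtain ⟨z, hz, u, rfl⟩ := h.cov y hy
    rw [Set.mem_union, h.aa _ _ hz, h.m1 z hz, h.m3 z hz, h.m1 z hz, h.m3 z hz]
    exact K4.a2 γ u

theorem clo2 (x y : P) (e : C.ls (upd s O (γ + fl)) x y) : x ∈ D ↔ y ∈ D := by
  rcases h.orb.ls_upd.1 e with e | ⟨hy, e⟩
  · exact h.orb.clo_cut e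
  · rw [h.orb.clo_cut (Or.inl e)]
    exact iff_of_true (h.orb.OD (h.orb.Oact _ y hy)) (h.orb.OD hy)

theorem n1 {y : P} (hy : y ∈ D1 ∩ O) : C.act fl y ∉ D1 ∧ C.act fl y ∉ D3 ∧ C.act γ y ∉ D1 ∧
    C.act γ y ∈ D3 ∧ C.act (γ + fl) y ∉ D1 ∧ C.act (γ + fl) y ∉ D3 ∧ y ∉ D3 := by
  simp only [h.m1 y hy, h.m3 y hy]
  have a := h.g0
  have b := h.g1
  exact ⟨fl_ne, b.symm, a, trivial, fun e => (K4.a3 γ a b).1 (Or.inl e),
    fun e => (K4.a3 γ a b).1 (Or.inr e), h.dis y hy.1⟩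

theorem conn1 : Conn (C.ls (upd s O γ)) (D1 ∪ D3) := by
  classical
  obtain ⟨e, he⟩ := h.conn.1
  refine Conn.of_const ⟨e, Or.inl he.1⟩ fun l hl => ?_
  let l' : P → ZMod 2 := fun x => if x ∈ D1 ∪ D3 then l x else l e
  have k0 : ∀ x y, C.cut s O x y → l' x = l' y := by
    intro x y a
    have a' := h.orb.ls_upd (γ := γ).2 (Or.inl a)
    by_cases hx : x ∈ D1 ∪ D3
    · have hy := (h.clo1 x y a').1 hx
      simp only [l', hx, hy, if_true]; exact hl x hx y hy a'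
    · have hy : y ∉ D1 ∪ D3 := fun q => hx ((h.clo1 x y a').2 q)
      simp only [l', hx, hy, if_false]
  have k1 : ∀ y ∈ D1 ∩ O, l y = l e := fun y hy =>
    h.conn.const l (fun a ha b hb q => hl a (Or.inl ha.1) b (Or.inl hb.1) (Or.inl q)) hy he
  have k2 : ∀ z ∈ O, l' (C.act fl z) = l' z := fun z hz =>
    h.fl_inv l' (T := Set.univ) (fun _ _ _ _ => trivial) (fun y hy _ => by
      obtain ⟨a, b, c, d, e', f, -⟩ := h.n1 hy
      have := hl _ (Or.inr d) y (Or.inl hy.1) (h.orb.ls_upd.2 (Or.inr ⟨hy.2, C.refl _⟩))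
      simp [l', a, b, d, e', f, hy.1, k1 y hy, this]) hz trivial
  intro x hx y hy
  have := h.orb.good.conn.const l' (fun a _ b _ q => by
    rcases h.orb.ls_iff.1 q with q | ⟨hb, q⟩
    · exact k0 a b q
    · rw [k0 a _ (Or.inl q), k2 b hb]) (hx.elim (@h.s1 x) (@h.s3 x)) (hy.elim (@h.s1 y) (@h.s3 y))
  simpa only [l', hx, hy, if_true] using this

theorem conn2 : Conn (C.ls (upd s O (γ + fl))) D := by
  classical
  obtain ⟨e, he⟩ := h.conn.1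
  refine Conn.of_const h.orb.good.conn.1 fun l hl => ?_
  let d := l e + l (C.act fl e)
  let l' : P → ZMod 2 := fun x => l x + if x ∈ D1 ∪ D3 then d else 0
  have k0 : ∀ x ∈ D, ∀ y ∈ D, C.cut s O x y → l' x = l' y := by
    intro x hx y hy a
    simp only [l', hl x hx y hy (h.orb.ls_upd.2 (Or.inl a)), Set.mem_union, h.cl1 x y a,
      h.cl3 x y a]
  have ar : ∀ u, ∀ y ∈ D1 ∩ O, l (C.act u y) = l (C.act u e) := fun u y hy =>
    h.arm_const l (fun a ha b q => hl a (h.orb.OD ha) b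
      (h.orb.OD ((h.orb.Ole a (h.orb.OH ha) b q).1 ha)) (Or.inl q)) u hy he
  have gl : ∀ z ∈ O, l (C.act (γ + fl) z) = l z := fun z hz =>
    hl _ (h.orb.OD (h.orb.Oact _ z hz)) z (h.orb.OD hz) (h.orb.ls_upd.2 (Or.inr ⟨hz, C.refl _⟩))
  have g2 : l (C.act γ e) = l (C.act fl e) := by
    rw [← gl _ (h.orb.Oact fl e he.2), h.aa _ _ he, add_assoc, K4.add_self, add_zero]
  have k2 : ∀ z ∈ O, l' (C.act fl z) = l' z := fun z hz =>
    h.fl_inv l' (T := Set.univ) (fun _ _ _ _ => trivial) (fun y hy _ => by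
      obtain ⟨a, b, c, d', e', f, -⟩ := h.n1 hy
      have a0 := ar 0 y hy
      rw [C.act_zero, C.act_zero] at a0
      simp only [l', Set.mem_union, a, b, d', e', f, hy.1, or_self, true_or, or_true, if_true,
        if_false, ar _ y hy, a0, gl e he.2, g2, d]
      exact ⟨by linear_combination -z2_self (l e), by linear_combination -z2_self (l (C.act fl e))⟩)
      hz trivial
  have k3 : ∀ x ∈ D, ∀ y ∈ D, l' x = l' y := fun x hx y hy =>
    h.orb.good.conn.const l' (fun a ha b hb q => by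
      rcases h.orb.ls_iff.1 q with q | ⟨hb', q⟩
      · exact k0 a ha b hb q
      · rw [k0 a ha _ (h.orb.OD (h.orb.Oact _ b hb')) (Or.inl q), k2 b hb']) hx hy
  have d0 : d = 0 := by
    have := k3 e (h.orb.OD he.2) _ (h.orb.OD (h.orb.Oact (γ + fl) e he.2))
    obtain ⟨-, -, -, -, e', f, -⟩ := h.n1 he
    simpa [l', e', f, he.1, gl e he.2] using this
  intro x hx y hy
  simpa [l', d0] using k3 x hx y hy

theorem h0_1 (hb : ∀ c : P → P → ZMod 2, Coc (C.ls (upd s O γ)) (D1 ∪ D3) c →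
    Cob C.le (D1 ∩ O) c) : H0 (C.ls (upd s O γ)) (D1 ∪ D3) := by
  classical
  obtain ⟨e, he⟩ := h.conn.1
  intro c hc
  refine h.orb.norm h.clo1 hc (h.orb.glue h.clo1 hc (fun x hx y q => ?_) (fun z hz q => ?_)
    (hb c hc)) (fun l l1 l2 => ?_) (Set.union_subset h.s1 h.s3)
  · exact and_congr (h.cl1 x y (Or.inl q)) (h.orb.Ole x (h.orb.OH hx) y q)
  · obtain ⟨y, hy, u, rfl⟩ := h.cov z hz
    rw [Set.mem_union, h.m1 y hy, h.m3 y hy] at q
    simp only [h.aa _ _ hy, Set.mem_inter_iff, h.orb.Oact _ y hy.2, and_true, h.m1 y hy]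
    exact K4.a4 γ u h.g0 q
  · refine ⟨fun x => if x ∈ D1 then l e + l (C.act γ e) else 0,
      fun x _ y _ q => by simp only [h.cl1 x y q], fun z hz q => ?_⟩
    obtain ⟨y, hy, u, rfl⟩ := h.cov z hz
    rw [Set.mem_union, h.m1 y hy, h.m3 y hy] at q
    have a0 := h.arm_const l l1 0 hy he
    rw [C.act_zero, C.act_zero] at a0
    have a1 := h.arm_const l l1 γ hy he
    rcases q with rfl | rfl
    · simp only [C.act_zero, hy.1, (h.n1 hy).2.2.1, if_true, if_false, a0, a1]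
      linear_combination -z2_self (l e)
    · simp only [act_act _ (h.orb.OH hy.2), hy.1, (h.n1 hy).2.2.1, if_true, if_false, a0, a1]
      linear_combination z2_self (l e)

theorem h0_2 (hb : ∀ c : P → P → ZMod 2, Coc (C.ls (upd s O (γ + fl))) D c →
    Cob C.le (D1 ∩ O) c ∧ Cob C.le (D3 ∩ O) c) : H0 (C.ls (upd s O (γ + fl))) D := by
  classical
  obtain ⟨e, he⟩ := h.conn.1
  intro c hc
  refine h.orb.norm h.clo2 hc (h.orb.glue (Z := (D1 ∪ D3) ∩ O) h.clo2 hc (fun x hx y q => ?_)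
    (fun z hz _ => ?_) ?_) (fun l l1 l2 => ?_) subset_rfl
  · exact and_congr (or_congr (h.cl1 x y (Or.inl q)) (h.cl3 x y (Or.inl q)))
      (h.orb.Ole x (h.orb.OH hx) y q)
  · obtain ⟨y, hy, u, rfl⟩ := h.cov z hz
    simp only [h.aa _ _ hy, Set.mem_inter_iff, Set.mem_union, h.orb.Oact _ y hy.2, and_true,
      h.m1 y hy, h.m3 y hy]
    exact K4.a5 γ u h.g0 h.g1
  · obtain ⟨⟨m1, a1⟩, m3, a3⟩ := hb c hc
    refine ⟨fun x => if x ∈ D1 then m1 x else m3 x, fun x hx y hy q => ?_⟩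
    by_cases w : x ∈ D1
    · have w' := (h.cl1 x y (Or.inl q)).1 w
      simp only [w, w', if_true]; exact a1 x ⟨w, hx.2⟩ y ⟨w', hy.2⟩ q
    · have w' : y ∉ D1 := fun t => w ((h.cl1 x y (Or.inl q)).2 t)
      simp only [w, w', if_false]
      exact a3 x ⟨hx.1.resolve_left w, hx.2⟩ y ⟨hy.1.resolve_left w', hy.2⟩ q
  · refine ⟨fun x => if x ∈ D1 ∪ D3 then l e + l (C.act γ e) else 0,
      fun x _ y _ q => by simp only [Set.mem_union, h.cl1 x y q, h.cl3 x y q], fun z hz _ => ?_⟩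
    obtain ⟨y, hy, u, rfl⟩ := h.cov z hz
    have b1 := l2 e he.2
    have b2 := l2 _ (h.orb.Oact γ e he.2)
    rw [h.aa _ _ he, add_comm] at b2
    have g0 := h.g0
    have g1 := h.g1
    simp only [h.aa _ _ hy, Set.mem_union, h.m1 y hy, h.m3 y hy, h.arm_const l l1 _ hy he]
    rcases K4.four g0 g1 u with rfl | rfl | rfl | rfl
    · rw [add_zero, if_neg (K4.a3 _ g0 g1).1, if_pos (Or.inl rfl), b2, C.act_zero]
      linear_combination -z2_self (l e)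
    · rw [add_assoc, K4.add_self, add_zero, if_pos (Or.inr rfl), if_neg (K4.a3 _ g0 g1).2, b1]
      linear_combination z2_self (l (C.act γ e))
    · rw [add_right_comm, K4.add_self, zero_add, if_neg (K4.a3 _ g0 g1).2, if_pos (Or.inr rfl),
        b1]
      linear_combination -z2_self (l (C.act u e))
    · rw [K4.add_self, if_pos (Or.inl rfl), if_neg (K4.a3 _ g0 g1).1, b2, C.act_zero]
      linear_combination z2_self (l e)

end Parts

end Cut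

end Crest.Agent.X212.Dsc37
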