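import Crest.Agent.X212.Dsc37.Abs2

/-!
# The abstract cut and paste: boundary, the induction
-/

namespace Crest.Agent.X212.Dsc37

theorem K4.a6 : ∀ γ : K4, γ ≠ 0 → γ ≠ fl → γ + fl ≠ 0 ∧ γ + fl ≠ fl := by decide

namespace Cut

variable {P G : Type} [Fintype P] [AddGroup G] {C : Cut P G}

theorem two_sub {X : Set P} (hX : X ⊆ C.H) (hc : ∀ x ∈ C.H, ∀ y, C.le x y → (x ∈ X ↔ y ∈ X)) :
    Two C.le X C.lo C.bd := by
  have a : ∀ x ∈ X, abv C.le X x = abv C.le C.H x := fun x hx => Set.ext fun y =>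
    ⟨fun e => ⟨hX e.1, e.2⟩, fun e => ⟨(hc x (hX hx) y e.2.1).1 hx, e.2⟩⟩
  have b : ∀ x ∈ X, blw C.le X x = blw C.le C.H x := fun x hx => Set.ext fun y =>
    ⟨fun e => ⟨hX e.1, e.2⟩, fun e => ⟨(hc y e.1 x e.2.1).2 hx, e.2⟩⟩
  exact ⟨fun x hx y hy => C.two.lv x (hX hx) y (hX hy),
    fun y hy e => by rw [b y hy]; exact C.two.hi y (hX hy) e,
    fun y hy e e' => by rw [a y hy]; exact C.two.loI y (hX hy) e e',
    fun y hy e => by rw [a y hy]; exact C.two.loB y (hX hy) e⟩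

/-- the result of one cut and paste -/
def Next (s : P → K4) (D O : Set P) : Prop :=
  ∃ γ D', γ ≠ fl ∧ D' ⊆ D ∧ C.Good (upd s O γ) D'

theorem Orb.rel_bd {s : P → K4} {D O : Set P} (h : C.Orb s D O) (hb : O ∩ C.bd = ∅) (γ : K4)
    {x y : P} (hy : y ∈ C.bd) : C.ls (upd s O γ) x y ↔ C.ls s x y := by
  have : y ∉ O := fun e => (hb ▸ (⟨e, hy⟩ : y ∈ O ∩ C.bd) : y ∈ (∅ : Set P))
  rw [h.ls_upd, h.ls_iff]; simp [this]

theorem Orb.good_circ {s : P → K4} {D O D' : Set P} (h : C.Orb s D O) (hb : O ∩ C.bd = ∅) {γ : K4}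
    (hγ : γ ≠ 0) (e : D' ∩ C.bd = D ∩ C.bd)
    (clo : ∀ x y, C.ls (upd s O γ) x y → (x ∈ D' ↔ y ∈ D')) (conn : Conn (C.ls (upd s O γ)) D')
    (h0 : H0 (C.ls (upd s O γ)) D') : C.Good (upd s O γ) D' := by
  refine ⟨h.st_upd hγ, clo, conn, h0, ?_, ?_⟩ <;> rw [e]
  · exact h.good.connB.mono_rel fun x _ y hy q => (h.rel_bd hb γ hy.2).2 q
  · exact fun q => h.good.ess (q.mono subset_rfl fun x _ y hy q => (h.rel_bd hb γ hy.2).2 q)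

/-- a closed part gives a potential on its arm -/
theorem Orb.cob_arm {s : P → K4} {D O U D' : Set P} (h : C.Orb s D O) {γ : K4}
    (hU : ∀ x y, C.cut s O x y → (x ∈ U ↔ y ∈ U)) (hc : Conn C.le (U ∩ O)) (hUD : U ⊆ D')
    (hb : (U ∩ O ∩ C.bd).Nonempty ∨ U ∩ C.bd = ∅) {c : P → P → ZMod 2}
    (hcc : Coc (C.ls (upd s O γ)) D' c) : Cob C.le (U ∩ O) c := by
  have t : Two C.le (U ∩ O) C.lo C.bd := two_sub (fun x hx => h.OH hx.2)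
    fun x hx y q => and_congr (hU x y (Or.inl q)) (h.Ole x hx y q)
  refine (t.arm hc).2 c (fun x hx _ => hcc.self (hUD hx.1) (Or.inl (C.refl x))) (hb.imp id fun q => ?_)
  exact h.per_zero (hcc.mono hUD fun _ _ _ _ q => h.ls_upd.2 (Or.inl q)) hU q

namespace Parts
variable {s : P → K4} {D O D1 D3 : Set P} {γ : K4} (h : C.Parts s D O D1 D3 γ)
include h

theorem bc {e : P} (he : e ∈ D1 ∩ O ∩ C.bd) : Conn (C.cut s O) (D1 ∩ C.bd) := by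
  have t : Two C.le (D1 ∩ O) C.lo C.bd := two_sub (fun x hx => h.orb.OH hx.2)
    fun x hx y q => and_congr (h.cl1 x y (Or.inl q)) (h.orb.Ole x hx y q)
  refine h.orb.bconn h.s1 h.cl1 ((t.arm h.conn).1.resolve_left fun q => ?_).1
  exact (q ▸ he : e ∈ (∅ : Set P))

theorem to3b {e : P} (he : e ∈ D1 ∩ O ∩ C.bd) : C.act γ e ∈ D3 ∩ O ∩ C.bd :=
  ⟨h.to3 he.1, C.act_bd γ e (h.orb.OH he.1.2) he.2⟩

theorem actb : ∀ u, ∀ x ∈ O, x ∈ C.bd → C.act u x ∈ C.bd :=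
  fun u x a b => C.act_bd u x (h.orb.OH a) b

theorem connB1 {e : P} (he : e ∈ D1 ∩ O ∩ C.bd) :
    Conn (C.ls (upd s O γ)) ((D1 ∪ D3) ∩ C.bd) := by
  have he3 := h.to3b he
  refine Conn.of_const ⟨e, Or.inl he.1.1, he.2⟩ fun l hl => ?_
  have a : ∀ x ∈ D1 ∩ C.bd, l x = l e := fun x hx => (h.bc he).const l (fun a ha b hb q =>
    hl a ⟨Or.inl ha.1, ha.2⟩ b ⟨Or.inl hb.1, hb.2⟩ (h.orb.ls_upd.2 (Or.inl q))) hx ⟨he.1.1, he.2⟩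
  have b : ∀ x ∈ D3 ∩ C.bd, l x = l (C.act γ e) := fun x hx => (h.symm.bc he3).const l
    (fun a ha b hb q => hl a ⟨Or.inr ha.1, ha.2⟩ b ⟨Or.inr hb.1, hb.2⟩
      (h.orb.ls_upd.2 (Or.inl q))) hx ⟨he3.1.1, he3.2⟩
  have c := hl _ ⟨Or.inr he3.1.1, he3.2⟩ e ⟨Or.inl he.1.1, he.2⟩
    (h.orb.ls_upd.2 (Or.inr ⟨he.1.2, C.refl _⟩))
  have d : ∀ x ∈ (D1 ∪ D3) ∩ C.bd, l x = l e := fun x hx =>
    hx.1.elim (fun q => a x ⟨q, hx.2⟩) fun q => (b x ⟨q, hx.2⟩).trans c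
  exact fun x hx y hy => (d x hx).trans (d y hy).symm

theorem connB2 {e : P} (he : e ∈ D1 ∩ O ∩ C.bd) :
    Conn (C.ls (upd s O (γ + fl))) (D ∩ C.bd) := by
  classical
  have he3 := h.to3b he
  refine Conn.of_const h.orb.good.connB.1 fun l hl => ?_
  have a : ∀ x ∈ D1 ∩ C.bd, l x = l e := fun x hx => (h.bc he).const l (fun a ha b hb q =>
    hl a ⟨h.s1 ha.1, ha.2⟩ b ⟨h.s1 hb.1, hb.2⟩ (h.orb.ls_upd.2 (Or.inl q))) hx ⟨he.1.1, he.2⟩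
  have b : ∀ x ∈ D3 ∩ C.bd, l x = l (C.act γ e) := fun x hx => (h.symm.bc he3).const l
    (fun a ha b hb q => hl a ⟨h.s3 ha.1, ha.2⟩ b ⟨h.s3 hb.1, hb.2⟩
      (h.orb.ls_upd.2 (Or.inl q))) hx ⟨he3.1.1, he3.2⟩
  have gl : ∀ z ∈ O, z ∈ C.bd → l (C.act (γ + fl) z) = l z := fun z hz hb =>
    hl _ ⟨h.orb.OD (h.orb.Oact _ z hz), h.actb _ z hz hb⟩ z ⟨h.orb.OD hz, hb⟩
      (h.orb.ls_upd.2 (Or.inr ⟨hz, C.refl _⟩))
  let l' : P → ZMod 2 := fun x => if x ∈ D1 then l (C.act γ e) else if x ∈ D3 then l e else l x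
  have k0 : ∀ x ∈ D ∩ C.bd, ∀ y ∈ D ∩ C.bd, C.cut s O x y → l' x = l' y := by
    intro x hx y hy q
    simp only [l', hl x hx y hy (h.orb.ls_upd.2 (Or.inl q)), h.cl1 x y q, h.cl3 x y q]
  have k2 : ∀ z ∈ O, z ∈ C.bd → l' (C.act fl z) = l' z := fun z hz hb =>
    h.fl_inv l' h.actb (fun y hy yb => by
      obtain ⟨a1, a2, a3, a4, a5, a6, -⟩ := h.n1 hy
      have e1 := gl _ (h.orb.Oact fl y hy.2) (h.actb _ y hy.2 yb)
      rw [h.aa _ _ hy, add_assoc, K4.add_self, add_zero, b _ ⟨a4, h.actb _ y hy.2 yb⟩] at e1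
      simp only [l', a1, a2, a3, a4, a5, a6, hy.1, if_true, if_false, e1, gl y hy.2 yb,
        a y ⟨hy.1, yb⟩, and_self]) hz hb
  have k3 : ∀ x ∈ D ∩ C.bd, ∀ y ∈ D ∩ C.bd, l' x = l' y := fun x hx y hy =>
    h.orb.good.connB.const l' (fun a ha b hb q => by
      rcases h.orb.ls_iff.1 q with q | ⟨hb', q⟩
      · exact k0 a ha b hb q
      · rw [k0 a ha _ ⟨h.orb.OD (h.orb.Oact _ b hb'), h.actb _ b hb' hb.2⟩ (Or.inl q),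
          k2 b hb' hb.2]) hx hy
  have d0 : l (C.act γ e) = l e := by
    have := k3 e ⟨h.s1 he.1.1, he.2⟩ _ ⟨h.s3 he3.1.1, he3.2⟩
    simpa [l', he.1.1, he3.1.1, (h.n1 he.1).2.2.1] using this
  have k4 : ∀ x ∈ C.bd, l' x = l x := by
    intro x hx
    simp only [l']
    split_ifs with q q'
    · rw [d0, a x ⟨q, hx⟩]
    · rw [b x ⟨q', hx⟩, d0]
    · rfl
  intro x hx y hy
  rw [← k4 x hx.2, ← k4 y hy.2, k3 x hx y hy]

omit h in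
theorem pot_act (h : C.Orb s D O) {u : K4} {D' : Set P} {l : P → G}
    (hl : ∀ x ∈ D' ∩ C.bd, ∀ y ∈ D' ∩ C.bd, C.ls (upd s O u) x y → l y = l x + C.g x y)
    {z : P} (hz : z ∈ O) (hb : z ∈ C.bd) (h1 : z ∈ D') (h2 : C.act u z ∈ D') :
    l (C.act u z) = l z := by
  have b := C.act_bd u z (h.OH hz) hb
  rw [hl _ ⟨h2, b⟩ z ⟨h1, hb⟩ (h.ls_upd.2 (Or.inr ⟨hz, C.refl _⟩)), ← C.g_act u z (h.OH hz),
    C.g_self _ b, add_zero]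

theorem ess_or {e : P} (he : e ∈ D1 ∩ O ∩ C.bd)
    (c1 : Cob (C.ls (upd s O γ)) ((D1 ∪ D3) ∩ C.bd) C.g)
    (c2 : Cob (C.ls (upd s O (γ + fl))) (D ∩ C.bd) C.g) : False := by
  classical
  have he3 := h.to3b he
  obtain ⟨l1, h1⟩ := c1
  obtain ⟨l0, h0⟩ := c2
  let l2 : P → G := fun x => (l1 e - l0 e) + l0 x
  have h2 : ∀ x ∈ D ∩ C.bd, ∀ y ∈ D ∩ C.bd, C.ls (upd s O (γ + fl)) x y →
      l2 y = l2 x + C.g x y := fun x hx y hy q => by simp only [l2, h0 x hx y hy q, add_assoc]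
  have a : ∀ x ∈ D1 ∩ C.bd, l1 x = l2 x := fun x hx => (h.bc he).uniq
    (fun a ha b hb q => h0 a ⟨h.s1 ha.1, ha.2⟩ b ⟨h.s1 hb.1, hb.2⟩ (h.orb.ls_upd.2 (Or.inl q)))
    (fun a ha b hb q => h1 a ⟨Or.inl ha.1, ha.2⟩ b ⟨Or.inl hb.1, hb.2⟩
      (h.orb.ls_upd.2 (Or.inl q))) ⟨he.1.1, he.2⟩ hx
  let k := l2 (C.act γ e) - l1 (C.act γ e)
  have b : ∀ x ∈ D3 ∩ C.bd, l2 x = k + l1 x := fun x hx => (h.symm.bc he3).uniq
    (fun a ha b hb q => h1 a ⟨Or.inr ha.1, ha.2⟩ b ⟨Or.inr hb.1, hb.2⟩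
      (h.orb.ls_upd.2 (Or.inl q)))
    (fun a ha b hb q => h2 a ⟨h.s3 ha.1, ha.2⟩ b ⟨h.s3 hb.1, hb.2⟩ (h.orb.ls_upd.2 (Or.inl q)))
    ⟨he3.1.1, he3.2⟩ hx
  let l : P → G := fun x => if x ∈ D1 then l1 x else if x ∈ D3 then -k + l1 x else -k + l2 x
  have k0 : ∀ x ∈ D ∩ C.bd, ∀ y ∈ D ∩ C.bd, C.cut s O x y → l y = l x + C.g x y := by
    intro x hx y hy q
    simp only [l, ← h.cl1 x y q, ← h.cl3 x y q]
    split_ifs with w w'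
    · exact h1 x ⟨Or.inl w, hx.2⟩ y ⟨Or.inl ((h.cl1 x y q).1 w), hy.2⟩ (h.orb.ls_upd.2 (Or.inl q))
    · rw [h1 x ⟨Or.inr w', hx.2⟩ y ⟨Or.inr ((h.cl3 x y q).1 w'), hy.2⟩
        (h.orb.ls_upd.2 (Or.inl q)), add_assoc]
    · exact (congrArg (-k + ·) (h2 x hx y hy (h.orb.ls_upd.2 (Or.inl q)))).trans
        (add_assoc _ _ _).symm
  have k2 : ∀ z ∈ O, z ∈ C.bd → l (C.act fl z) = l z := fun z hz hb =>
    h.fl_inv l h.actb (fun y hy yb => by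
      obtain ⟨a1, a2, a3, a4, a5, a6, -⟩ := h.n1 hy
      have yf := h.orb.Oact fl y hy.2
      have e1 := pot_act h.orb h1 hy.2 yb (Or.inl hy.1) (Or.inr a4)
      have e2 := pot_act h.orb h2 hy.2 yb (h.orb.OD hy.2) (h.orb.OD (h.orb.Oact _ y hy.2))
      have e3 := pot_act h.orb h2 yf (h.actb _ y hy.2 yb) (h.orb.OD yf)
        (h.orb.OD (h.orb.Oact _ _ yf))
      rw [h.aa _ _ hy, add_assoc, K4.add_self, add_zero, b _ ⟨a4, h.actb _ y hy.2 yb⟩, e1] at e3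
      simp only [l, a1, a2, a3, a4, a5, a6, hy.1, if_true, if_false, ← e3, e1, e2,
        ← a y ⟨hy.1, yb⟩, neg_add_cancel_left, and_self]) hz hb
  refine h.orb.good.ess ⟨l, fun x hx y hy q => ?_⟩
  rcases h.orb.ls_iff.1 q with q | ⟨hy', q⟩
  · exact k0 x hx y hy q
  · rw [← k2 y hy' hy.2, k0 x hx _ ⟨h.orb.OD (h.orb.Oact _ y hy'), h.actb _ y hy' hy.2⟩ (Or.inl q),
      C.g_act _ y (h.orb.OH hy')]

theorem next_arc {e : P} (he : e ∈ D1 ∩ O ∩ C.bd) : Next (C := C) s D O := by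
  have he3 := h.to3b he
  by_cases c1 : Cob (C.ls (upd s O γ)) ((D1 ∪ D3) ∩ C.bd) C.g
  · exact ⟨γ + fl, D, (K4.a6 γ h.g0 h.g1).2, subset_rfl, h.orb.st_upd (K4.a6 γ h.g0 h.g1).1,
      h.clo2, h.conn2, h.h0_2 fun c hc => ⟨h.orb.cob_arm h.cl1 h.conn h.s1 (Or.inl ⟨e, he⟩) hc,
        h.orb.cob_arm h.cl3 h.symm.conn h.s3 (Or.inl ⟨_, he3⟩) hc⟩, h.connB2 he, h.ess_or he c1⟩
  · exact ⟨γ, D1 ∪ D3, h.g1, Set.union_subset h.s1 h.s3, h.orb.st_upd h.g0, h.clo1, h.conn1,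
      h.h0_1 fun c hc => h.orb.cob_arm h.cl1 h.conn Set.subset_union_left (Or.inl ⟨e, he⟩) hc,
      h.connB1 he, c1⟩

theorem side (hb : O ∩ C.bd = ∅) : D1 ∩ C.bd = ∅ ∨ D ∩ C.bd ⊆ D1 := by
  rcases (D1 ∩ C.bd).eq_empty_or_nonempty with q | ⟨x, hx⟩
  · exact Or.inl q
  · refine Or.inr fun y hy => (h.orb.good.connB.2 (· ∈ D1) (fun a _ b hb' q => ?_) x
      ⟨h.s1 hx.1, hx.2⟩ y hy).1 hx.1
    rcases h.orb.ls_iff.1 q with q | ⟨w, -⟩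
    · exact h.cl1 a b q
    · exact (hb ▸ (⟨w, hb'.2⟩ : b ∈ O ∩ C.bd) : b ∈ (∅ : Set P)).elim

theorem next_c3 (hb : O ∩ C.bd = ∅) (h3 : D ∩ C.bd ⊆ D3) : Next (C := C) s D O := by
  have e1 : D1 ∩ C.bd = ∅ := Set.eq_empty_of_forall_notMem fun x hx =>
    h.dis x hx.1 (h3 ⟨h.s1 hx.1, hx.2⟩)
  refine ⟨γ, D1 ∪ D3, h.g1, Set.union_subset h.s1 h.s3, h.orb.good_circ hb h.g0 ?_ h.clo1 h.conn1
    (h.h0_1 fun c hc => h.orb.cob_arm h.cl1 h.conn Set.subset_union_left (Or.inr e1) hc)⟩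
  exact Set.Subset.antisymm (fun x hx => ⟨hx.1.elim (@h.s1 x) (@h.s3 x), hx.2⟩)
    fun x hx => ⟨Or.inr (h3 hx), hx.2⟩

theorem next : Next (C := C) s D O := by
  rcases (O ∩ C.bd).eq_empty_or_nonempty with hb | ⟨z, hz⟩
  · rcases h.side hb with a | a
    · rcases h.symm.side hb with b | b
      · exact ⟨γ + fl, D, (K4.a6 γ h.g0 h.g1).2, subset_rfl,
          h.orb.good_circ hb (K4.a6 γ h.g0 h.g1).1 rfl h.clo2 h.conn2 (h.h0_2 fun c hc =>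
            ⟨h.orb.cob_arm h.cl1 h.conn h.s1 (Or.inr a) hc,
              h.orb.cob_arm h.cl3 h.symm.conn h.s3 (Or.inr b) hc⟩)⟩
      · exact h.next_c3 hb b
    · exact h.symm.next_c3 hb a
  · obtain ⟨y, hy, u, rfl⟩ := h.cov z hz.1
    have := h.actb u _ hz.1 hz.2
    rw [act_act u (h.orb.OH hy.2)] at this
    exact h.next_arc ⟨hy, this⟩

end Parts

end Cut

end Crest.Agent.X212.Dsc37
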