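import Crest.Agent.X212.Dsc37.Abs3

/-!
# The abstract cut and paste: one step and the induction
-/

namespace Crest.Agent.X212.Dsc37

theorem K4.b0 : ∀ u : K4, u = 0 ∨ u = fl ∨ u = dk ∨ u = fl + dk := by decide
theorem K4.b1 : ∀ u : K4, u.1 = 0 → u = 0 ∨ u = dk := by decide
theorem K4.b2a : ∀ a : K4 → ZMod 2,
    (∀ v, a (fl + v) = a v + (if v = 0 then 1 else 0) + (if fl + v = 0 then 1 else 0)) →
    ∃ u1 : K4, u1.2 = 0 ∧ ∀ v, a v ≠ a dk ↔ v = u1 := by decide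
theorem K4.b2b : ∀ b : K4 → ZMod 2,
    (∀ v, b (fl + v) = b v + (if dk + v = 0 then 1 else 0) + (if dk + (fl + v) = 0 then 1 else 0)) →
    ∃ u3 : K4, u3.2 = 1 ∧ ∀ v, b v ≠ b 0 ↔ v = u3 := by decide
theorem K4.b2c : ∀ u v : K4, u.2 = 0 → v.2 = 1 → u + v ≠ 0 ∧ u + v ≠ fl ∧ u ≠ v := by decide
theorem K4.b2 (a b : K4 → ZMod 2)
    (ha : ∀ v, a (fl + v) = a v + (if v = 0 then 1 else 0) + (if fl + v = 0 then 1 else 0))
    (hb : ∀ v, b (fl + v) = b v + (if dk + v = 0 then 1 else 0) +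
      (if dk + (fl + v) = 0 then 1 else 0)) :
    ∃ u1 u3 : K4, u1 + u3 ≠ 0 ∧ u1 + u3 ≠ fl ∧ u1 ≠ u3 ∧ (∀ v, a v ≠ a dk ↔ v = u1) ∧
      ∀ v, b v ≠ b 0 ↔ v = u3 := by
  obtain ⟨u, h1, h2⟩ := K4.b2a a ha
  obtain ⟨v, h3, h4⟩ := K4.b2b b hb
  obtain ⟨p, q, r⟩ := K4.b2c u v h1 h3
  exact ⟨u, v, p, q, r, h2, h4⟩
theorem K4.b3 : ∀ u v w : K4, (u + v = w ↔ u = v + w) := by decide
theorem K4.b4 : ∀ a : K4 → ZMod 2,
    (∀ v, a (fl + v) = a v + (if v.1 = 0 then 1 else 0) + (if (fl + v).1 = 0 then 1 else 0)) →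
    (∀ v, a (dk + v) = a v) → ∀ v w, (a v = a w ↔ v.1 = w.1) := by decide
theorem K4.b5 : ∀ v w : K4, v.1 = w.1 → v = w ∨ v = w + dk := by decide
theorem K4.b6 : ∀ v w : K4, (v.1 = w.1 ↔ ¬ (fl + dk + v).1 = w.1) := by decide

namespace Cut

variable {P G : Type} [Fintype P] [AddGroup G] {C : Cut P G} {s : P → K4} {D : Set P} {x0 : P}

/-- the arm through `x0` and its orbit -/
abbrev arm (C : Cut P G) (x0 : P) : Set P := cmp C.le C.H x0
def orb (C : Cut P G) (x0 : P) : Set P := {y | y ∈ C.H ∧ ∃ u, C.act u y ∈ C.arm x0}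

theorem arm_le {x y : P} (hx : x ∈ C.H) (e : C.le x y) : x ∈ C.arm x0 ↔ y ∈ C.arm x0 :=
  cmp_closed hx (C.up x hx y e) e

theorem arm_tr (h0 : x0 ∈ C.H) {β : Type*} (l : P → β) (u : K4)
    (hl : ∀ x ∈ C.orb x0, ∀ y, C.le x y → l x = l y) {y : P} (hy : y ∈ C.arm x0) :
    l (C.act u y) = l (C.act u x0) :=
  (cmp_conn h0).2.const (fun a => l (C.act u a)) (fun a ha b _ e => hl _
    ⟨C.actH u a ha.1, u, by rw [act_act u ha.1]; exact ha⟩ _ (C.act_mono u a ha.1 b e))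
    hy (cmp_conn h0).1

theorem mem_orb {y : P} (hy : y ∈ C.arm x0) (u : K4) : C.act u y ∈ C.orb x0 :=
  ⟨C.actH u y hy.1, u, by rw [act_act u hy.1]; exact hy⟩

theorem of_orb {z : P} (hz : z ∈ C.orb x0) : ∃ y ∈ C.arm x0, ∃ u, z = C.act u y := by
  obtain ⟨a, u, b⟩ := hz
  exact ⟨_, b, u, (act_act u a).symm⟩

theorem orb_of (h : C.Good s D) (h0 : x0 ∈ C.H) (hD : x0 ∈ D) (hs : s x0 = fl)
    (hd : C.act dk x0 ∈ D) : C.Orb s D (C.orb x0) := by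
  have f : ∀ y ∈ C.H, s y = fl → y ∈ D → C.act fl y ∈ D := fun y a b c =>
    (h.clo _ y (Or.inr ⟨a, by rw [b]; exact C.refl _⟩)).2 c
  refine ⟨h, fun y hy => hy.1, fun z hz => ?_, fun x hx y e => ?_, fun u z hz => ?_,
    fun z hz => ?_⟩
  · obtain ⟨y, hy, u, rfl⟩ := of_orb hz
    rw [arm_tr h0 (· ∈ D) u (fun x _ y e => propext (h.clo x y (Or.inl e))) hy]
    rcases K4.b0 u with rfl | rfl | rfl | rfl
    · rwa [C.act_zero]
    · exact f x0 h0 hs hD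
    · exact hd
    · rw [C.act_add _ _ _ h0]
      exact f _ (C.actH _ _ h0) (by rw [h.st.inv _ _ h0, hs]) hd
  · exact and_congr (iff_of_true hx (C.up x hx y e)) (exists_congr fun u =>
      arm_le (C.actH u x hx) (C.act_mono u x hx y e))
  · obtain ⟨y, hy, v, rfl⟩ := of_orb hz
    rw [← C.act_add _ _ _ hy.1]; exact mem_orb hy _
  · obtain ⟨y, hy, v, rfl⟩ := of_orb hz
    rw [arm_tr h0 s v (fun x hx y e => h.st.loc x hx.1 y e) hy, h.st.inv _ _ h0, hs]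

theorem arm_lab (h0 : x0 ∈ C.H) {y : P} (hy : y ∈ C.arm x0) {u : K4}
    (hu : C.act u y ∈ C.arm x0) : u.1 = 0 := by
  have a := (cmp_conn h0).2.const C.lab (fun a ha b _ e => C.lab_le a ha.1 b e) hu hy
  rw [C.lab_act u y hy.1] at a
  simpa using a

theorem arm_dk (h0 : x0 ∈ C.H) {y : P} (hy : y ∈ C.arm x0) :
    C.act dk y ∈ C.arm x0 ↔ C.act dk x0 ∈ C.arm x0 :=
  (arm_tr h0 (· ∈ C.arm x0) dk (fun _ hx _ e => propext (arm_le hx.1 e)) hy).to_iff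

theorem conn_act (h0 : x0 ∈ C.H) (u : K4) {X : Set P} (h1 : ∀ y ∈ C.arm x0, C.act u y ∈ X)
    (h2 : ∀ z ∈ X, ∃ y ∈ C.arm x0, z = C.act u y) : Conn C.le X := by
  refine ⟨⟨_, h1 x0 (cmp_conn h0).1⟩, fun κ hκ x hx z hz => ?_⟩
  obtain ⟨y, hy, rfl⟩ := h2 x hx
  obtain ⟨y', hy', rfl⟩ := h2 z hz
  exact (cmp_conn h0).2.2 (fun a => κ (C.act u a)) (fun a ha b hb e =>
    hκ _ (h1 a ha) _ (h1 b hb) (C.act_mono u a ha.1 b e)) y hy y' hy'

/-- two different curves -/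
theorem step_two (h : C.Orb s D (C.orb x0)) (h0 : x0 ∈ C.H) (hd : C.act dk x0 ∉ C.arm x0) :
    Next (C := C) s D (C.orb x0) := by
  classical
  have m0 := (cmp_conn (r := C.le) h0).1
  have ma : ∀ y ∈ C.arm x0, ∀ u, (C.act u y ∈ C.arm x0 ↔ u = 0) := fun y hy u =>
    ⟨fun e => (K4.b1 u (arm_lab h0 hy e)).resolve_right fun q =>
      hd ((arm_dk h0 hy).1 (q ▸ e)), fun e => by rwa [e, C.act_zero]⟩
  obtain ⟨κ, k1, k2⟩ := h.jump (X := C.arm x0) fun x hx y e => arm_le hx.1 e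
  obtain ⟨μ, l1, l2⟩ := h.jump (X := {y | C.act dk y ∈ C.arm x0})
    fun x hx y e => arm_le (C.actH _ _ hx.1) (C.act_mono _ _ hx.1 _ e)
  have tr : ∀ κ : P → ZMod 2, (∀ x ∈ D, ∀ y ∈ D, C.cut s (C.orb x0) x y → κ x = κ y) →
      ∀ u, ∀ y ∈ C.arm x0, κ (C.act u y) = κ (C.act u x0) := fun κ k u y hy =>
    arm_tr h0 κ u (fun a ha b e => k a (h.OD ha) b (h.OD ((h.Ole a ha.1 b e).1 ha)) (Or.inl e)) hy
  obtain ⟨u1, u3, g0, g1, ne, a1, a3⟩ := K4.b2 (fun v => κ (C.act v x0)) (fun v => μ (C.act v x0))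
    (fun v => by
      have := k2 _ (mem_orb m0 v)
      simp only [← C.act_add _ _ _ h0, ma x0 m0] at this
      convert this)
    (fun v => by
      have := l2 _ (mem_orb m0 v)
      simp only [Set.mem_ofPred_eq, ← C.act_add _ _ _ h0, ma x0 m0] at this
      convert this)
  let D1 := {x | x ∈ D ∧ κ x ≠ κ (C.act dk x0)}
  let D3 := {x | x ∈ D ∧ μ x ≠ μ (C.act 0 x0)}
  have d1 : ∀ y ∈ C.arm x0, ∀ v, (C.act v y ∈ D1 ↔ v = u1) := fun y hy v => by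
    rw [← a1 v, ← tr κ k1 v y hy]; exact and_iff_right (h.OD (mem_orb hy v))
  have d3 : ∀ y ∈ C.arm x0, ∀ v, (C.act v y ∈ D3 ↔ v = u3) := fun y hy v => by
    rw [← a3 v, ← tr μ l1 v y hy]; exact and_iff_right (h.OD (mem_orb hy v))
  have cl : ∀ (κ : P → ZMod 2) (t : ZMod 2),
      (∀ x ∈ D, ∀ y ∈ D, C.cut s (C.orb x0) x y → κ x = κ y) →
      ∀ x y, C.cut s (C.orb x0) x y → (x ∈ D ∧ κ x ≠ t ↔ y ∈ D ∧ κ y ≠ t) := by
    intro κ t k x y e
    rw [← h.clo_cut e]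
    exact and_congr_right fun hx => by rw [k x hx y ((h.clo_cut e).1 hx) e]
  have c1 : ∀ x y, C.cut s (C.orb x0) x y → (x ∈ D1 ↔ y ∈ D1) := cl κ _ k1
  have c3 : ∀ x y, C.cut s (C.orb x0) x y → (x ∈ D3 ↔ y ∈ D3) := cl μ _ l1
  have no : ∀ z ∈ C.orb x0, ¬ (z ∈ D1 ∧ z ∈ D3) := fun z hz q => by
    obtain ⟨y, hy, v, rfl⟩ := of_orb hz
    exact ne (((d1 y hy v).1 q.1).symm.trans ((d3 y hy v).1 q.2))
  have o1 : ∀ z ∈ D1 ∩ C.orb x0, ∃ y ∈ C.arm x0, z = C.act u1 y := fun z hz => by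
    obtain ⟨y, hy, v, rfl⟩ := of_orb hz.2
    exact ⟨y, hy, by rw [(d1 y hy v).1 hz.1]⟩
  refine Parts.next (D1 := D1) (D3 := D3) (γ := u1 + u3) ⟨h, g0, g1, fun x hx => hx.1,
    fun x hx => hx.1, c1, c3, fun x a b => ?_, fun z hz u => ?_, fun z hz u => ?_, fun z hz => ?_,
    conn_act h0 u1 (fun y hy => ⟨(d1 y hy u1).2 rfl, mem_orb hy _⟩) o1⟩
  · have x0O := mem_orb m0 0
    refine no _ x0O ((h.good.conn.2 (fun x => x ∈ D1 ∧ x ∈ D3) (fun x _ y _ e => ?_) x a.1 _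
      (h.OD x0O)).1 ⟨a, b⟩)
    rcases h.ls_iff.1 e with e | ⟨hy, e⟩
    · rw [c1 x y e, c3 x y e]
    · rw [c1 x _ (Or.inl e), c3 x _ (Or.inl e)]
      exact iff_of_false (no _ (h.Oact _ y hy)) (no y hy)
  · obtain ⟨y, hy, rfl⟩ := o1 z hz
    rw [← C.act_add _ _ _ hy.1, d1 y hy]; simp
  · obtain ⟨y, hy, rfl⟩ := o1 z hz
    rw [← C.act_add _ _ _ hy.1, d3 y hy]; exact K4.b3 _ _ _
  · obtain ⟨y, hy, v, rfl⟩ := of_orb hz
    exact ⟨_, ⟨(d1 y hy u1).2 rfl, mem_orb hy _⟩, v + u1, by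
      rw [← C.act_add _ _ _ hy.1, add_assoc, K4.add_self, add_zero]⟩

/-- one invariant circle -/
theorem step_one (h : C.Orb s D (C.orb x0)) (h0 : x0 ∈ C.H) (hd : C.act dk x0 ∈ C.arm x0) :
    Next (C := C) s D (C.orb x0) := by
  classical
  have m0 := (cmp_conn (r := C.le) h0).1
  have md : ∀ y ∈ C.arm x0, C.act dk y ∈ C.arm x0 := fun y hy => (arm_dk h0 hy).2 hd
  have ma : ∀ y ∈ C.arm x0, ∀ u, (C.act u y ∈ C.arm x0 ↔ u.1 = 0) := fun y hy u =>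
    ⟨arm_lab h0 hy, fun e => by
      rcases K4.b1 u e with rfl | rfl
      exacts [by rwa [C.act_zero], md y hy]⟩
  have hb : C.orb x0 ∩ C.bd = ∅ := by
    have t := (two_sub (C := C) (X := C.arm x0) (fun y hy => hy.1) fun x hx y e => arm_le hx e).arm
      (cmp_conn h0).2
    have ev := even_of_invol (C.act dk) md (fun y hy => act_act _ hy.1)
      fun y hy => act_ne (by decide) hy.1
    have e := t.1.resolve_right fun q => (Nat.not_even_iff_odd.2 q.2) ev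
    refine Set.eq_empty_of_forall_notMem fun z hz => ?_
    obtain ⟨a, u, b⟩ := hz.1
    exact Set.eq_empty_iff_forall_notMem.1 e _ ⟨b, C.act_bd u z a hz.2⟩
  have tr : ∀ l : P → ZMod 2, (∀ x ∈ C.orb x0, ∀ y, C.le x y → l x = l y) →
      ∀ z ∈ C.orb x0, l (C.act dk z) = l z := by
    intro l hl z hz
    obtain ⟨y, hy, v, rfl⟩ := of_orb hz
    rw [act_comm _ _ hy.1, arm_tr h0 l v hl (md y hy), arm_tr h0 l v hl hy]
  have clo : ∀ x y, C.ls (upd s (C.orb x0) (fl + dk)) x y → (x ∈ D ↔ y ∈ D) := by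
    intro x y e
    rcases h.ls_upd.1 e with e | ⟨hy, e⟩
    · exact h.clo_cut e
    · rw [h.clo_cut (Or.inl e)]; exact iff_of_true (h.OD (h.Oact _ y hy)) (h.OD hy)
  refine ⟨fl + dk, D, by decide, subset_rfl, h.good_circ hb (by decide) rfl clo ?_ fun c hc => ?_⟩
  · refine Conn.of_const h.good.conn.1 fun l hl x hx y hy => h.good.conn.const l
      (fun a ha b hb' q => ?_) hx hy
    rcases h.ls_iff.1 q with q | ⟨w, q⟩
    · exact hl a ha b hb' (h.ls_upd.2 (Or.inl q))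
    · have w' := h.Oact dk b w
      have t := tr l (fun x hx y e => hl x (h.OD hx) y (h.OD ((h.Ole x hx.1 y e).1 hx)) (Or.inl e))
      rw [← t b w]
      refine hl a ha _ (h.OD w') (h.ls_upd.2 (Or.inr ⟨w', ?_⟩))
      rwa [← C.act_add _ _ _ w.1, add_assoc, K4.add_self, add_zero]
  obtain ⟨κ, k1, k2⟩ := h.jump (X := C.arm x0) fun x hx y e => arm_le hx.1 e
  have kl : ∀ x ∈ C.orb x0, ∀ y, C.le x y → κ x = κ y := fun a ha b e =>
    k1 a (h.OD ha) b (h.OD ((h.Ole a ha.1 b e).1 ha)) (Or.inl e)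
  have kk := K4.b4 (fun v => κ (C.act v x0)) (fun v => by
      have := k2 _ (mem_orb m0 v)
      simp only [← C.act_add _ _ _ h0, ma x0 m0] at this
      convert this) fun v => by
    have := tr κ kl _ (mem_orb m0 v)
    rwa [← C.act_add _ _ _ h0] at this
  obtain ⟨w, hw⟩ : ∃ w, {x | x ∈ D ∧ κ x = κ (C.act w x0)} ∩ C.bd = ∅ := by
    obtain ⟨e, he⟩ := h.good.connB.1
    have : ∃ w, κ e ≠ κ (C.act w x0) := by
      by_contra q
      push Not at q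
      exact absurd ((kk 0 fl).1 ((q 0).symm.trans (q fl))) (by decide)
    obtain ⟨w, hw⟩ := this
    refine ⟨w, Set.eq_empty_of_forall_notMem fun x hx => hw ?_⟩
    rw [← hx.1.2]
    refine h.good.connB.const κ (fun a ha b hb' q => ?_) he ⟨hx.1.1, hx.2⟩
    rcases h.ls_iff.1 q with q | ⟨w, -⟩
    · exact k1 a ha.1 b hb'.1 q
    · exact (hb ▸ (⟨w, hb'.2⟩ : b ∈ C.orb x0 ∩ C.bd) : b ∈ (∅ : Set P)).elim
  set U := {x | x ∈ D ∧ κ x = κ (C.act w x0)}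
  have cU : ∀ x y, C.cut s (C.orb x0) x y → (x ∈ U ↔ y ∈ U) := by
    intro x y e
    change x ∈ D ∧ _ ↔ y ∈ D ∧ _
    rw [← h.clo_cut e]
    exact and_congr_right fun hx => by rw [k1 x hx y ((h.clo_cut e).1 hx) e]
  have dU : ∀ y ∈ C.arm x0, ∀ v, (C.act v y ∈ U ∩ C.orb x0 ↔ v.1 = w.1) := fun y hy v => by
    rw [← kk v w, ← arm_tr h0 κ v kl hy]
    exact ⟨fun e => e.1.2, fun e => ⟨⟨h.OD (mem_orb hy v), e⟩, mem_orb hy v⟩⟩
  refine h.norm clo hc (h.glue (Z := U ∩ C.orb x0) clo hc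
    (fun x hx y q => and_congr (cU x y (Or.inl q)) (h.Ole x hx.1 y q)) (fun z hz _ => ?_)
    (h.cob_arm cU (conn_act h0 w (fun y hy => (dU y hy w).2 rfl) fun z hz => ?_)
      (fun x hx => hx.1) (Or.inr hw) hc)) (fun l l1 l2 => ⟨0, fun _ _ _ _ _ => rfl,
        fun z hz _ => ?_⟩) subset_rfl
  · obtain ⟨y, hy, v, rfl⟩ := of_orb hz
    rw [← C.act_add _ _ _ hy.1, dU y hy, dU y hy]; exact K4.b6 v w
  · obtain ⟨y, hy, v, rfl⟩ := of_orb hz.2
    rcases K4.b5 v w ((dU y hy v).1 hz) with rfl | rfl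
    · exact ⟨y, hy, rfl⟩
    · exact ⟨_, md y hy, C.act_add _ _ _ hy.1⟩
  · rw [C.act_add _ _ _ hz.1, l2 _ (h.Oact _ z hz), tr l l1 z hz]; rfl

/-- **cut and paste**: an essential singular disc without self crossings -/
theorem Good.final (h : C.Good s D) : ∃ s' D', C.Good s' D' ∧
    ∀ x ∈ C.H, x ∈ D' → s' x = fl → C.act dk x ∉ D' := by
  generalize hn : {x | x ∈ C.H ∧ x ∈ D ∧ s x = fl ∧ C.act dk x ∈ D}.ncard = n
  induction n using Nat.strong_induction_on generalizing s D with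
  | _ n ih =>
    by_cases q : ∃ x0 ∈ C.H, x0 ∈ D ∧ s x0 = fl ∧ C.act dk x0 ∈ D
    · obtain ⟨x0, h0, hD, hs, hd⟩ := q
      have o := orb_of h h0 hD hs hd
      obtain ⟨γ, D', g, sub, good⟩ : Next (C := C) s D (C.orb x0) := by
        by_cases e : C.act dk x0 ∈ C.arm x0
        exacts [step_one o h0 e, step_two o h0 e]
      refine ih _ ?_ good rfl
      rw [← hn]
      refine Set.ncard_lt_ncard ⟨fun x hx => ⟨hx.1, sub hx.2.1, ?_, sub hx.2.2.2⟩, fun w => ?_⟩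
      · have := hx.2.2.1
        unfold upd at this
        split_ifs at this
        exacts [(g this).elim, this]
      · have := (w ⟨h0, hD, hs, hd⟩).2.2.1
        have m : x0 ∈ C.orb x0 := ⟨h0, 0, by rw [C.act_zero]; exact (cmp_conn h0).1⟩
        unfold upd at this
        rw [if_pos m] at this
        exact g this
    · exact ⟨s, D, h, fun x a b c d => q ⟨x, a, b, c, d⟩⟩

end Cut

end Crest.Agent.X212.Dsc37
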