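import Crest.Agent.X212.Dsc37.Tool

/-!
# `H^1` of a connected two-level poset of valence two (a circle or an arc)
-/

namespace Crest.Agent.X212.Dsc37

open Finset

variable {α : Type*} [Fintype α] {r : α → α → Prop} {J lo bd : Set α}

open Classical in
/-- strict pairs in `J` -/
noncomputable def prs (r : α → α → Prop) (J : Set α) : Finset (α × α) :=
  univ.filter fun p => p.1 ∈ J ∧ p.2 ∈ J ∧ r p.1 p.2 ∧ p.1 ≠ p.2

theorem mem_prs {p : α × α} : p ∈ prs r J ↔ p.1 ∈ J ∧ p.2 ∈ J ∧ r p.1 p.2 ∧ p.1 ≠ p.2 := by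
  simp [prs]

/-- the period of a cochain -/
noncomputable def per (r : α → α → Prop) (J : Set α) (c : α → α → ZMod 2) : ZMod 2 :=
  ∑ p ∈ prs r J, c p.1 p.2

/-- elements strictly above / below -/
def abv (r : α → α → Prop) (J : Set α) (x : α) : Set α := {y | y ∈ J ∧ r x y ∧ x ≠ y}
def blw (r : α → α → Prop) (J : Set α) (y : α) : Set α := {x | x ∈ J ∧ r x y ∧ x ≠ y}

open Classical in
theorem sum_prs_fst {M : Type*} [AddCommMonoid M] (f : α → M) :
    ∑ p ∈ prs r J, f p.1 = ∑ x ∈ univ.filter (· ∈ J), (abv r J x).ncard • f x := by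
  rw [prs, sum_filter, Fintype.sum_prod_type, sum_filter]
  refine sum_congr rfl fun x _ => ?_
  split_ifs with hx
  · rw [← sum_filter]
    simp only [sum_const]
    congr 1
    rw [← Set.ncard_coe_finset]; congr 1; ext y; simp [abv, hx]
  · simp [hx]

open Classical in
theorem sum_prs_snd {M : Type*} [AddCommMonoid M] (f : α → M) :
    ∑ p ∈ prs r J, f p.2 = ∑ y ∈ univ.filter (· ∈ J), (blw r J y).ncard • f y := by
  rw [prs, sum_filter, Fintype.sum_prod_type_right, sum_filter]
  refine sum_congr rfl fun x _ => ?_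
  split_ifs with hx
  · rw [← sum_filter]
    simp only [sum_const]
    congr 1
    rw [← Set.ncard_coe_finset]; congr 1; ext y; simp [blw, hx]
  · simp [hx]

/-- a two-level poset of valence two, with end points `bd` of valence one -/
structure Two (r : α → α → Prop) (J lo bd : Set α) : Prop where
  lv : ∀ x ∈ J, ∀ y ∈ J, r x y → x ≠ y → x ∈ lo ∧ y ∉ lo
  hi : ∀ y ∈ J, y ∉ lo → (blw r J y).ncard = 2
  loI : ∀ x ∈ J, x ∈ lo → x ∉ bd → (abv r J x).ncard = 2
  loB : ∀ x ∈ J, x ∈ bd → x ∈ lo ∧ (abv r J x).ncard = 1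

omit [Fintype α] in
theorem Two.abv_hi (h : Two r J lo bd) {x : α} (hx : x ∈ J) (hl : x ∉ lo) :
    (abv r J x).ncard = 0 := by
  have : abv r J x = ∅ := by
    ext y; exact ⟨fun e => hl (h.lv x hx y e.1 e.2.1 e.2.2).1, fun e => e.elim⟩
  simp [this]

omit [Fintype α] in
theorem Two.blw_lo (h : Two r J lo bd) {x : α} (hx : x ∈ J) (hl : x ∈ lo) :
    (blw r J x).ncard = 0 := by
  have : blw r J x = ∅ := by
    ext y; exact ⟨fun e => (h.lv y e.1 x hx e.2.1 e.2.2).2 hl, fun e => e.elim⟩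
  simp [this]

open Classical in
theorem Two.count (h : Two r J lo bd) :
    2 * J.ncard = 2 * (prs r J).card + (J ∩ bd).ncard ∧
    2 * (J ∩ lo).ncard = (prs r J).card + (J ∩ bd).ncard ∧
    2 * (J \ lo).ncard = (prs r J).card := by
  have e1 := sum_prs_fst (r := r) (J := J) (fun _ => (1 : ℕ))
  have e2 := sum_prs_snd (r := r) (J := J) (fun _ => (1 : ℕ))
  simp only [sum_const, smul_eq_mul, mul_one] at e1 e2
  have c : ∀ T : Set α, (J ∩ T).ncard = ∑ x ∈ univ.filter (· ∈ J), if x ∈ T then 1 else 0 := by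
    intro T
    rw [← card_filter, ← Set.ncard_coe_finset]; congr 1; ext y; simp
  have a2 : 2 * (J ∩ lo).ncard = (prs r J).card + (J ∩ bd).ncard := by
    rw [c, c, e1, mul_sum, ← sum_add_distrib]
    refine sum_congr rfl fun x hx => ?_
    have hx : x ∈ J := by simpa using hx
    by_cases hb : x ∈ bd
    · simp [hb, (h.loB x hx hb).1, (h.loB x hx hb).2]
    · by_cases hl : x ∈ lo
      · simp [hb, hl, h.loI x hx hl hb]
      · simp [hb, hl, h.abv_hi hx hl]
  have a3 : 2 * (J \ lo).ncard = (prs r J).card := by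
    rw [Set.sdiff_eq, c, e2, mul_sum]
    refine sum_congr rfl fun x hx => ?_
    have hx : x ∈ J := by simpa using hx
    by_cases hl : x ∈ lo
    · simp [hl, h.blw_lo hx hl]
    · simp [hl, h.hi x hx hl]
  have a1 := Set.ncard_inter_add_ncard_sdiff_eq_ncard J lo
  omega

/-- the coboundary map -/
def dmap (r : α → α → Prop) (J : Set α) : (J → ZMod 2) →ₗ[ZMod 2] (prs r J → ZMod 2) where
  toFun l p := l ⟨p.1.1, (mem_prs.1 p.2).1⟩ + l ⟨p.1.2, (mem_prs.1 p.2).2.1⟩
  map_add' a b := by funext p; simp only [Pi.add_apply]; ring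
  map_smul' a b := by funext p; simp only [Pi.smul_apply, smul_eq_mul, RingHom.id_apply]; ring

theorem z2_add_eq_zero {a b : ZMod 2} : a + b = 0 ↔ a = b := by revert a b; decide

theorem rank_dmap (hc : Conn r J) :
    Module.finrank (ZMod 2) (LinearMap.range (dmap r J)) + 1 = J.ncard := by
  classical
  have e := LinearMap.finrank_range_add_finrank_ker (dmap r J)
  obtain ⟨x0, hx0⟩ := hc.1
  have k : LinearMap.ker (dmap r J) = Submodule.span (ZMod 2) {fun _ => 1} := by
    ext l
    rw [LinearMap.mem_ker, Submodule.mem_span_singleton]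
    constructor
    · intro hl
      refine ⟨l ⟨x0, hx0⟩, funext fun y => ?_⟩
      have := hc.const (fun z => if e : z ∈ J then l ⟨z, e⟩ else 0) (fun a ha b hb e => by
        by_cases e' : a = b
        · rw [e']
        · have := congrFun hl ⟨(a, b), mem_prs.2 ⟨ha, hb, e, e'⟩⟩
          simp only [ha, hb, dif_pos]
          exact z2_add_eq_zero.1 this) hx0 y.2
      simpa [hx0] using this
    · rintro ⟨a, rfl⟩
      funext p
      exact z2_add_eq_zero.2 rfl
  rw [k, finrank_span_singleton (fun h => by simpa using congrFun h ⟨x0, hx0⟩)] at e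
  rw [e, Module.finrank_fintype_fun_eq_card, ← Nat.card_coe_set_eq, Nat.card_eq_fintype_card]

theorem cob_of_range {c : α → α → ZMod 2} (h0 : ∀ x ∈ J, r x x → c x x = 0)
    (h : (fun p : prs r J => c p.1.1 p.1.2) ∈ LinearMap.range (dmap r J)) : Cob r J c := by
  classical
  obtain ⟨l, hl⟩ := h
  refine ⟨fun z => if e : z ∈ J then l ⟨z, e⟩ else 0, fun a ha b hb e => ?_⟩
  by_cases e' : a = b
  · subst e'; rw [h0 a ha e, add_zero]
  · have : l ⟨a, ha⟩ + l ⟨b, hb⟩ = c a b := congrFun hl ⟨(a, b), mem_prs.2 ⟨ha, hb, e, e'⟩⟩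
    simp only [ha, hb, dif_pos, ← this]
    generalize l ⟨a, ha⟩ = u; generalize l ⟨b, hb⟩ = v; revert u v; decide

theorem Two.per_d (h : Two r J lo bd) (hb : J ∩ bd = ∅) (l : α → ZMod 2) :
    per r J (fun x y => l x + l y) = 0 := by
  classical
  simp only [per, sum_add_distrib]
  rw [sum_prs_fst, sum_prs_snd, ← sum_add_distrib]
  refine sum_eq_zero fun x hx => ?_
  have hx : x ∈ J := by simpa using hx
  have nb : x ∉ bd := fun e => (hb ▸ (⟨hx, e⟩ : x ∈ J ∩ bd) : x ∈ (∅ : Set α))
  have t : (2 : ℕ) • l x = 0 := by rw [two_nsmul]; exact z2_add_eq_zero.2 rfl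
  by_cases hl : x ∈ lo
  · rw [h.loI x hx hl nb, h.blw_lo hx hl, t]; simp
  · rw [h.hi x hx hl, h.abv_hi hx hl, t]; simp

/-- a circle or an arc -/
theorem Two.arm (h : Two r J lo bd) (hc : Conn r J) :
    (J ∩ bd = ∅ ∨ ((J ∩ bd).ncard = 2 ∧ Odd J.ncard)) ∧
    ∀ c : α → α → ZMod 2, (∀ x ∈ J, r x x → c x x = 0) → ((J ∩ bd).Nonempty ∨ per r J c = 0) →
      Cob r J c := by
  classical
  obtain ⟨c1, c2, c3⟩ := h.count
  have rk := rank_dmap hc
  have le := Submodule.finrank_le (LinearMap.range (dmap r J))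
  rw [Module.finrank_fintype_fun_eq_card, Fintype.card_coe] at le
  rcases (J ∩ bd).eq_empty_or_nonempty with hb | hb
  · refine ⟨Or.inl hb, fun c h0 hp => ?_⟩
    have hp : per r J c = 0 := hp.resolve_left (by simp [hb])
    rw [hb, Set.ncard_empty] at c1
    let σ : (prs r J → ZMod 2) →ₗ[ZMod 2] ZMod 2 :=
      { toFun := fun u => ∑ p, u p
        map_add' := fun a b => by simp [sum_add_distrib]
        map_smul' := fun a b => by simp [mul_sum] }
    have hle : LinearMap.range (dmap r J) ≤ LinearMap.ker σ := by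
      rintro _ ⟨l, rfl⟩
      have := h.per_d hb fun z => if e : z ∈ J then l ⟨z, e⟩ else 0
      rw [per, ← sum_coe_sort] at this
      rw [LinearMap.mem_ker, ← this]
      refine sum_congr rfl fun p _ => ?_
      simp only [(mem_prs.1 p.2).1, (mem_prs.1 p.2).2.1, dif_pos]; rfl
    have hne : LinearMap.ker σ ≠ ⊤ := by
      intro e
      have hpos : 0 < (prs r J).card := by omega
      obtain ⟨p, hp⟩ := card_pos.1 hpos
      have : (Pi.single ⟨p, hp⟩ 1 : prs r J → ZMod 2) ∈ LinearMap.ker σ := e ▸ trivial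
      simp [σ, LinearMap.mem_ker] at this
    have lt := Submodule.finrank_lt hne
    rw [Module.finrank_fintype_fun_eq_card, Fintype.card_coe] at lt
    have eq : LinearMap.range (dmap r J) = LinearMap.ker σ :=
      Submodule.eq_of_le_of_finrank_le hle (by omega)
    refine cob_of_range h0 (eq ▸ ?_)
    rw [LinearMap.mem_ker, ← hp, per, ← sum_coe_sort]; rfl
  · have pos : 0 < (J ∩ bd).ncard := (Set.ncard_pos).2 hb
    refine ⟨Or.inr ⟨by omega, ?_⟩, fun c h0 _ => cob_of_range h0 ?_⟩
    · rw [Nat.odd_iff]; omega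
    · have : LinearMap.range (dmap r J) = ⊤ := by
        apply Submodule.eq_top_of_finrank_eq
        rw [Module.finrank_fintype_fun_eq_card, Fintype.card_coe]; omega
      rw [this]; trivial

end Crest.Agent.X212.Dsc37
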