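import Crest.Agent.X212.Dsc37.Ori
import Crest.Agent.X212.Dsc37.Abs4

/-!
# Crossing simplices, half cells
-/

namespace Crest.Agent.X212.Dsc37

open Finset

section Count
variable {V : Type*} [DecidableEq V]

theorem card3 {a b c : V} (h1 : a ≠ b) (h2 : a ≠ c) (h3 : b ≠ c) : ({a, b, c} : Finset V).card = 3 :=
  card_eq_three.2 ⟨a, b, c, h1, h2, h3, rfl⟩

theorem edge_two {p : V → Prop} {a b c : V} (h1 : ¬ (p a ↔ p b)) (h2 : p b ↔ p c) (e : Finset V) :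
    (e ⊆ {a, b, c} ∧ e.card = 2 ∧ (∃ x ∈ e, p x) ∧ ∃ y ∈ e, ¬ p y) ↔ e = {a, b} ∨ e = {a, c} := by
  have ab : a ≠ b := fun q => h1 (by rw [q])
  have ac : a ≠ c := fun q => h1 (by rw [q, h2])
  constructor
  · rintro ⟨s, hc, ⟨x, hx, px⟩, y, hy, py⟩
    have xy : x ≠ y := fun q => py (q ▸ px)
    have e2 : e = {x, y} := (eq_of_subset_of_card_le
      (insert_subset hx (singleton_subset_iff.2 hy)) (by rw [hc, card_pair xy])).symm
    have sx := s hx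
    have sy := s hy
    simp only [mem_insert, mem_singleton] at sx sy
    rw [e2]
    rcases sx with rfl | rfl | rfl <;> rcases sy with rfl | rfl | rfl <;>
      first | exact (xy rfl).elim | exact Or.inl rfl | exact Or.inr rfl | exact Or.inl (pair_comm _ _) | exact Or.inr (pair_comm _ _) | tauto
  · rintro (rfl | rfl)
    · refine ⟨by intro x; simp; tauto, card_pair ab, ?_⟩
      by_cases q : p a
      · exact ⟨⟨a, by simp, q⟩, b, by simp, by tauto⟩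
      · exact ⟨⟨b, by simp, by tauto⟩, a, by simp, q⟩
    · refine ⟨by intro x; simp; tauto, card_pair ac, ?_⟩
      by_cases q : p a
      · exact ⟨⟨a, by simp, q⟩, c, by simp, by tauto⟩
      · exact ⟨⟨c, by simp, by tauto⟩, a, by simp, q⟩

theorem tri_two {p q r : V → Prop} {x y z m : V} (px : p x) (qy : q y) (rz : r z) (pm : p m)
    (xm : x ≠ m) (pq : ∀ a ∈ ({x, y, z, m} : Finset V), ¬ (p a ∧ q a))
    (pr : ∀ a ∈ ({x, y, z, m} : Finset V), ¬ (p a ∧ r a))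
    (qr : ∀ a ∈ ({x, y, z, m} : Finset V), ¬ (q a ∧ r a)) :
    {t : Finset V | t ⊆ {x, y, z, m} ∧ t.card = 3 ∧ (∃ a ∈ t, p a) ∧ (∃ a ∈ t, q a) ∧
      ∃ a ∈ t, r a}.ncard = 2 := by
  have xy : x ≠ y := fun e => pq x (by simp) ⟨px, e ▸ qy⟩
  have xz : x ≠ z := fun e => pr x (by simp) ⟨px, e ▸ rz⟩
  have yz : y ≠ z := fun e => qr y (by simp) ⟨qy, e ▸ rz⟩
  have my : m ≠ y := fun e => pq m (by simp) ⟨pm, e ▸ qy⟩
  have mz : m ≠ z := fun e => pr m (by simp) ⟨pm, e ▸ rz⟩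
  refine Set.ncard_eq_two.2 ⟨{x, y, z}, {m, y, z}, fun e => ?_, ?_⟩
  · have : x ∈ ({m, y, z} : Finset V) := e ▸ mem_insert_self _ _
    simp [xm, xy, xz] at this
  ext t
  simp only [Set.mem_ofPred_eq, Set.mem_insert_iff, Set.mem_singleton_iff]
  constructor
  · rintro ⟨s, hc, ⟨a, ha, pa⟩, ⟨b, hb, qb⟩, c, hc', rc⟩
    have b1 : b = y := by
      have := s hb
      simp only [mem_insert, mem_singleton] at this
      rcases this with rfl | rfl | rfl | rfl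
      exacts [(pq b (by simp) ⟨px, qb⟩).elim, rfl, (qr b (by simp) ⟨qb, rz⟩).elim,
        (pq b (by simp) ⟨pm, qb⟩).elim]
    have c1 : c = z := by
      have := s hc'
      simp only [mem_insert, mem_singleton] at this
      rcases this with rfl | rfl | rfl | rfl
      exacts [(pr c (by simp) ⟨px, rc⟩).elim, (qr c (by simp) ⟨qy, rc⟩).elim, rfl,
        (pr c (by simp) ⟨pm, rc⟩).elim]
    subst b1 c1
    have k : a ≠ b → a ≠ c → t = {a, b, c} := fun u v => (eq_of_subset_of_card_le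
      (insert_subset ha (insert_subset hb (singleton_subset_iff.2 hc')))
      (by rw [hc, card3 u v yz])).symm
    have := s ha
    simp only [mem_insert, mem_singleton] at this
    rcases this with rfl | rfl | rfl | rfl
    exacts [Or.inl (k xy xz), (pq a (by simp) ⟨pa, qy⟩).elim, (pr a (by simp) ⟨pa, rz⟩).elim,
      Or.inr (k my mz)]
  · rintro (rfl | rfl)
    · exact ⟨by intro a; simp; tauto, card3 xy xz yz, ⟨x, by simp, px⟩, ⟨y, by simp, qy⟩, z,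
        by simp, rz⟩
    · exact ⟨by intro a; simp; tauto, card3 my mz yz, ⟨m, by simp, pm⟩, ⟨y, by simp, qy⟩, z,
        by simp, rz⟩

theorem exists_third {a b : V} {t : Finset V} (ha : a ∈ t) (hb : b ∈ t) (ab : a ≠ b)
    (hc : t.card = 3) : ∃ c, c ≠ a ∧ c ≠ b ∧ t = {a, b, c} := by
  have s : ({a, b} : Finset V) ⊆ t := insert_subset ha (singleton_subset_iff.2 hb)
  obtain ⟨c, h1, h2⟩ := exists_eq_insert_iff.2 ⟨s, by rw [card_pair ab, hc]⟩
  simp only [mem_insert, mem_singleton, not_or] at h1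
  exact ⟨c, h1.1, h1.2, by rw [← h2]; ext; simp; tauto⟩

theorem exists_fourth {a b c : V} {t : Finset V} (ha : a ∈ t) (hb : b ∈ t) (hc : c ∈ t)
    (ab : a ≠ b) (ac : a ≠ c) (bc : b ≠ c) (h4 : t.card = 4) :
    ∃ m, m ≠ a ∧ m ≠ b ∧ m ≠ c ∧ t = {a, b, c, m} := by
  have s : ({a, b, c} : Finset V) ⊆ t := insert_subset ha (insert_subset hb (singleton_subset_iff.2 hc))
  obtain ⟨m, h1, h2⟩ := exists_eq_insert_iff.2 ⟨s, by rw [card3 ab ac bc, h4]⟩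
  simp only [mem_insert, mem_singleton, not_or] at h1
  exact ⟨m, h1.1, h1.2.1, h1.2.2, by rw [← h2]; ext; simp; tauto⟩

end Count

/-- a cooriented disc whose doubly marked edges are antiparallel -/
structure S2 {G : Type} [AddGroup G] (U B : Dat G) where
  hU : U.OK
  hB : B.OK
  d : DC U B
  w : U.V → U.V → ZMod 2
  o : U.V → U.V → Prop
  disc : U.Disc w
  ori : Ori U.K w o
  ap : ∀ σ ∈ U.K, ∀ x ∈ σ, ∀ y ∈ σ, o x y → ¬ o (d.τ x) (d.τ y)

namespace S2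
variable {G : Type} [AddGroup G] {U B : Dat G} (S : S2 U B)

/-- the translated coorientation -/
def o' (x y : U.V) : Prop := S.o (S.d.τ x) (S.d.τ y)
def w' (x y : U.V) : ZMod 2 := S.w (S.d.τ x) (S.d.τ y)
/-- translation of simplices -/
abbrev t (σ : Finset U.V) : Finset U.V := σ.image S.d.τ
/-- low for the disc, low for its translate -/
abbrev L (σ : Finset U.V) (x : U.V) : Prop := Lw S.o σ x
abbrev L' (σ : Finset U.V) (x : U.V) : Prop := Lw S.o' σ x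
/-- crossing simplices -/
def Cr (σ : Finset U.V) : Prop := ∃ x ∈ σ, S.L σ x ∧ S.L' σ x

theorem ori' : Ori U.K S.w' S.o' :=
  ⟨fun σ h _ a _ b => S.ori.iff _ (S.d.τK σ h) _ (mem_image_of_mem _ a) _ (mem_image_of_mem _ b),
    fun σ h _ a _ b _ c => S.ori.tri _ (S.d.τK σ h) _ (mem_image_of_mem _ a) _
      (mem_image_of_mem _ b) _ (mem_image_of_mem _ c),
    fun σ h _ a _ b _ c => S.ori.asy _ (S.d.τK σ h) _ (mem_image_of_mem _ a) _
      (mem_image_of_mem _ b) _ (mem_image_of_mem _ c)⟩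

variable {S}

theorem L_t {σ : Finset U.V} {x : U.V} : S.L (S.t σ) (S.d.τ x) ↔ S.L' σ x := by
  simp [Lw, o']

theorem L'_t {σ : Finset U.V} {x : U.V} : S.L' (S.t σ) (S.d.τ x) ↔ S.L σ x := by
  simp [Lw, o', S.d.ττ]

theorem mx_t {σ : Finset U.V} : Mx S.w (S.t σ) ↔ Mx S.w' σ := by
  simp [Mx, w']

theorem tt (σ : Finset U.V) : S.t (S.t σ) = σ := S.d.img_img σ

theorem pt (σ : Finset U.V) : (S.t σ).image S.d.p = σ.image S.d.p := by
  rw [image_image]; exact image_congr fun x _ => S.d.pτ x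

theorem Cr.t {σ : Finset U.V} (h : S.Cr σ) : S.Cr (S.t σ) := by
  obtain ⟨x, hx, a, b⟩ := h
  exact ⟨_, mem_image_of_mem _ hx, L_t.2 b, L'_t.2 a⟩

theorem Cr.mono {σ ρ : Finset U.V} (h : S.Cr ρ) (e : ρ ⊆ σ) : S.Cr σ := by
  obtain ⟨x, hx, ⟨y, hy, a⟩, z, hz, b⟩ := h
  exact ⟨x, e hx, ⟨y, e hy, a⟩, z, e hz, b⟩

theorem cr_iff {σ ρ : Finset U.V} (hσ : σ ∈ U.K) (e : ρ ⊆ σ) :
    S.Cr ρ ↔ (∃ x ∈ ρ, S.L σ x ∧ S.L' σ x) ∧ (∃ y ∈ ρ, ¬ S.L σ y) ∧ ∃ z ∈ ρ, ¬ S.L' σ z := by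
  constructor
  · rintro ⟨x, hx, ⟨y, hy, a⟩, z, hz, b⟩
    have a' := (S.ori.lw_iff hσ (e hx) (e hy)).1 a
    have b' := (S.ori'.lw_iff hσ (e hx) (e hz)).1 b
    exact ⟨⟨x, hx, a'.1, b'.1⟩, ⟨y, hy, a'.2⟩, z, hz, b'.2⟩
  · rintro ⟨⟨x, hx, a, b⟩, ⟨y, hy, c⟩, z, hz, d⟩
    exact ⟨x, hx, ⟨y, hy, (S.ori.lw_iff hσ (e hx) (e hy)).2 ⟨a, c⟩⟩, z, hz,
      (S.ori'.lw_iff hσ (e hx) (e hz)).2 ⟨b, d⟩⟩

theorem Cr.mx {σ : Finset U.V} (hσ : σ ∈ U.K) (h : S.Cr σ) : Mx S.w σ := by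
  obtain ⟨⟨x, hx, a, -⟩, b, -⟩ := (cr_iff hσ subset_rfl).1 h
  exact (S.ori.mx_iff hσ subset_rfl).2 ⟨⟨x, hx, a⟩, b⟩

theorem Cr.mx' {σ : Finset U.V} (hσ : σ ∈ U.K) (h : S.Cr σ) : Mx S.w' σ := by
  obtain ⟨⟨x, hx, -, a⟩, -, b⟩ := (cr_iff hσ subset_rfl).1 h
  exact (S.ori'.mx_iff hσ subset_rfl).2 ⟨⟨x, hx, a⟩, b⟩

/-- no vertex of type `11` next to a vertex of type `00` -/
theorem no11 {σ : Finset U.V} (hσ : σ ∈ U.K) {x y : U.V} (hx : x ∈ σ) (hy : y ∈ σ)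
    (a : S.L σ x) (b : S.L' σ x) : S.L σ y ∨ S.L' σ y := by
  by_contra q
  push Not at q
  exact S.ap σ hσ x hx y hy ((S.ori.lw_iff hσ hx hy).2 ⟨a, q.1⟩)
    ((S.ori'.lw_iff hσ hx hy).2 ⟨b, q.2⟩)

theorem Cr.no11 {σ : Finset U.V} (hσ : σ ∈ U.K) (h : S.Cr σ) {y : U.V} (hy : y ∈ σ) :
    S.L σ y ∨ S.L' σ y := by
  obtain ⟨x, hx, a, b⟩ := h
  exact S2.no11 hσ hx hy a b

theorem Cr.three {σ : Finset U.V} (hσ : σ ∈ U.K) (h : S.Cr σ) : ∃ x ∈ σ, ∃ y ∈ σ, ∃ z ∈ σ,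
    (S.L σ x ∧ S.L' σ x) ∧ ¬ S.L σ y ∧ ¬ S.L' σ z ∧ x ≠ y ∧ x ≠ z ∧ y ≠ z := by
  obtain ⟨⟨x, hx, a⟩, ⟨y, hy, b⟩, z, hz, c⟩ := (cr_iff hσ subset_rfl).1 h
  exact ⟨x, hx, y, hy, z, hz, a, b, c, fun e => b (e ▸ a.1), fun e => c (e ▸ a.2),
    fun e => (h.no11 hσ hy).elim b (e ▸ c)⟩

theorem Cr.card {σ : Finset U.V} (hσ : σ ∈ U.K) (h : S.Cr σ) : 3 ≤ σ.card := by
  obtain ⟨x, hx, y, hy, z, hz, -, -, -, a, b, c⟩ := h.three hσ
  rw [← card3 a b c]
  exact card_le_card (insert_subset hx (insert_subset hy (singleton_subset_iff.2 hz)))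

theorem cr_two {T : Finset U.V} (hT : T ∈ U.K) (h : S.Cr T) (h4 : T.card = 4) :
    {t | t ⊆ T ∧ t.card = 3 ∧ S.Cr t}.ncard = 2 := by
  obtain ⟨x, hx, y, hy, z, hz, a, b, c, xy, xz, yz⟩ := h.three hT
  obtain ⟨m, mx, my, mz, e⟩ := exists_fourth hx hy hz xy xz yz h4
  have n11 : ∀ v ∈ T, ¬ (¬ S.L T v ∧ ¬ S.L' T v) := fun v hv q => (h.no11 hT hv).elim q.1 q.2
  have key : {t | t ⊆ T ∧ t.card = 3 ∧ S.Cr t} = {t | t ⊆ T ∧ t.card = 3 ∧
      (∃ v ∈ t, S.L T v ∧ S.L' T v) ∧ (∃ v ∈ t, ¬ S.L T v) ∧ ∃ v ∈ t, ¬ S.L' T v} :=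
    Set.ext fun t => and_congr_right fun s => and_congr_right fun _ => cr_iff hT s
  rw [key]
  generalize S.L T = p, S.L' T = q at *
  by_cases u : p m <;> [by_cases v : q m; skip]
  · subst e
    exact tri_two (p := fun v => p v ∧ q v) a b c ⟨u, v⟩ mx.symm (fun _ _ k => k.2 k.1.1)
      (fun _ _ k => k.2 k.1.2) n11
  · have e' : T = {z, x, y, m} := by rw [e]; ext; simp; tauto
    have := tri_two (p := fun v => ¬ q v) (q := fun v => p v ∧ q v) (r := fun v => ¬ p v) c a b v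
      mz.symm (fun _ _ k => k.1 k.2.2) (fun a ha k => n11 a (e' ▸ ha) k.symm)
      (fun _ _ k => k.2 k.1.1)
    rw [← e'] at this
    rw [← this]; congr 1; ext t; simp only [Set.mem_ofPred_eq]; tauto
  · have e' : T = {y, x, z, m} := by rw [e]; ext; simp; tauto
    have := tri_two (p := fun v => ¬ p v) (q := fun v => p v ∧ q v) (r := fun v => ¬ q v) b a c u
      my.symm (fun _ _ k => k.1 k.2.1) (fun a ha k => n11 a (e' ▸ ha) k)
      (fun _ _ k => k.2 k.1.2)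
    rw [← e'] at this
    rw [← this]; congr 1; ext t; simp only [Set.mem_ofPred_eq]; tauto

open Classical in
/-- the arm of a crossing simplex `σ` that meets the face `ρ` -/
noncomputable def arm (S : S2 U B) (σ ρ : Finset U.V) : ZMod 2 :=
  if ∃ y ∈ ρ, ¬ S.L' σ y then 1 else 0

theorem arm_up {σ σ' ρ : Finset U.V} (h' : σ' ∈ U.K) (h : σ ∈ U.K) (c : S.Cr σ) (e : σ ⊆ σ')
    (e' : ρ ⊆ σ) : S.arm σ ρ = S.arm σ' ρ := by
  classical
  exact if_congr (exists_congr fun y => and_congr_right fun hy =>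
    not_congr (S.ori'.lw_sub h' e (c.mx' h) (e' hy))) rfl rfl

theorem arm_face {σ ρ ρ' : Finset U.V} (h : σ ∈ U.K) (m : Mx S.w ρ) (e : ρ ⊆ ρ') (e' : ρ' ⊆ σ)
    (n : ¬ S.Cr ρ') : S.arm σ ρ = S.arm σ ρ' := by
  classical
  refine if_congr ⟨fun ⟨y, a, b⟩ => ⟨y, e a, b⟩, fun q => ?_⟩ rfl rfl
  obtain ⟨⟨x, hx, a⟩, y, hy, b⟩ := (S.ori.mx_iff h (e.trans e')).1 m
  exact ⟨x, hx, fun c => n ((cr_iff h e').2 ⟨⟨x, e hx, a, c⟩, ⟨y, e hy, b⟩, q⟩)⟩

variable (S) in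
/-- cells of the disc cut along the double curves -/
def P : Type := {x : Finset U.V × ZMod 2 // x.1 ∈ Sf U.K S.w ∧ (¬ S.Cr x.1 → x.2 = 0)}

noncomputable instance : Fintype S.P := by
  classical
  unfold P; infer_instance

/-- base simplex and label -/
def P.b (x : S.P) : Finset U.V := x.1.1
def P.l (x : S.P) : ZMod 2 := x.1.2

theorem P.K (x : S.P) : x.b ∈ U.K := x.2.1.1
theorem P.mx (x : S.P) : Mx S.w x.b := x.2.1.2
theorem P.l0 (x : S.P) (h : ¬ S.Cr x.b) : x.l = 0 := x.2.2 h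
theorem P.ext {x y : S.P} (a : x.b = y.b) (b : x.l = y.l) : x = y := Subtype.ext (Prod.ext a b)
theorem P.mtA (x : S.P) : Mt U.A x.b := S.disc.mt x.K x.mx
theorem P.mtE (x : S.P) : Mt S.d.E x.b := by
  obtain ⟨a, h, h'⟩ := x.mtA; exact ⟨a, h, S.d.AE h'⟩

open Classical in
/-- the side of `σ` on which `x` lies -/
noncomputable def side (σ : Finset U.V) (x : S.P) : ZMod 2 := if S.Cr x.b then x.l else S.arm σ x.b

/-- the order of the cut surface -/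
def le (x y : S.P) : Prop := x.b ⊆ y.b ∧ (S.Cr y.b → side y.b x = y.l)

theorem side_cr {σ : Finset U.V} {x : S.P} (h : S.Cr x.b) : side σ x = x.l := if_pos h
theorem side_n {σ : Finset U.V} {x : S.P} (h : ¬ S.Cr x.b) : side σ x = S.arm σ x.b := if_neg h

theorem side_le {σ : Finset U.V} (hσ : σ ∈ U.K) {x y : S.P} (h : le x y) (e : y.b ⊆ σ) :
    side σ x = side σ y := by
  by_cases c : S.Cr y.b
  · rw [side_cr c, ← h.2 c]
    by_cases c' : S.Cr x.b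
    · rw [side_cr c', side_cr c']
    · rw [side_n c', side_n c', arm_up hσ y.K c e h.1]
  · have c' : ¬ S.Cr x.b := fun q => c (q.mono h.1)
    rw [side_n c', side_n c, arm_face hσ x.mx h.1 e c]

theorem le_refl (x : S.P) : le x x := ⟨subset_rfl, fun h => side_cr h⟩

theorem le_trans {x y z : S.P} (a : le x y) (b : le y z) : le x z :=
  ⟨a.1.trans b.1, fun c => (side_le z.K a b.1).trans (b.2 c)⟩

theorem le_mid {x y z : S.P} (a : le x y) (b : le x z) (e : y.b ⊆ z.b) : le y z :=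
  ⟨e, fun c => (side_le z.K a e).symm.trans (b.2 c)⟩

theorem le_cr {x y : S.P} (c : S.Cr x.b) : le x y ↔ x.b ⊆ y.b ∧ x.l = y.l :=
  ⟨fun h => ⟨h.1, (side_cr c).symm.trans (h.2 (c.mono h.1))⟩,
    fun h => ⟨h.1, fun _ => (side_cr c).trans h.2⟩⟩

theorem exists_up (x : S.P) {σ : Finset U.V} (hσ : σ ∈ U.K) (e : x.b ⊆ σ) :
    ∃ z : S.P, z.b = σ ∧ le x z := by
  classical
  exact ⟨⟨(σ, if S.Cr σ then side σ x else 0), ⟨hσ, x.mx.mono e⟩, fun h => if_neg h⟩, rfl, e,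
    fun h => (if_pos h).symm⟩

theorem up_uniq {x y z : S.P} (a : le x y) (b : le x z) (e : y.b = z.b) : y = z := by
  refine P.ext e ?_
  by_cases c : S.Cr y.b
  · rw [← a.2 c, ← b.2 (e ▸ c), e]
  · rw [y.l0 c, z.l0 (e ▸ c)]

theorem ncard_up (x : S.P) (Φ : Finset U.V → Prop) :
    {z : S.P | Φ z.b ∧ le x z}.ncard = {σ | σ ∈ U.K ∧ Φ σ ∧ x.b ⊆ σ}.ncard :=
  Set.ncard_congr (fun z _ => z.b) (fun z h => ⟨z.K, h.1, h.2.1⟩)
    (fun _ _ a b e => up_uniq a.2 b.2 e) fun σ h => by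
      obtain ⟨z, rfl, e⟩ := exists_up x h.1 h.2.2
      exact ⟨z, ⟨h.2.1, e⟩, rfl⟩

theorem ncard_edge (y : S.P) : {x : S.P | x.b.card = 2 ∧ le x y}.ncard =
    {e | e ⊆ y.b ∧ e.card = 2 ∧ Mx S.w e ∧ (S.Cr y.b → S.arm y.b e = y.l)}.ncard := by
  have n : ∀ x : S.P, x.b.card = 2 → ¬ S.Cr x.b := fun x a c => by have := c.card x.K; omega
  refine Set.ncard_congr (fun z _ => z.b)
    (fun z h => ⟨h.2.1, h.1, z.mx, fun c => (side_n (n z h.1)).symm.trans (h.2.2 c)⟩)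
    (fun a b p q e => P.ext e (by rw [a.l0 (n a p.1), b.l0 (n b q.1)])) fun e h => ?_
  let x : S.P := ⟨(e, 0), ⟨S.hU.cxK.down _ y.K e h.1 (card_pos.1 (by rw [h.2.1]; decide)),
    h.2.2.1⟩, fun _ => rfl⟩
  exact ⟨x, ⟨h.2.1, h.1, fun c => (side_n (n x h.2.1)).trans (h.2.2.2 c)⟩, rfl⟩

theorem edge_n (y : S.P) (h3 : y.b.card = 3) (n : ¬ S.Cr y.b) :
    {x : S.P | x.b.card = 2 ∧ le x y}.ncard = 2 := by
  rw [ncard_edge]
  obtain ⟨⟨a, ha, pa⟩, b, hb, pb⟩ := (S.ori.mx_iff y.K subset_rfl).1 y.mx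
  obtain ⟨c, ca, cb, e⟩ := exists_third ha hb (fun q => pb (q ▸ pa)) h3
  have key : ∀ u v z : U.V, y.b = {u, v, z} → v ≠ z → ¬ (S.L y.b u ↔ S.L y.b v) →
      (S.L y.b v ↔ S.L y.b z) →
      {e | e ⊆ y.b ∧ e.card = 2 ∧ Mx S.w e ∧ (S.Cr y.b → S.arm y.b e = y.l)}.ncard = 2 := by
    intro u v z e vz h1 h2
    refine Set.ncard_eq_two.2 ⟨{u, v}, {u, z}, fun q => ?_, Set.ext fun f => ?_⟩
    · have : v ∈ ({u, z} : Finset U.V) := q ▸ by simp
      simp only [mem_insert, mem_singleton, vz, or_false] at this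
      exact h1 (by rw [this])
    · simp only [Set.mem_ofPred_eq, Set.mem_insert_iff, Set.mem_singleton_iff, n, false_imp_iff,
        and_true, ← edge_two h1 h2 f, ← e]
      exact and_congr_right fun s => and_congr_right fun _ => S.ori.mx_iff y.K s
  by_cases pc : S.L y.b c
  · exact key b a c (by rw [e]; ext; simp; tauto) ca.symm (by tauto) (by tauto)
  · exact key a b c e cb.symm (by tauto) (by tauto)

theorem edge_c (y : S.P) (h3 : y.b.card = 3) (c : S.Cr y.b) :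
    {x : S.P | x.b.card = 2 ∧ le x y}.ncard = 1 := by
  rw [ncard_edge]
  obtain ⟨x, hx, u, hu, z, hz, a, b, d, xu, xz, uz⟩ := c.three y.K
  have e : y.b = {u, x, z} := (eq_of_subset_of_card_le (insert_subset hu (insert_subset hx
    (singleton_subset_iff.2 hz))) (by rw [h3, card3 xu.symm uz xz])).symm
  have u' := (c.no11 y.K hu).resolve_left b
  have z' := (c.no11 y.K hz).resolve_right d
  have k : ∀ f, (f ⊆ y.b ∧ f.card = 2 ∧ Mx S.w f) ↔ f = {u, x} ∨ f = {u, z} := fun f => by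
    rw [← edge_two (p := S.L y.b) (by tauto) (by tauto) f, ← e]
    exact and_congr_right fun s => and_congr_right fun _ => S.ori.mx_iff y.K s
  have a0 : S.arm y.b {u, x} = 0 := if_neg (by simp [u', a.2])
  have a1 : S.arm y.b {u, z} = 1 := if_pos ⟨z, by simp, d⟩
  have k' : ∀ f, (f ⊆ y.b ∧ f.card = 2 ∧ Mx S.w f ∧ (S.Cr y.b → S.arm y.b f = y.l)) ↔
      (f = {u, x} ∧ 0 = y.l) ∨ (f = {u, z} ∧ 1 = y.l) := fun f => by
    rw [← and_assoc, ← and_assoc, and_assoc (c := Mx S.w f), k f, or_and_right]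
    exact or_congr (and_congr_right fun q => by simp [q, a0, c])
      (and_congr_right fun q => by simp [q, a1, c])
  simp only [k']
  have : y.l = 0 ∨ y.l = 1 := by generalize y.l = v; revert v; decide
  rcases this with q | q <;> simp [q]

end S2

end Crest.Agent.X212.Dsc37
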