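import Mathlib

/-!
# Combinatorial loop theorem: definitions

Finite simplicial complexes as sets of finsets, cocycles on relations, discs as `ZMod 2` edge
cocycles (their dual normal surfaces), folded double covers, barycentric subdivision.
-/

namespace Crest.Agent.X212.Dsc37

section Rel
variable {α G : Type*} [AddGroup G]

/-- `c` is a `G`-valued cocycle of the relation `r` on `W` (`G` need not be commutative). -/
def Coc (r : α → α → Prop) (W : Set α) (c : α → α → G) : Prop :=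
  ∀ x ∈ W, ∀ y ∈ W, ∀ z ∈ W, r x y → r y z → c x z = c x y + c y z

/-- `c` is a coboundary on `W`. -/
def Cob (r : α → α → Prop) (W : Set α) (c : α → α → G) : Prop :=
  ∃ l : α → G, ∀ x ∈ W, ∀ y ∈ W, r x y → l y = l x + c x y

/-- `W` is connected for `r`. -/
def Conn (r : α → α → Prop) (W : Set α) : Prop :=
  W.Nonempty ∧ ∀ κ : α → Prop, (∀ x ∈ W, ∀ y ∈ W, r x y → (κ x ↔ κ y)) →
    ∀ x ∈ W, ∀ y ∈ W, (κ x ↔ κ y)

/-- `H^1(W; Z/2) = 0`. -/
def H0 (r : α → α → Prop) (W : Set α) : Prop :=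
  ∀ c : α → α → ZMod 2, Coc r W c → Cob r W c

end Rel

section Cx
variable {V : Type*}

/-- abstract simplicial complex -/
structure Cx (K : Set (Finset V)) : Prop where
  ne : ∀ σ ∈ K, σ.Nonempty
  down : ∀ σ ∈ K, ∀ ρ : Finset V, ρ ⊆ σ → ρ.Nonempty → ρ ∈ K

/-- barycentric subdivision: non-empty chains -/
def sd (K : Set (Finset V)) : Set (Finset (Finset V)) :=
  {r | r.Nonempty ∧ (∀ σ ∈ r, σ ∈ K) ∧ ∀ σ ∈ r, ∀ ρ ∈ r, σ ⊆ ρ ∨ ρ ⊆ σ}

/-- the carrier (largest element) of a chain -/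
def top [DecidableEq V] (r : Finset (Finset V)) : Finset V := r.biUnion id

/-- `σ` has a vertex in `A` -/
def Mt (A : Set V) (σ : Finset V) : Prop := ∃ a ∈ σ, a ∈ A

/-- `σ` contains a marked edge -/
def Mx (w : V → V → ZMod 2) (σ : Finset V) : Prop := ∃ x ∈ σ, ∃ y ∈ σ, w x y ≠ 0

/-- the normal surface dual to `w`, as the poset of its cells -/
def Sf (K : Set (Finset V)) (w : V → V → ZMod 2) : Set (Finset V) := {σ | σ ∈ K ∧ Mx w σ}

/-- inclusion of simplices, as a relation -/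
abbrev sub : Finset V → Finset V → Prop := fun σ ρ => σ ⊆ ρ

end Cx

/-- A finite complex `K` with boundary subcomplex `F`, good vertices `A` and a cocycle `g` on the
poset of good boundary simplices. -/
structure Dat (G : Type) where
  V : Type
  fin : Fintype V
  dec : DecidableEq V
  K : Set (Finset V)
  F : Set (Finset V)
  A : Set V
  g : Finset V → Finset V → G

namespace Dat
variable {G : Type}

instance (X : Dat G) : Fintype X.V := X.fin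
instance (X : Dat G) : DecidableEq X.V := X.dec

/-- subdivision -/
def sub1 (X : Dat G) : Dat G where
  V := Finset X.V
  fin := inferInstance
  dec := inferInstance
  K := sd X.K
  F := sd X.F
  A := {σ | σ ∈ X.K ∧ Mt X.A σ}
  g := fun r s => X.g (top r) (top s)

/-- iterated subdivision -/
def subN (X : Dat G) : ℕ → Dat G
  | 0 => X
  | n + 1 => (subN X n).sub1

/-- pseudomanifold conditions at the good vertices -/
structure OK [AddGroup G] (X : Dat G) : Prop where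
  cxK : Cx X.K
  cxF : Cx X.F
  FK : X.F ⊆ X.K
  dimK : ∀ σ ∈ X.K, σ.card ≤ 4
  dimF : ∀ σ ∈ X.F, σ.card ≤ 3
  triI : ∀ t ∈ X.K, t.card = 3 → Mt X.A t → t ∉ X.F →
    {T | T ∈ X.K ∧ T.card = 4 ∧ t ⊆ T}.ncard = 2
  triB : ∀ t ∈ X.F, t.card = 3 → Mt X.A t → {T | T ∈ X.K ∧ T.card = 4 ∧ t ⊆ T}.ncard = 1
  edgB : ∀ e ∈ X.F, e.card = 2 → Mt X.A e → {t | t ∈ X.F ∧ t.card = 3 ∧ e ⊆ t}.ncard = 2
  coc : Coc sub {σ | σ ∈ X.F ∧ Mt X.A σ} X.g

/-- `w` is an essential normal disc -/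
structure Disc [AddGroup G] (X : Dat G) (w : X.V → X.V → ZMod 2) : Prop where
  ec : ∀ σ ∈ X.K, ∀ x ∈ σ, ∀ y ∈ σ, ∀ z ∈ σ, w x z = w x y + w y z
  supp : ∀ σ ∈ X.K, ∀ x ∈ σ, ∀ y ∈ σ, w x y ≠ 0 → x ∈ X.A ∨ y ∈ X.A
  conn : Conn sub (Sf X.K w)
  h0 : H0 sub (Sf X.K w)
  connB : Conn sub (Sf X.F w)
  ess : ¬ Cob sub (Sf X.F w) X.g

def HasDisc [AddGroup G] (X : Dat G) : Prop := ∃ w, X.Disc w

end Dat

/-- `U → B` is a (folded) double cover, etale at the vertices in `E`. -/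
structure DC {G : Type} (U B : Dat G) where
  p : U.V → B.V
  τ : U.V → U.V
  E : Set U.V
  ττ : ∀ x, τ (τ x) = x
  pτ : ∀ x, p (τ x) = p x
  τE : ∀ a ∈ E, τ a ∈ E
  AE : U.A ⊆ E
  pE : ∀ a ∈ E, p a ∈ B.A
  pK : ∀ σ ∈ U.K, σ.image p ∈ B.K
  τK : ∀ σ ∈ U.K, σ.image τ ∈ U.K
  inj : ∀ σ ∈ U.K, Set.InjOn p σ
  free : ∀ a ∈ E, τ a ≠ a
  fib : ∀ a ∈ E, ∀ b, {b} ∈ U.K → p b = p a → b = a ∨ b = τ a
  lift : ∀ a ∈ E, ∀ s ∈ B.K, p a ∈ s → ∃ σ ∈ U.K, a ∈ σ ∧ σ.image p = s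
  uniq : ∀ a ∈ E, ∀ σ ∈ U.K, ∀ ρ ∈ U.K, a ∈ σ → a ∈ ρ → σ.image p = ρ.image p → σ = ρ
  bd : ∀ σ ∈ U.K, Mt E σ → (σ ∈ U.F ↔ σ.image p ∈ B.F)
  geq : ∀ σ ∈ U.F, ∀ ρ ∈ U.F, Mt E σ → σ ⊆ ρ → U.g σ ρ = B.g (σ.image p) (ρ.image p)

/-- subdivision keeps the pseudomanifold conditions -/
def OkSubStmt : Prop :=
  ∀ (G : Type) [AddGroup G] (X : Dat G), X.OK → X.sub1.OK

/-- subdivision keeps double covers -/
def DcSubStmt : Prop :=
  ∀ (G : Type) [AddGroup G] (U B : Dat G), U.OK → B.OK → DC U B → Nonempty (DC U.sub1 B.sub1)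

/-- DESCENT through one double cover -/
def DescStmt : Prop :=
  ∀ (G : Type) [AddGroup G] (U B : Dat G), U.OK → B.OK → DC U B → U.HasDisc →
    B.sub1.sub1.HasDisc

/-- descent at all subdivision levels -/
theorem desc_iter (h1 : OkSubStmt) (h2 : DcSubStmt) (h3 : DescStmt) {G : Type} [AddGroup G]
    {U B : Dat G} (hU : U.OK) (hB : B.OK) (d : DC U B) {n : ℕ} (h : (U.subN n).HasDisc) :
    (B.subN (n + 2)).HasDisc := by
  have key : ∀ m, (U.subN m).OK ∧ (B.subN m).OK ∧ Nonempty (DC (U.subN m) (B.subN m)) := by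
    intro m
    induction m with
    | zero => exact ⟨hU, hB, ⟨d⟩⟩
    | succ m ih =>
      obtain ⟨a, b, ⟨c⟩⟩ := ih
      exact ⟨h1 G _ a, h1 G _ b, h2 G _ _ a b c⟩
  obtain ⟨a, b, ⟨c⟩⟩ := key n
  exact h3 G _ _ a b c h

end Crest.Agent.X212.Dsc37
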