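import Crest.Agent.X212.Dsc37.Mk

/-!
# The local colourings of a resolved disc
-/

namespace Crest.Agent.X212.Dsc37

open Finset

theorem K4.c0 : ∀ u : K4, u ≠ 0 → u = fl ∨ u = dk ∨ u = fl + dk := by decide
theorem z2_01 : ∀ a : ZMod 2, a = 0 ∨ a = 1 := by decide

/-- the far side of a sheet, in terms of the vertex types of a face -/
def qf (cr : Prop) (s : K4) (l : ZMod 2) (a b c : Prop) : Prop :=
  ((¬ cr ∨ s = fl) ∧ ¬ b) ∨ (cr ∧ s = dk ∧ l = 0 ∧ ¬ b ∧ ¬ c) ∨ (cr ∧ s = dk ∧ l = 1 ∧ ¬ a ∧ b ∧ c) ∨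
    (cr ∧ s = fl + dk ∧ l = 0 ∧ ¬ c ∧ b) ∨ (cr ∧ s = fl + dk ∧ l = 1 ∧ ¬ b ∧ c)

section
variable {cr a b c : Prop} {s : K4} {l : ZMod 2}
theorem qf_n (h : ¬ cr) : qf cr s l a b c ↔ ¬ b := by simp [qf, h]
theorem qf_fl : qf cr fl l a b c ↔ ¬ b := by
  simp [qf, show fl ≠ dk by decide, show fl ≠ fl + dk by decide]
theorem qf_d0 (h : cr) : qf cr dk 0 a b c ↔ ¬ b ∧ ¬ c := by
  simp [qf, h, show dk ≠ fl by decide, show dk ≠ fl + dk by decide]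
theorem qf_d1 (h : cr) : qf cr dk 1 a b c ↔ ¬ a ∧ b ∧ c := by
  simp [qf, h, show dk ≠ fl by decide, show dk ≠ fl + dk by decide]
theorem qf_r0 (h : cr) : qf cr (fl + dk) 0 a b c ↔ ¬ c ∧ b := by
  simp [qf, h, show fl + dk ≠ fl by decide, show fl + dk ≠ dk by decide]
theorem qf_r1 (h : cr) : qf cr (fl + dk) 1 a b c ↔ ¬ b ∧ c := by
  simp [qf, h, show fl + dk ≠ fl by decide, show fl + dk ≠ dk by decide]

variable {a' b' c' : Prop}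

theorem qf_sep (h : cr) (hs : s ≠ 0) (nb : ¬ b) (hb : b') (n : ¬ (a' ∧ b' ∧ c')) (abc : a ∨ b ∨ c)
    (ma : a → a') (mc : c → c') (hl : (l = 1 ∧ c') ∨ (l = 0 ∧ ¬ c')) :
    ¬ (qf cr s l a b c ↔ qf cr s l a' b' c') := by
  rcases K4.c0 s hs with rfl | rfl | rfl <;> rcases hl with ⟨rfl, k⟩ | ⟨rfl, k⟩ <;>
    simp only [qf_fl, qf_d0 h, qf_d1 h, qf_r0 h, qf_r1 h] <;> grind

theorem qf_jump (h : cr) (hs : s ≠ 0) (n : ¬ (a' ∧ b' ∧ c')) (abc : a ∨ b ∨ c)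
    (ma : a → a') (mb : b → b') (mc : c → c') (j : ¬ (qf cr s l a b c ↔ qf cr s l a' b' c')) :
    (¬ b ∧ b' ∧ (s = fl ∨ (l = 1 ∧ c') ∨ (l = 0 ∧ ¬ c'))) ∨
      (¬ c ∧ c' ∧ s.2 = 1 ∧ ((l + s.1 = 1 ∧ b') ∨ (l + s.1 = 0 ∧ ¬ b'))) := by
  have e1 : dk.2 = 1 := rfl
  have e2 : (fl + dk).2 = 1 := rfl
  have e3 : (0 : ZMod 2) + dk.1 = 0 := rfl
  have e4 : (1 : ZMod 2) + dk.1 = 1 := rfl
  have e5 : (0 : ZMod 2) + (fl + dk).1 = 1 := rfl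
  have e6 : (1 : ZMod 2) + (fl + dk).1 = 0 := rfl
  rcases K4.c0 s hs with rfl | rfl | rfl <;> rcases z2_01 l with rfl | rfl <;>
    simp only [qf_fl, qf_d0 h, qf_d1 h, qf_r0 h, qf_r1 h] at j <;>
    simp only [e1, e2, e3, e4, e5, e6, true_and, true_or, and_true] <;>
    by_cases b <;> by_cases c <;> by_cases b' <;> by_cases c' <;> simp_all

theorem qf_two (h : cr) (hs : s ≠ 0) (k : s ≠ fl) (abc : a ∨ b ∨ c) (abc' : a' ∨ b' ∨ c')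
    (m : ((a → a') ∧ (b → b') ∧ (c → c')) ∨ ((a' → a) ∧ (b' → b) ∧ (c' → c)))
    (h1 : qf cr s l a b c) : ¬ qf cr s (l + 1) a' b' c' := by
  have e1 : (0 : ZMod 2) + 1 = 1 := rfl
  have e2 : (1 : ZMod 2) + 1 = 0 := rfl
  rcases (K4.c0 s hs).resolve_left k with rfl | rfl <;> rcases z2_01 l with rfl | rfl <;>
    simp only [e1, e2, qf_d0 h, qf_d1 h, qf_r0 h, qf_r1 h] at h1 ⊢ <;> grind
end

namespace S2
variable {G : Type} [AddGroup G] {U B : Dat G} {S : S2 U B}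

/-- projection of simplices -/
abbrev pr (S : S2 U B) (σ : Finset U.V) : Finset B.V := σ.image S.d.p

/-- the face `ρ` downstairs has a vertex whose lift to `σ` satisfies `f` -/
def ty (S : S2 U B) (σ : Finset U.V) (f : U.V → Prop) (ρ : Finset B.V) : Prop :=
  ∃ v ∈ σ, S.d.p v ∈ ρ ∧ f v

abbrev ta (S : S2 U B) (σ : Finset U.V) (ρ : Finset B.V) :=
  S.ty σ (fun v => S.L σ v ∧ S.L' σ v) ρ
abbrev tb' (S : S2 U B) (σ : Finset U.V) (ρ : Finset B.V) := S.ty σ (fun v => ¬ S.L σ v) ρ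
abbrev tc (S : S2 U B) (σ : Finset U.V) (ρ : Finset B.V) := S.ty σ (fun v => ¬ S.L' σ v) ρ

section
variable {σ σ' : Finset U.V} {f g : U.V → Prop} {ρ ρ' : Finset B.V}

theorem ty.mono (h : S.ty σ f ρ) (e : ρ ⊆ ρ') : S.ty σ f ρ' := by
  obtain ⟨v, a, b, c⟩ := h; exact ⟨v, a, e b, c⟩

theorem mem_of_pr (hσ : σ ∈ U.K) (e : σ' ⊆ σ) {v : U.V} (hv : v ∈ σ) (h : S.d.p v ∈ S.pr σ') :
    v ∈ σ' := by
  obtain ⟨u, a, b⟩ := mem_image.1 h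
  exact S.d.inj σ hσ (e a) hv b ▸ a

theorem ty_sub (hσ : σ ∈ U.K) (e : σ' ⊆ σ) (e' : ρ ⊆ S.pr σ') (h : ∀ v ∈ σ', (f v ↔ g v)) :
    S.ty σ' f ρ ↔ S.ty σ g ρ :=
  ⟨fun ⟨v, a, b, c⟩ => ⟨v, e a, b, (h v a).1 c⟩, fun ⟨v, a, b, c⟩ =>
    ⟨v, mem_of_pr hσ e a (e' b), b, (h v (mem_of_pr hσ e a (e' b))).2 c⟩⟩

theorem ty_pr (hσ : σ ∈ U.K) (e : σ' ⊆ σ) : S.ty σ f (S.pr σ') ↔ ∃ v ∈ σ', f v :=
  ⟨fun ⟨v, a, b, c⟩ => ⟨v, mem_of_pr hσ e a b, c⟩,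
    fun ⟨v, a, c⟩ => ⟨v, e a, mem_image_of_mem _ a, c⟩⟩

theorem ty_t : S.ty (S.t σ) f ρ ↔ S.ty σ (fun v => f (S.d.τ v)) ρ := by
  simp [ty, S.d.pτ]

theorem ta_t : S.ta (S.t σ) ρ ↔ S.ta σ ρ := by
  rw [ta, ty_t]; simp only [L_t, L'_t, and_comm]
theorem tb_t : S.tb' (S.t σ) ρ ↔ S.tc σ ρ := by rw [tb', ty_t]; simp only [L_t]
theorem tc_t : S.tc (S.t σ) ρ ↔ S.tb' σ ρ := by rw [tc, ty_t]; simp only [L'_t]

theorem ty_any (e : ρ ⊆ S.pr σ) (hne : ρ.Nonempty) : ∃ v ∈ σ, S.d.p v ∈ ρ := by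
  obtain ⟨u, hu⟩ := hne
  obtain ⟨v, a, rfl⟩ := mem_image.1 (e hu)
  exact ⟨v, a, hu⟩

theorem ty_abc (e : ρ ⊆ S.pr σ) (hne : ρ.Nonempty) : S.ta σ ρ ∨ S.tb' σ ρ ∨ S.tc σ ρ := by
  obtain ⟨v, a, b⟩ := ty_any e hne
  by_cases p : S.L σ v <;> [by_cases q : S.L' σ v; skip]
  exacts [Or.inl ⟨v, a, b, p, q⟩, Or.inr (Or.inr ⟨v, a, b, q⟩), Or.inr (Or.inl ⟨v, a, b, p⟩)]

theorem cr_ty (hσ : σ ∈ U.K) (e : σ' ⊆ σ) :
    S.Cr σ' ↔ S.ta σ (S.pr σ') ∧ S.tb' σ (S.pr σ') ∧ S.tc σ (S.pr σ') := by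
  rw [cr_iff hσ e, ta, tb', tc, ty_pr hσ e, ty_pr hσ e, ty_pr hσ e]

theorem arm_ty (hσ : σ ∈ U.K) (e : σ' ⊆ σ) :
    (S.arm σ σ' = 1 ↔ S.tc σ (S.pr σ')) ∧ (S.arm σ σ' = 0 ↔ ¬ S.tc σ (S.pr σ')) := by
  rw [tc, ty_pr hσ e, arm]; split_ifs with h <;> simp only [h] <;> simp

theorem tb_sub (hσ : σ ∈ U.K) (e : σ' ⊆ σ) (m : Mx S.w σ') (e' : ρ ⊆ S.pr σ') :
    S.tb' σ' ρ ↔ S.tb' σ ρ :=
  ty_sub hσ e e' fun _ h => not_congr (S.ori.lw_sub hσ e m h)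

theorem tb_self (hσ : σ ∈ U.K) (e : σ' ⊆ σ) (m : Mx S.w σ') : S.tb' σ (S.pr σ') :=
  (ty_pr hσ e).2 ((S.ori.mx_iff hσ e).1 m).2

theorem mx_of (hσ : σ ∈ U.K) (e : σ' ⊆ σ) (e' : ρ ⊆ S.pr σ') (hne : ρ.Nonempty)
    (nb : ¬ S.tb' σ ρ) (b : S.tb' σ (S.pr σ')) : Mx S.w σ' := by
  obtain ⟨v, a, c⟩ := ty_any (e'.trans (image_subset_image e)) hne
  exact (S.ori.mx_iff hσ e).2 ⟨⟨v, mem_of_pr hσ e a (e' c), by_contra fun q => nb ⟨v, a, c, q⟩⟩,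
    (ty_pr hσ e).1 b⟩

end

theorem lifts {x : S.P} {σ : Finset U.V} (hσ : σ ∈ U.K) (e : S.pr x.b = S.pr σ) :
    x.b = σ ∨ x.b = S.t σ := by
  obtain ⟨a, ha, hE⟩ := x.mtE
  obtain ⟨b, hb, eb⟩ := mem_image.1 (e ▸ mem_image_of_mem S.d.p ha : S.d.p a ∈ S.pr σ)
  rcases S.d.fib a hE b (S.hU.cxK.down σ hσ _ (singleton_subset_iff.2 hb) (singleton_nonempty b))
    eb with rfl | rfl
  · exact Or.inl (S.d.uniq b hE _ x.K σ hσ ha hb e)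
  · refine Or.inr (S.d.uniq a hE _ x.K _ (S.d.τK σ hσ) ha ?_ (e.trans (pt σ).symm))
    have := mem_image_of_mem S.d.τ hb
    rwa [S.d.ττ] at this

theorem exists_lift (x : S.P) {s : Finset B.V} (hs : s ∈ B.K) (e : S.pr x.b ⊆ s) :
    ∃ z : S.P, S.pr z.b = s ∧ le x z := by
  obtain ⟨a, ha, hE⟩ := x.mtE
  obtain ⟨σ, hσ, aσ, rfl⟩ := S.d.lift a hE s hs (e (mem_image_of_mem _ ha))
  have m : a ∈ σ.filter fun v => S.d.p v ∈ S.pr x.b := mem_filter.2 ⟨aσ, mem_image_of_mem _ ha⟩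
  have : x.b = σ.filter fun v => S.d.p v ∈ S.pr x.b :=
    S.d.uniq a hE _ x.K _ (S.hU.cxK.down σ hσ _ (filter_subset _ _) ⟨a, m⟩) ha m (by
      ext u
      simp only [mem_image, mem_filter]
      exact ⟨fun ⟨v, p, q⟩ => by
        obtain ⟨v', p', q'⟩ := mem_image.1 (e (mem_image_of_mem _ p))
        exact ⟨v', ⟨p', v, p, q'.symm⟩, q'.trans q⟩, fun ⟨v, ⟨_, v', p, q⟩, r⟩ => ⟨v', p, q.trans r⟩⟩)
  obtain ⟨z, rfl, h⟩ := exists_up x hσ (this ▸ filter_subset _ _)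
  exact ⟨z, rfl, h⟩

variable {s : S.P → K4}

/-- `ρ` is on the far side of the sheet through `x` -/
def q (s : S.P → K4) (x : S.P) (ρ : Finset B.V) : Prop :=
  qf (S.Cr x.b) (s x) x.l (S.ta x.b ρ) (S.tb' x.b ρ) (S.tc x.b ρ)

theorem pr_act (u : K4) {x : S.P} (c : S.Cr x.b) : S.pr (act u x).b = S.pr x.b := by
  rw [act_b u c]; exact tb_p _ _

theorem q_act (hs : S.cut.St s) {x : S.P} (c : S.Cr x.b) (ρ : Finset B.V) :
    q s (act (s x) x) ρ ↔ q s x ρ := by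
  have e : s (act (s x) x) = s x := hs.inv _ x c
  have c' := c.t
  unfold q
  rw [e, act_b _ c, act_l _ c]
  rcases K4.c0 _ (hs.ne x c) with h | h | h <;> rw [h]
  · rw [qf_fl, qf_fl]; rfl
  · change qf (S.Cr (S.t x.b)) dk (x.l + 0) (S.ta (S.t x.b) ρ) (S.tb' (S.t x.b) ρ)
      (S.tc (S.t x.b) ρ) ↔ _
    rw [ta_t, tb_t, tc_t, add_zero]
    rcases z2_01 x.l with l | l <;> rw [l]
    · rw [qf_d0 c, qf_d0 c', and_comm]
    · rw [qf_d1 c, qf_d1 c', and_comm (a := S.tc x.b ρ)]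
  · change qf (S.Cr (S.t x.b)) (fl + dk) (x.l + 1) (S.ta (S.t x.b) ρ) (S.tb' (S.t x.b) ρ)
      (S.tc (S.t x.b) ρ) ↔ _
    rw [ta_t, tb_t, tc_t]
    rcases z2_01 x.l with l | l <;> rw [l]
    · rw [qf_r0 c, zero_add, qf_r1 c']
    · rw [qf_r1 c, z2_self, qf_r0 c']

theorem q_le (hs : S.cut.St s) {x y : S.P} (c : S.Cr x.b) (h : le x y) {ρ : Finset B.V}
    (e : ρ ⊆ S.pr x.b) : q s x ρ ↔ q s y ρ := by
  have a := fun v hv => S.ori.lw_sub y.K h.1 x.mx (x := v) hv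
  have b := fun v hv => S.ori'.lw_sub y.K h.1 (c.mx' x.K) (x := v) hv
  unfold q
  rw [hs.loc x c y h, ((le_cr c).1 h).2, iff_true_intro c, iff_true_intro (c.mono h.1),
    ta, tb', tc, ty_sub y.K h.1 e fun v hv => and_congr (a v hv) (b v hv),
    ty_sub y.K h.1 e fun v hv => not_congr (a v hv),
    ty_sub y.K h.1 e fun v hv => not_congr (b v hv)]

theorem not_q_cr {y : S.P} {σ : Finset U.V} (e : σ ⊆ y.b) (c : S.Cr σ) :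
    ¬ q s y (S.pr σ) := by
  obtain ⟨h1, h2, h3⟩ := (cr_ty y.K e).1 c
  simp [q, qf, h1, h2, h3]

theorem not_q_self (y : S.P) : ¬ q s y (S.pr y.b) := by
  by_cases c : S.Cr y.b
  · exact not_q_cr subset_rfl c
  · rw [q, qf_n c, not_not]; exact tb_self y.K subset_rfl y.mx

/-- a sheet below `y` is seen by the colouring of `y` -/
theorem sep_of_le (hs : S.cut.St s) {x y : S.P} (h : le x y) {ρ : Finset B.V}
    (e : ρ ⊆ S.pr x.b) (hne : ρ.Nonempty) (hq : q s x ρ) : ¬ (q s y ρ ↔ q s y (S.pr x.b)) := by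
  by_cases c : S.Cr x.b
  · exact fun k => not_q_cr h.1 c (k.1 ((q_le hs c h e).1 hq))
  rw [q, qf_n c, tb_sub y.K h.1 x.mx e] at hq
  have b' := tb_self y.K h.1 x.mx
  unfold q
  by_cases c' : S.Cr y.b
  · have l := h.2 c'
    rw [side_n c] at l
    obtain ⟨a1, a0⟩ := arm_ty (S := S) y.K h.1
    rw [l] at a1 a0
    exact qf_sep c' (hs.ne y c') hq b' ((cr_ty y.K h.1).not.1 c)
      (ty_abc (e.trans (image_subset_image h.1)) hne) (fun k => k.mono e) (fun k => k.mono e)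
      ((z2_01 y.l).symm.imp (fun k => ⟨k, a1.1 k⟩) fun k => ⟨k, a0.1 k⟩)
  · rw [qf_n c', qf_n c']; exact fun k => k.1 hq b'

theorem sheet_u {σ σ' : Finset U.V} (hσ : σ ∈ U.K) (e : σ' ⊆ σ) (n : ¬ S.Cr σ') {ρ : Finset B.V}
    (e' : ρ ⊆ S.pr σ') (hne : ρ.Nonempty) (nb : ¬ S.tb' σ ρ) (b : S.tb' σ (S.pr σ')) :
    ∃ x : S.P, x.b = σ' ∧ q s x ρ ∧ ∀ z : S.P, z.b = σ → (S.Cr σ → S.arm σ σ' = z.l) → le x z := by
  have m := mx_of hσ e e' hne nb b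
  let x : S.P := ⟨(σ', 0), ⟨S.hU.cxK.down σ hσ _ e (hne.mono e').of_image, m⟩, fun _ => rfl⟩
  refine ⟨x, rfl, (qf_n n).2 ((tb_sub hσ e m e').not.2 nb), ?_⟩
  rintro z rfl h
  exact ⟨e, fun c => (side_n n).trans (h c)⟩

theorem sheet_v {y : S.P} (c : S.Cr y.b) {σ' : Finset U.V} (e : σ' ⊆ y.b) (n : ¬ S.Cr σ')
    {ρ : Finset B.V} (e' : ρ ⊆ S.pr σ') (hne : ρ.Nonempty) (nc : ¬ S.tc y.b ρ)
    (c' : S.tc y.b (S.pr σ')) {u : K4} (hu : u.2 = 1)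
    (hl : (y.l + u.1 = 1 ∧ S.tb' y.b (S.pr σ')) ∨ (y.l + u.1 = 0 ∧ ¬ S.tb' y.b (S.pr σ'))) :
    ∃ x : S.P, S.pr x.b = S.pr σ' ∧ q s x ρ ∧ le x (act u y) := by
  have e2 : S.t σ' ⊆ S.t y.b := image_subset_image e
  have pp : S.pr (S.t σ') = S.pr σ' := pt σ'
  obtain ⟨x, a, b, d⟩ := sheet_u (s := s) (S.d.τK _ y.K) e2 (fun k => n (tt σ' ▸ k.t))
    (pp ▸ e') hne (tb_t.not.2 nc) (tb_t.2 (pp ▸ c'))
  refine ⟨x, a ▸ pp, b, d _ (by rw [act_b _ c, hu]; rfl) fun _ => ?_⟩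
  obtain ⟨a1, a0⟩ := arm_ty (S := S) (S.d.τK _ y.K) e2
  rw [tc_t, pp] at a1 a0
  rw [act_l _ c]
  rcases hl with k | k
  exacts [(a1.2 k.2).trans k.1.symm, (a0.2 k.2).trans k.1.symm]

/-- a jump of the colouring of `y` comes from a sheet below `y` -/
theorem exists_sheet (hs : S.cut.St s) {y : S.P} {σ' : Finset U.V} (e : σ' ⊆ y.b)
    {ρ : Finset B.V} (e' : ρ ⊆ S.pr σ') (hne : ρ.Nonempty)
    (h : ¬ (q s y ρ ↔ q s y (S.pr σ'))) :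
    ∃ x : S.P, S.pr x.b = S.pr σ' ∧ q s x ρ ∧ S.cut.ls s x y := by
  have K' := S.hU.cxK.down _ y.K _ e (hne.mono e').of_image
  by_cases c' : S.Cr σ'
  · let x : S.P := ⟨(σ', y.l), ⟨K', c'.mx K'⟩, fun k => (k c').elim⟩
    have l : le x y := (le_cr c').2 ⟨e, rfl⟩
    exact ⟨x, rfl, (q_le hs (x := x) c' l e').2
      (by_contra fun k => h (iff_of_false k (not_q_cr e c'))), Or.inl l⟩
  unfold q at h
  by_cases c : S.Cr y.b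
  swap
  · rw [qf_n c, qf_n c] at h
    have b : S.tb' y.b (S.pr σ') := by_contra fun k => h (iff_of_true (fun t => k (t.mono e')) k)
    obtain ⟨x, p, r, t⟩ := sheet_u (s := s) y.K e c' e' hne
      (fun k => h (iff_of_false (not_not.2 k) (not_not.2 b))) b
    exact ⟨x, by rw [p], r, Or.inl (t y rfl fun k => (c k).elim)⟩
  obtain ⟨a1, a0⟩ := arm_ty (S := S) y.K e
  rcases qf_jump c (hs.ne y c) ((cr_ty y.K e).not.1 c')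
    (ty_abc (e'.trans (image_subset_image e)) hne) (fun k => k.mono e') (fun k => k.mono e')
    (fun k => k.mono e') h with ⟨a, b, d⟩ | ⟨a, b, d, f⟩
  · obtain ⟨x, p, r, t⟩ := sheet_u (s := s) y.K e c' e' hne a b
    refine ⟨x, by rw [p], r, ?_⟩
    by_cases l : S.arm y.b σ' = y.l
    · exact Or.inl (t y rfl fun _ => l)
    · have k : s y = fl := d.resolve_right fun d => d.elim
        (fun d => l ((a1.2 d.2).trans d.1.symm)) fun d => l ((a0.2 d.2).trans d.1.symm)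
      refine Or.inr ⟨c, ?_⟩
      rw [k]
      refine t (act fl y) (act_b fl c) fun _ => ?_
      rw [act_l _ c]
      revert l; generalize S.arm y.b σ' = a; generalize y.l = b; revert a b; decide
  · obtain ⟨x, p, r, t⟩ := sheet_v (s := s) c e c' e' hne a b d f
    exact ⟨x, p, r, Or.inr ⟨c, t⟩⟩

theorem not_q_fl (hs : S.cut.St s) {x : S.P} (c : S.Cr x.b) (k : s x ≠ fl) {ρ ρ' : Finset B.V}
    (e : ρ ⊆ S.pr x.b) (e' : ρ' ⊆ S.pr x.b) (hne : ρ.Nonempty) (hne' : ρ'.Nonempty)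
    (cmp : ρ ⊆ ρ' ∨ ρ' ⊆ ρ) (h : q s x ρ) : ¬ q s (act fl x) ρ' := by
  intro h'
  have es : s (act fl x) = s x := hs.inv _ x c
  have eb : (act fl x).b = x.b := act_b fl c
  unfold q at h h'
  rw [es, eb, act_l _ c] at h'
  exact qf_two c (hs.ne x c) k (ty_abc e hne) (ty_abc e' hne') (cmp.imp
    (fun u => ⟨fun k => k.mono u, fun k => k.mono u, fun k => k.mono u⟩)
    fun u => ⟨fun k => k.mono u, fun k => k.mono u, fun k => k.mono u⟩) h h'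

theorem ac_q (hs : S.cut.St s) (y : S.P) : Ac sub {ρ | ρ ∈ fcs (S.pr y.b) ∧ q s y ρ} := by
  classical
  have key : ∀ f : U.V → Prop, (∃ v ∈ y.b, f v) →
      (∀ ρ ∈ fcs (S.pr y.b), q s y ρ → S.ty y.b f ρ) →
      (∀ ρ, S.ty y.b f ρ → ¬ S.ty y.b (fun v => ¬ f v) ρ → q s y ρ) →
      Ac sub {ρ | ρ ∈ fcs (S.pr y.b) ∧ q s y ρ} := by
    intro f ⟨v, a, b⟩ h1 h2
    have fs : y.b.filter f ⊆ y.b := filter_subset _ _
    refine ac_faces (W := S.pr (y.b.filter f)) ⟨_, mem_image_of_mem _ (mem_filter.2 ⟨a, b⟩)⟩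
      (fun ρ m => ?_) fun ρ m n => ⟨⟨n, m.trans (image_subset_image fs)⟩, h2 ρ ?_ ?_⟩
    · obtain ⟨u, p, r, t⟩ := h1 ρ m.1 m.2
      exact ⟨_, mem_inter.2 ⟨r, mem_image_of_mem _ (mem_filter.2 ⟨p, t⟩)⟩⟩
    · obtain ⟨u, p, r⟩ := ty_any m n
      exact ⟨u, fs p, r, (mem_filter.1 p).2⟩
    · rintro ⟨u, p, r, t⟩
      exact t (mem_filter.1 (mem_of_pr y.K fs p (m r))).2
  have low : (∀ ρ, q s y ρ ↔ ¬ S.tb' y.b ρ) → Ac sub {ρ | ρ ∈ fcs (S.pr y.b) ∧ q s y ρ} := fun h =>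
    key (S.L y.b) ((S.ori.mx_iff y.K subset_rfl).1 y.mx).1 (fun ρ m k => by
      obtain ⟨u, p, r⟩ := ty_any m.2 m.1
      exact ⟨u, p, r, by_contra fun t => (h ρ).1 k ⟨u, p, r, t⟩⟩) fun ρ _ k => (h ρ).2 k
  by_cases c : S.Cr y.b
  swap
  · exact low fun _ => qf_n c
  obtain ⟨ha, hb, hc⟩ := (cr_iff y.K subset_rfl).1 c
  have n11 := fun v hv => c.no11 y.K (y := v) hv
  rcases K4.c0 _ (hs.ne y c) with k | k | k
  · exact low fun _ => by rw [q, k, qf_fl]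
  · rcases z2_01 y.l with l | l
    · refine key _ ha (fun ρ m h => ?_) fun ρ _ h => ?_
      · rw [q, k, l, qf_d0 c] at h
        exact ((ty_abc m.2 m.1).resolve_right fun t => t.elim h.1 h.2)
      · rw [q, k, l, qf_d0 c]
        exact ⟨fun ⟨v, a, b, d⟩ => h ⟨v, a, b, fun t => d t.1⟩,
          fun ⟨v, a, b, d⟩ => h ⟨v, a, b, fun t => d t.2⟩⟩
    · have fs : y.b.filter (fun v => ¬ (S.L y.b v ∧ S.L' y.b v)) ⊆ y.b := filter_subset _ _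
      obtain ⟨u, u1, u2⟩ := hb
      obtain ⟨v, v1, v2⟩ := hc
      refine Ac.of_top (m := S.pr (y.b.filter fun v => ¬ (S.L y.b v ∧ S.L' y.b v)))
        ⟨⟨⟨_, mem_image_of_mem _ (mem_filter.2 ⟨u1, fun t => u2 t.1⟩)⟩, image_subset_image fs⟩, ?_⟩
        fun ρ m z hz => ?_
      · rw [q, k, l, qf_d1 c, ta, tb', tc, ty_pr y.K fs, ty_pr y.K fs, ty_pr y.K fs]
        exact ⟨fun ⟨z, a, b⟩ => (mem_filter.1 a).2 b, ⟨u, mem_filter.2 ⟨u1, fun t => u2 t.1⟩, u2⟩,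
          v, mem_filter.2 ⟨v1, fun t => v2 t.2⟩, v2⟩
      · have h := m.2
        rw [q, k, l, qf_d1 c] at h
        obtain ⟨z, a, rfl⟩ := mem_image.1 (m.1.2 hz)
        exact mem_image_of_mem _ (mem_filter.2 ⟨a, fun t => h.1 ⟨z, a, hz, t⟩⟩)
  · rcases z2_01 y.l with l | l
    · refine key _ hb (fun ρ _ h => ?_) fun ρ h h' => ?_
      · rw [q, k, l, qf_r0 c] at h; exact h.2
      · rw [q, k, l, qf_r0 c]
        exact ⟨fun ⟨v, a, b, d⟩ => h' ⟨v, a, b, fun t => (n11 v a).elim t d⟩, h⟩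
    · refine key _ hc (fun ρ _ h => ?_) fun ρ h h' => ?_
      · rw [q, k, l, qf_r1 c] at h; exact h.2
      · rw [q, k, l, qf_r1 c]
        exact ⟨fun ⟨v, a, b, d⟩ => h' ⟨v, a, b, fun t => (n11 v a).elim d t⟩, h⟩

end S2

end Crest.Agent.X212.Dsc37
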