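import Crest.Agent.X212.Dsc37.Fin

/-!
# Descent through one double cover
-/

namespace Crest.Agent.X212.Dsc37

open Finset

namespace S2
variable {G : Type} [AddGroup G] {U B : Dat G} {S : S2 U B} {s : S.P → K4} {D : Set S.P}

/-- a resolved disc -/
structure Fi (s : S.P → K4) (D : Set S.P) : Prop where
  good : S.cut.Good s D
  fin : ∀ x : S.P, S.Cr x.b → x ∈ D → s x = fl → act dk x ∉ D

theorem ls_pr {x y : S.P} (h : S.cut.ls s x y) : S.pr x.b ⊆ S.pr y.b := by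
  rcases h with h | ⟨c, h⟩
  · exact image_subset_image h.1
  · rw [← pr_act (s y) c]; exact image_subset_image h.1

theorem ls_act (hs : S.cut.St s) {x : S.P} (c : S.Cr x.b) : S.cut.ls s x (act (s x) x) := by
  refine Or.inr ⟨act_cr _ c, ?_⟩
  have e : s (act (s x) x) = s x := hs.inv _ x c
  have e' : act (s x) (act (s x) x) = x := Cut.act_act (C := S.cut) _ c
  change le x (act (s (act (s x) x)) (act (s x) x))
  rw [e, e']; exact le_refl x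

theorem sep_of_ls (hs : S.cut.St s) {x y : S.P} (h : S.cut.ls s x y) {ρ : Finset B.V}
    (e : ρ ⊆ S.pr x.b) (hne : ρ.Nonempty) (hq : q s x ρ) : ¬ (q s y ρ ↔ q s y (S.pr x.b)) := by
  rcases h with h | ⟨c, h⟩
  · exact sep_of_le hs h e hne hq
  · rw [← q_act hs c, ← q_act hs c]; exact sep_of_le hs h e hne hq

namespace Fi
variable (h : Fi s D)
include h

theorem act_mem {x : S.P} (c : S.Cr x.b) (hx : x ∈ D) : act (s x) x ∈ D :=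
  (h.good.clo _ _ (ls_act h.good.st c)).1 hx

/-- two sheets over the same simplex with comparable far faces are glued -/
theorem uniq {x x' : S.P} (hx : x ∈ D) (hx' : x' ∈ D) (e : S.pr x'.b = S.pr x.b)
    {ρ ρ' : Finset B.V} (m : ρ ∈ fcs (S.pr x.b)) (m' : ρ' ∈ fcs (S.pr x.b))
    (cmp : ρ ⊆ ρ' ∨ ρ' ⊆ ρ) (a : q s x ρ) (a' : q s x' ρ') :
    x' = x ∨ (S.Cr x.b ∧ x' = act (s x) x) := by
  have hs := h.good.st
  by_cases c : S.Cr x.b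
  · obtain ⟨u, rfl⟩ : ∃ u, x' = act u x := by
      rcases lifts x.K e with k | k
      · exact ⟨(x'.l - x.l, 0), P.ext (by rw [act_b _ c, k]; rfl) (by rw [act_l _ c]; ring)⟩
      · exact ⟨(x'.l - x.l, 1), P.ext (by rw [act_b _ c, k]; rfl) (by rw [act_l _ c]; ring)⟩
    have es : ∀ u, s (act u x) = s x := fun u => hs.inv u x c
    have ad : ∀ u v, act (u + v) x = act u (act v x) := fun u v => S.cut.act_add u v x c
    by_cases k : s x = fl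
    · rcases K4.four' fl.swap u (by decide) (by decide) with rfl | rfl | rfl | rfl
      · exact Or.inl (S.cut.act_zero x)
      · exact Or.inr ⟨c, by rw [k]⟩
      · exact (h.fin x c hx k hx').elim
      · have := h.act_mem (act_cr _ c) hx'
        rw [es, k, ← ad] at this
        exact (h.fin x c hx k this).elim
    · rcases K4.four (hs.ne x c) k u with rfl | rfl | rfl | rfl
      · exact Or.inl (S.cut.act_zero x)
      · exact (not_q_fl hs c k m.2 m'.2 m.1 m'.1 cmp a a').elim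
      · exact Or.inr ⟨c, rfl⟩
      · rw [ad, ← es fl, q_act hs (act_cr _ c)] at a'
        exact (not_q_fl hs c k m.2 m'.2 m.1 m'.1 cmp a a').elim
  · rcases lifts x.K e with k | k
    · exact Or.inl (P.ext k (by rw [x.l0 c, x'.l0 (k ▸ c)]))
    · have c' : ¬ S.Cr x'.b := fun t => c (by have := t.t; rwa [k, tt] at this)
      rw [q, qf_n c] at a
      rw [q, qf_n c', k, tb_t] at a'
      obtain ⟨v, p, r, r'⟩ : ∃ v ∈ x.b, S.d.p v ∈ ρ ∧ S.d.p v ∈ ρ' := by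
        rcases cmp with t | t
        · obtain ⟨v, p, r⟩ := ty_any m.2 m.1; exact ⟨v, p, r, t r⟩
        · obtain ⟨v, p, r⟩ := ty_any m'.2 m'.1; exact ⟨v, p, t r, r⟩
      exact (c ⟨v, p, by_contra fun t => a ⟨v, p, r, t⟩, by_contra fun t => a' ⟨v, p, r', t⟩⟩).elim

theorem uniq_ls {x x' : S.P} (hx : x ∈ D) (hx' : x' ∈ D) (e : S.pr x'.b = S.pr x.b)
    {ρ ρ' : Finset B.V} (m : ρ ∈ fcs (S.pr x.b)) (m' : ρ' ∈ fcs (S.pr x.b))
    (cmp : ρ ⊆ ρ' ∨ ρ' ⊆ ρ) (a : q s x ρ) (a' : q s x' ρ') :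
    S.cut.ls s x x' ∧ ∀ π, (q s x' π ↔ q s x π) := by
  rcases h.uniq hx hx' e m m' cmp a a' with rfl | ⟨c, rfl⟩
  · exact ⟨Or.inl (le_refl _), fun _ => Iff.rfl⟩
  · exact ⟨ls_act h.good.st c, q_act h.good.st c⟩

end Fi

/-- the colouring of the faces of `σ` -/
def chi (s : S.P → K4) (D : Set S.P) (σ ρ : Finset B.V) : Prop :=
  ∃ x ∈ D, S.pr x.b = σ ∧ q s x ρ

theorem not_chi (σ : Finset B.V) : ¬ chi s D σ σ := fun ⟨x, _, e, k⟩ => not_q_self x (e ▸ k)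

open Classical in
/-- the resolved disc downstairs -/
noncomputable def eta (s : S.P → K4) (D : Set S.P) (ρ ρ' : Finset B.V) : ZMod 2 :=
  if (chi s D (ρ ∪ ρ') ρ ↔ chi s D (ρ ∪ ρ') ρ') then 0 else 1

theorem face_pr (y : S.P) {σ : Finset B.V} (e : σ ⊆ S.pr y.b) : ∃ σ' ⊆ y.b, S.pr σ' = σ := by
  obtain ⟨t, a, b⟩ := subset_image_iff.1 e
  exact ⟨t, a, b⟩

namespace Fi
variable (h : Fi s D)
include h

theorem sheet {y : S.P} (hy : y ∈ D) {σ ρ : Finset B.V} (e : σ ⊆ S.pr y.b) (e' : ρ ⊆ σ)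
    (hne : ρ.Nonempty) (j : ¬ (q s y ρ ↔ q s y σ)) :
    ∃ x ∈ D, S.pr x.b = σ ∧ q s x ρ ∧ S.cut.ls s x y := by
  obtain ⟨σ', a, rfl⟩ := face_pr y e
  obtain ⟨x, p, r, t⟩ := exists_sheet h.good.st a e' hne j
  exact ⟨x, (h.good.clo x y t).2 hy, p, r, t⟩

theorem chi_key {σ ρ' ρ : Finset B.V} (hσ : σ ∈ B.K) (e : ρ' ⊆ σ) (e' : ρ ⊆ ρ')
    (hne : ρ.Nonempty) : chi s D ρ' ρ ↔ ¬ (chi s D σ ρ ↔ chi s D σ ρ') := by
  have one : ∀ y ∈ D, S.pr y.b = σ → (q s y ρ ∨ q s y ρ') →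
      ((chi s D σ ρ ↔ q s y ρ) ∧ (chi s D σ ρ' ↔ q s y ρ')) := by
    rintro y hy rfl a
    have m : ρ ∈ fcs (S.pr y.b) := ⟨hne, e'.trans e⟩
    have m' : ρ' ∈ fcs (S.pr y.b) := ⟨hne.mono e', e⟩
    refine ⟨⟨fun ⟨z, hz, p, r⟩ => ?_, fun k => ⟨y, hy, rfl, k⟩⟩,
      ⟨fun ⟨z, hz, p, r⟩ => ?_, fun k => ⟨y, hy, rfl, k⟩⟩⟩
    · exact a.elim id fun a => ((h.uniq_ls hy hz p m' m (Or.inr e') a r).2 ρ).1 r
    · exact a.elim (fun a => ((h.uniq_ls hy hz p m m' (Or.inl e') a r).2 ρ').1 r) id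
  constructor
  · rintro ⟨x, hx, rfl, k⟩
    obtain ⟨y, p, l⟩ := exists_lift x hσ e
    have j := sep_of_le h.good.st l e' hne k
    obtain ⟨a, b⟩ := one y ((h.good.clo x y (Or.inl l)).1 hx) p
      (by_contra fun t => j (iff_of_false (fun u => t (Or.inl u)) fun u => t (Or.inr u)))
    rwa [a, b]
  · intro j
    obtain ⟨y, hy, p, a⟩ : ∃ y ∈ D, S.pr y.b = σ ∧ (q s y ρ ∨ q s y ρ') := by
      by_contra t
      exact j (iff_of_false (fun ⟨y, a, b, c⟩ => t ⟨y, a, b, Or.inl c⟩)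
        fun ⟨y, a, b, c⟩ => t ⟨y, a, b, Or.inr c⟩)
    obtain ⟨b, c⟩ := one y hy p a
    rw [b, c] at j
    obtain ⟨x, hx, u, v, -⟩ := h.sheet hy (p ▸ e) e' hne j
    exact ⟨x, hx, u, v⟩

theorem eta_ne {σ ρ ρ' : Finset B.V} (hσ : σ ∈ B.K) (m : ρ ∈ fcs σ) (m' : ρ' ∈ fcs σ)
    (cmp : ρ ⊆ ρ' ∨ ρ' ⊆ ρ) : eta s D ρ ρ' ≠ 0 ↔ ¬ (chi s D σ ρ ↔ chi s D σ ρ') := by
  have k : eta s D ρ ρ' ≠ 0 ↔ ¬ (chi s D (ρ ∪ ρ') ρ ↔ chi s D (ρ ∪ ρ') ρ') := by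
    unfold eta; split_ifs with t <;> simp [t]
  rw [k]
  rcases cmp with t | t
  · rw [union_eq_right.2 t, ← h.chi_key hσ m'.2 t m.1, iff_false_intro (not_chi ρ')]; simp
  · rw [union_eq_left.2 t, Iff.comm (a := chi s D σ ρ), ← h.chi_key hσ m.2 t m'.1,
      iff_false_intro (not_chi ρ)]; simp

theorem eta_top {L : Set (Finset B.V)} (hL : L ⊆ B.K) {r : Finset (Finset B.V)} (hr : r ∈ sd L)
    {x y : Finset B.V} (hx : x ∈ r) (hy : y ∈ r) :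
    eta s D x y ≠ 0 ↔ ¬ (chi s D (top r) x ↔ chi s D (top r) y) :=
  h.eta_ne (hL (top_mem' hr)) ⟨S.hB.cxK.ne _ (hL (hr.2.1 x hx)), sub_top hx⟩
    ⟨S.hB.cxK.ne _ (hL (hr.2.1 y hy)), sub_top hy⟩ (hr.2.2 x hx y hy)

theorem mx_eta {L : Set (Finset B.V)} (hL : L ⊆ B.K) {r : Finset (Finset B.V)} (hr : r ∈ sd L) :
    Mx (eta s D) r ↔ ∃ x ∈ D, S.pr x.b = top r ∧ ∃ ρ ∈ r, q s x ρ := by
  constructor
  · rintro ⟨x, hx, y, hy, k⟩
    rw [h.eta_top hL hr hx hy] at k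
    by_contra t
    exact k (iff_of_false (fun ⟨z, a, b, c⟩ => t ⟨z, a, b, x, hx, c⟩)
      fun ⟨z, a, b, c⟩ => t ⟨z, a, b, y, hy, c⟩)
  · rintro ⟨x, a, b, ρ, c, d⟩
    exact ⟨ρ, c, _, top_mem hr, (h.eta_top hL hr c (top_mem hr)).2
      fun k => not_chi _ (k.1 ⟨x, a, b, d⟩)⟩

theorem exists_pi : ∃ π : Finset (Finset B.V) → S.P, ∀ r ∈ Sf (sd B.K) (eta s D),
    π r ∈ D ∧ S.pr (π r).b = top r ∧ ∃ ρ ∈ r, q s (π r) ρ := by
  obtain ⟨x0, -⟩ := h.good.conn.1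
  have : ∀ r, ∃ x : S.P, r ∈ Sf (sd B.K) (eta s D) →
      x ∈ D ∧ S.pr x.b = top r ∧ ∃ ρ ∈ r, q s x ρ := fun r => by
    by_cases m : r ∈ Sf (sd B.K) (eta s D)
    · obtain ⟨x, k⟩ := (h.mx_eta subset_rfl m.1).1 m.2
      exact ⟨x, fun _ => k⟩
    · exact ⟨x0, fun k => (m k).elim⟩
  choose π hπ using this
  exact ⟨π, hπ⟩

variable {π : Finset (Finset B.V) → S.P} (hπ : ∀ r ∈ Sf (sd B.K) (eta s D),
    π r ∈ D ∧ S.pr (π r).b = top r ∧ ∃ ρ ∈ r, q s (π r) ρ)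
include hπ

theorem pi_ls {r : Finset (Finset B.V)} (hr : r ∈ Sf (sd B.K) (eta s D)) {x : S.P} (hx : x ∈ D)
    (e : S.pr x.b = top r) {ρ : Finset B.V} (m : ρ ∈ r) (a : q s x ρ) :
    S.cut.ls s (π r) x ∧ S.cut.ls s x (π r) := by
  obtain ⟨p1, p2, ρ', p3, p4⟩ := hπ r hr
  have f : ∀ t ∈ r, t ∈ fcs (top r) := fun t k => ⟨S.hB.cxK.ne _ (hr.1.2.1 t k), sub_top k⟩
  exact ⟨(h.uniq_ls p1 hx (e.trans p2.symm) (p2 ▸ f _ p3) (p2 ▸ f _ m) (hr.1.2.2 _ p3 _ m) p4 a).1,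
    (h.uniq_ls hx p1 (p2.trans e.symm) (e ▸ f _ m) (e ▸ f _ p3) (hr.1.2.2 _ m _ p3) a p4).1⟩

theorem pi_mono {r r' : Finset (Finset B.V)} (hr : r ∈ Sf (sd B.K) (eta s D))
    (hr' : r' ∈ Sf (sd B.K) (eta s D)) (e : r ⊆ r') : S.cut.ls s (π r) (π r') := by
  obtain ⟨p1, p2, ρ, p3, p4⟩ := hπ r hr
  obtain ⟨y, p, l⟩ := exists_lift (π r) (top_mem' hr'.1) (p2 ▸ top_mono e)
  have hy := (h.good.clo _ y (Or.inl l)).1 p1
  have j := sep_of_le h.good.st l (p2 ▸ sub_top p3) (S.hB.cxK.ne _ (hr.1.2.1 _ p3)) p4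
  rw [p2] at j
  refine Cut.ls_trans h.good.st (Or.inl l) ?_
  by_cases a : q s y ρ
  · exact (h.pi_ls hπ hr' hy p (e p3) a).2
  · exact (h.pi_ls hπ hr' hy p (e (top_mem hr.1))
      (by_contra fun t => j (iff_of_false a t))).2

theorem ac_fb {L : Set (Finset B.V)} (hc : Cx L) (hL : L ⊆ B.K) {y : S.P} (hy : y ∈ D)
    (yL : S.pr y.b ∈ L) : Ac sub (Fb (S.cut.ls s) (Sf (sd L) (eta s D)) π y) := by
  have sdL : ∀ r ∈ sd L, r ∈ sd B.K := fun r k => ⟨k.1, fun σ a => hL (k.2.1 σ a), k.2.2⟩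
  have e : Fb (S.cut.ls s) (Sf (sd L) (eta s D)) π y =
      MxCh (fcs (S.pr y.b)) {ρ | ρ ∈ fcs (S.pr y.b) ∧ q s y ρ} := by
    ext r
    constructor
    · rintro ⟨⟨a, b⟩, c⟩
      obtain ⟨p1, p2, ρ, p3, p4⟩ := hπ r ⟨sdL r a, b⟩
      have a' := (mem_sd_fcs hc yL).2 ⟨a, p2 ▸ ls_pr c⟩
      have j := sep_of_ls h.good.st c (p2 ▸ sub_top p3) (hc.ne _ (a.2.1 _ p3)) p4
      rw [p2] at j
      have t := top_mem a
      by_cases k : q s y ρ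
      · exact ⟨a', ⟨ρ, p3, a'.2.1 _ p3, k⟩, _, t, fun u => j (iff_of_true k u.2)⟩
      · exact ⟨a', ⟨_, t, a'.2.1 _ t, by_contra fun u => j (iff_of_false k u)⟩, ρ, p3,
          fun u => k u.2⟩
    · rintro ⟨a, ⟨ρ1, b1, c1⟩, ρ2, b2, c2⟩
      obtain ⟨a1, a2⟩ := (mem_sd_fcs hc yL).1 a
      obtain ⟨ρ, b, j⟩ : ∃ ρ ∈ r, ¬ (q s y ρ ↔ q s y (top r)) := by
        by_cases k : q s y (top r)
        · exact ⟨ρ2, b2, fun u => c2 ⟨a.2.1 _ b2, u.2 k⟩⟩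
        · exact ⟨ρ1, b1, fun u => k (u.1 c1.2)⟩
      obtain ⟨x, hx, u, v, t⟩ := h.sheet hy a2 (sub_top b) (a.2.1 _ b).1 j
      have m : Mx (eta s D) r := (h.mx_eta hL a1).2 ⟨x, hx, u, ρ, b, v⟩
      exact ⟨⟨a1, m⟩, Cut.ls_trans h.good.st (h.pi_ls hπ ⟨sdL r a1, m⟩ hx u b v).1 t⟩
  rw [e]
  exact ac_mxCh (σ := S.pr y.b) ⟨hc.ne _ yL, subset_rfl⟩ (fun _ k => k.2) (fun _ k => k.1)
    (fun k => not_q_self y k.2) (ac_q h.good.st y)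

omit hπ in
theorem disc : B.sub1.Disc (eta s D) := by
  obtain ⟨π, hπ⟩ := h.exists_pi
  have rf : ∀ {Y : Set S.P}, ∀ y ∈ Y, S.cut.ls s y y := fun y _ => Or.inl (le_refl y)
  have tr : ∀ {Y : Set S.P}, ∀ x ∈ Y, ∀ y ∈ Y, ∀ z ∈ Y, S.cut.ls s x y → S.cut.ls s y z →
      S.cut.ls s x z := fun _ _ _ _ _ _ => Cut.ls_trans h.good.st
  have a := Ac.quillen (r := sub) rf tr (fun r k => (hπ r k).1)
    (fun r k r' k' e => h.pi_mono hπ k k' e)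
    (fun y hy => h.ac_fb hπ S.hB.cxK subset_rfl hy (S.d.pK _ y.K)) ⟨h.good.conn, h.good.h0⟩
  have sF : ∀ r ∈ Sf (sd B.F) (eta s D), r ∈ Sf (sd B.K) (eta s D) := fun r k =>
    ⟨⟨k.1.1, fun σ a => S.hB.FK (k.1.2.1 σ a), k.1.2.2⟩, k.2⟩
  have mp : ∀ r ∈ Sf (sd B.F) (eta s D), π r ∈ D ∩ S.cut.bd := fun r k =>
    ⟨(hπ r (sF r k)).1, P.pF.2 (by
      have := top_mem' k.1
      rwa [← (hπ r (sF r k)).2.1] at this)⟩
  have fB : ∀ y ∈ D ∩ S.cut.bd, Conn sub (Fb (S.cut.ls s) (Sf (sd B.F) (eta s D)) π y) :=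
    fun y hy => (h.ac_fb hπ S.hB.cxF S.hB.FK hy.1 (P.pF.1 hy.2)).1
  refine ⟨fun r hr x hx y hy z hz => ?_, fun r hr x hx y hy k => ?_, a.1, a.2,
    Conn.quillen rf tr mp fB h.good.connB, fun k => h.good.ess (Cob.quillen tr mp
      (fun r k r' k' e => h.pi_mono hπ (sF r k) (sF r' k') e) fB (fun x hx y hy z hz u v =>
        S.hB.coc _ ⟨P.pF.1 hx.2, x.pA⟩ _ ⟨P.pF.1 hy.2, y.pA⟩ _ ⟨P.pF.1 hz.2, z.pA⟩ (ls_pr u)
          (ls_pr v)) (k.congr fun r a r' b _ => ?_))⟩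
  · have e1 := h.eta_top subset_rfl hr hx hz
    have e2 := h.eta_top subset_rfl hr hx hy
    have e3 := h.eta_top subset_rfl hr hy hz
    have k : (eta s D x z ≠ 0 ↔ ¬ (eta s D x y ≠ 0 ↔ eta s D y z ≠ 0)) := by
      rw [e1, e2, e3]
      generalize chi s D (top r) x = a, chi s D (top r) y = b, chi s D (top r) z = c
      by_cases a <;> by_cases b <;> by_cases c <;> simp [*]
    revert k; generalize eta s D x z = a; generalize eta s D x y = b; generalize eta s D y z = c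
    revert a b c; decide
  · have key : ∀ x y : Finset B.V, x ∈ B.K → y ∈ B.K → x ⊆ y →
        ¬ (chi s D y x ↔ chi s D y y) → Mt B.A y := fun x y _ _ _ k => by
      obtain ⟨z, -, rfl, -⟩ : chi s D y x := by_contra fun t => k (iff_of_false t (not_chi y))
      exact z.pA
    have xK := hr.2.1 x hx
    have yK := hr.2.1 y hy
    have nx := S.hB.cxK.ne x xK
    have ny := S.hB.cxK.ne y yK
    rcases hr.2.2 x hx y hy with e | e
    · exact Or.inr ⟨yK, key x y xK yK e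
        ((h.eta_ne yK ⟨nx, e⟩ ⟨ny, subset_rfl⟩ (Or.inl e)).1 k)⟩
    · exact Or.inl ⟨xK, key y x yK xK e fun t =>
        (h.eta_ne xK ⟨nx, subset_rfl⟩ ⟨ny, e⟩ (Or.inr e)).1 k t.symm⟩
  · change B.g (top r) (top r') = B.g (S.pr (π r).b) (S.pr (π r').b)
    rw [(hπ r (sF r a)).2.1, (hπ r' (sF r' b)).2.1]

end Fi

end S2

/-- **DESCENT** -/
theorem desc : DescStmt := by
  intro G _ U B hU hB d h
  obtain ⟨d', w, o, h1, h2, h3⟩ := step1 hU hB d h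
  let S : S2 U.sub1 B.sub1 :=
    ⟨Lad50.okSubStmt G U hU, Lad50.okSubStmt G B hB, d', w, o, h1, h2, h3⟩
  obtain ⟨s, D, a, b⟩ := (S2.good_init (S := S)).final
  exact ⟨_, S2.Fi.disc ⟨a, b⟩⟩

end Crest.Agent.X212.Dsc37
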