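import Crest.Agent.X212.Dsc37.Cr

/-!
# The cut surface of a disc and its translate is a `Cut`
-/

namespace Crest.Agent.X212.Dsc37

open Finset

section Flags
variable {P : Type*} [Fintype P]

theorem sum_ind (T : P → Prop) [DecidablePred T] (a : ZMod 2) :
    ∑ x, (if T x then a else 0) = ({x | T x}.ncard : ZMod 2) * a := by
  rw [← sum_filter, sum_const, nsmul_eq_mul, ← Set.ncard_coe_finset]
  congr 3; ext x; simp

theorem two_mul_z2 (a : ZMod 2) : ((2 : ℕ) : ZMod 2) * a = 0 := by revert a; decide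

open Classical in
/-- counting flags -/
theorem flags {le : P → P → Prop} {r0 r1 r2 H : P → Prop} {c : P → P → ZMod 2}
    (hc : ∀ x y z, r0 x → r1 y → r2 z → le x y → le y z → c x z = c x y + c y z)
    (ht : ∀ x y z, le x y → le y z → le x z)
    (h1 : ∀ y, r1 y → {z | r2 z ∧ le y z}.ncard = 2)
    (h2 : ∀ x z, r0 x → r2 z → le x z → {y | r1 y ∧ le x y ∧ le y z}.ncard = 2)
    (h3 : ∀ y, r1 y → {x | r0 x ∧ le x y}.ncard = if H y then 1 else 2) :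
    ∑ y, ∑ z, (if (r1 y ∧ H y) ∧ r2 z ∧ le y z then c y z else 0) = 0 := by
  let F : P → P → P → Prop := fun x y z => r0 x ∧ r1 y ∧ r2 z ∧ le x y ∧ le y z
  have a : ∑ x, ∑ y, ∑ z, (if F x y z then c x y else 0) = 0 := by
    refine sum_eq_zero fun x _ => sum_eq_zero fun y _ => ?_
    rw [sum_ind]
    by_cases q : r0 x ∧ r1 y ∧ le x y
    · rw [show {z | F x y z} = {z | r2 z ∧ le y z} by ext; simp [F, q], h1 y q.2.1, two_mul_z2]
    · rw [show {z | F x y z} = ∅ by ext; simp only [F, Set.mem_ofPred_eq]; tauto]; simp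
  have b : ∑ x, ∑ y, ∑ z, (if F x y z then c x z else 0) = 0 := by
    refine sum_eq_zero fun x _ => ?_
    rw [sum_comm]
    refine sum_eq_zero fun z _ => ?_
    rw [sum_ind]
    by_cases q : r0 x ∧ r2 z ∧ le x z
    · rw [show {y | F x y z} = {y | r1 y ∧ le x y ∧ le y z} by ext; simp [F, q],
        h2 x z q.1 q.2.1 q.2.2, two_mul_z2]
    · rw [show {y | F x y z} = ∅ from Set.eq_empty_of_forall_notMem fun y k =>
        q ⟨k.1, k.2.2.1, ht _ _ _ k.2.2.2.1 k.2.2.2.2⟩]; simp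
  have d : ∑ x, ∑ y, ∑ z, (if F x y z then c x z else 0) =
      ∑ x, ∑ y, ∑ z, (if F x y z then c x y else 0) +
        ∑ x, ∑ y, ∑ z, (if F x y z then c y z else 0) := by
    simp only [← sum_add_distrib]
    refine sum_congr rfl fun x _ => sum_congr rfl fun y _ => sum_congr rfl fun z _ => ?_
    split_ifs with q
    exacts [hc x y z q.1 q.2.1 q.2.2.1 q.2.2.2.1 q.2.2.2.2, (add_zero _).symm]
  rw [a, b, zero_add, sum_comm] at d
  refine Eq.trans ?_ d.symm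
  refine sum_congr rfl fun y _ => ?_
  rw [sum_comm]
  refine sum_congr rfl fun z _ => ?_
  rw [sum_ind]
  by_cases q : r1 y ∧ r2 z ∧ le y z
  · rw [show {x | F x y z} = {x | r0 x ∧ le x y} by ext; simp [F, q], h3 y q.1]
    by_cases k : H y
    · simp [q, k]
    · simp only [k, and_false, false_and, if_false, two_mul_z2]
  · rw [show {x | F x y z} = ∅ by ext; simp only [F, Set.mem_ofPred_eq]; tauto,
      if_neg (by tauto)]; simp

open Classical in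
theorem pairs {le : P → P → Prop} {r0 r1 H : P → Prop}
    (h1 : ∀ x, r0 x → {y | r1 y ∧ le x y}.ncard = 2)
    (h3 : ∀ y, r1 y → {x | r0 x ∧ le x y}.ncard = if H y then 1 else 2) :
    Even {y | r1 y ∧ H y}.ncard := by
  have a : ∑ x, ∑ y, (if r0 x ∧ r1 y ∧ le x y then (1 : ZMod 2) else 0) = 0 := by
    refine sum_eq_zero fun x _ => ?_
    rw [sum_ind]
    by_cases q : r0 x
    · simp only [q, true_and, h1 x q, two_mul_z2]
    · simp [q]
  rw [sum_comm] at a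
  rw [← ZMod.natCast_eq_zero_iff_even]
  refine ((mul_one _).symm.trans (sum_ind _ _).symm).trans (Eq.trans ?_ a)
  refine sum_congr rfl fun y _ => ?_
  rw [sum_ind]
  by_cases q : r1 y
  · simp only [q, true_and, h3 y q]
    by_cases k : H y
    · simp [k]
    · simp only [k, if_false, two_mul_z2]
  · simp [q]

end Flags

namespace S2
variable {G : Type} [AddGroup G] {U B : Dat G} {S : S2 U B}

/-- translation or identity -/
def tb (S : S2 U B) (b : ZMod 2) (σ : Finset U.V) : Finset U.V := if b = 0 then σ else S.t σ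

theorem tb_add (a b : ZMod 2) (σ : Finset U.V) : S.tb (a + b) σ = S.tb a (S.tb b σ) := by
  have : ∀ c : ZMod 2, c = 0 ∨ c = 1 := by decide
  rcases this a with rfl | rfl <;> rcases this b with rfl | rfl <;> simp [tb, tt, z2_self]

theorem tb_p (a : ZMod 2) (σ : Finset U.V) : (S.tb a σ).image S.d.p = σ.image S.d.p := by
  unfold tb; split_ifs; exacts [rfl, pt σ]

theorem tb_K (a : ZMod 2) {σ : Finset U.V} (h : σ ∈ U.K) : S.tb a σ ∈ U.K := by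
  unfold tb; split_ifs; exacts [h, S.d.τK σ h]

theorem tb_cr (a : ZMod 2) {σ : Finset U.V} (h : S.Cr σ) : S.Cr (S.tb a σ) := by
  unfold tb; split_ifs; exacts [h, h.t]

theorem tb_mono (a : ZMod 2) {σ ρ : Finset U.V} (h : σ ⊆ ρ) : S.tb a σ ⊆ S.tb a ρ := by
  unfold tb; split_ifs; exacts [h, image_subset_image h]

open Classical in
/-- the Klein group acts on half cells -/
noncomputable def act (u : K4) (x : S.P) : S.P :=
  if h : S.Cr x.b then ⟨(S.tb u.2 x.b, x.l + u.1), ⟨tb_K _ x.K, (tb_cr _ h).mx (tb_K _ x.K)⟩,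
    fun q => (q (tb_cr _ h)).elim⟩ else x

theorem act_b (u : K4) {x : S.P} (h : S.Cr x.b) : (act u x).b = S.tb u.2 x.b := by
  rw [act, dif_pos h]; rfl
theorem act_l (u : K4) {x : S.P} (h : S.Cr x.b) : (act u x).l = x.l + u.1 := by
  rw [act, dif_pos h]; rfl
theorem act_cr (u : K4) {x : S.P} (h : S.Cr x.b) : S.Cr (act u x).b := by
  rw [act_b u h]; exact tb_cr _ h

theorem not_sub_t {ρ σ : Finset U.V} (hσ : σ ∈ U.K) (m : Mt S.d.E ρ) (a : ρ ⊆ σ) :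
    ¬ ρ ⊆ S.t σ := fun b => by
  obtain ⟨v, hv, hE⟩ := m
  exact S.d.img_ne hσ ⟨v, a hv, hE⟩
    (S.d.uniq v hE _ (S.d.τK σ hσ) σ hσ (b hv) (a hv) (pt σ))

theorem mtE_t {σ : Finset U.V} (m : Mt S.d.E σ) : Mt S.d.E (S.t σ) := by
  obtain ⟨v, hv, hE⟩ := m; exact ⟨_, mem_image_of_mem _ hv, S.d.τE v hE⟩

theorem card_cr {x : S.P} (c : S.Cr x.b) : x.b.card = 3 ∨ x.b.card = 4 := by
  have := c.card x.K
  have := S.hU.dimK _ x.K
  omega

theorem lt_cr {x y : S.P} (c : S.Cr x.b) (h : le x y) :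
    x ≠ y ↔ x.b.card = 3 ∧ y.b.card = 4 := by
  have a := card_cr c
  have b := card_cr (c.mono h.1)
  constructor
  · intro n
    have := card_lt_card (Finset.ssubset_iff_subset_ne.2 ⟨h.1, fun e => n (P.ext e ((le_cr c).1 h).2)⟩)
    omega
  · rintro ⟨p, q⟩ rfl; omega

theorem abv_eq {x : S.P} (c : S.Cr x.b) (h3 : x.b.card = 3) :
    (abv le {x : S.P | S.Cr x.b} x).ncard = {T | T ∈ U.K ∧ T.card = 4 ∧ x.b ⊆ T}.ncard := by
  rw [← ncard_up x (fun T => T.card = 4)]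
  congr 1; ext y
  exact ⟨fun q => ⟨((lt_cr c q.2.1).1 q.2.2).2, q.2.1⟩,
    fun q => ⟨c.mono q.2.1, q.2, (lt_cr c q.2).2 ⟨h3, q.1⟩⟩⟩

theorem two : Two le {x : S.P | S.Cr x.b} {x | x.b.card = 3} {x | x.b ∈ U.F} := by
  refine ⟨fun x c y _ h n => ?_, fun y c n => ?_, fun x c h3 n => ?_, fun x c f => ?_⟩
  · have := (lt_cr c h).1 n
    exact ⟨this.1, fun q => by have : y.b.card = 3 := q; omega⟩
  · have h4 : y.b.card = 4 := (card_cr c).resolve_left n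
    rw [← cr_two y.K c h4]
    refine Set.ncard_congr (fun z _ => z.b) (fun z h => ⟨h.2.1.1, ((lt_cr h.1 h.2.1).1 h.2.2).1, h.1⟩)
      (fun a b p q e => P.ext e (((le_cr p.1).1 p.2.1).2.trans ((le_cr q.1).1 q.2.1).2.symm))
      fun t h => ?_
    have m := S.hU.cxK.down _ y.K t h.1 (card_pos.1 (by rw [h.2.1]; decide))
    let x : S.P := ⟨(t, y.l), ⟨m, h.2.2.mx m⟩, fun q => (q h.2.2).elim⟩
    have l : le x y := (le_cr h.2.2).2 ⟨h.1, rfl⟩
    exact ⟨x, ⟨h.2.2, l, (lt_cr h.2.2 l).2 ⟨h.2.1, h4⟩⟩, rfl⟩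
  · rw [abv_eq c h3]; exact S.hU.triI _ x.K h3 x.mtA n
  · have h3 : x.b.card = 3 := le_antisymm (S.hU.dimF _ f) (Cr.card x.K c)
    exact ⟨h3, by rw [abv_eq c h3]; exact S.hU.triB _ f h3 x.mtA⟩

open Classical in
theorem edge_cnt (y : S.P) (h3 : y.b.card = 3) :
    {x : S.P | x.b.card = 2 ∧ le x y}.ncard = if S.Cr y.b then 1 else 2 := by
  split_ifs with c
  exacts [edge_c y h3 c, edge_n y h3 c]

theorem stokes (W : Set S.P) (hW : ∀ x y, le x y → (x ∈ W ↔ y ∈ W))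
    (hb : W ∩ {x | x.b ∈ U.F} = ∅) (c : S.P → S.P → ZMod 2) (hc : Coc le W c) :
    per le (W ∩ {x | S.Cr x.b}) c = 0 := by
  classical
  have := flags (le := le) (r0 := fun x : S.P => x ∈ W ∧ x.b.card = 2)
    (r1 := fun x => x ∈ W ∧ x.b.card = 3) (r2 := fun x => x ∈ W ∧ x.b.card = 4)
    (H := fun x => S.Cr x.b) (c := c) (fun x y z a b d => hc x a.1 y b.1 z d.1)
    (fun _ _ _ => le_trans) (fun y h => ?_) (fun x z a b e => ?_) (fun y h => ?_)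
  · rw [per, prs, sum_filter, Fintype.sum_prod_type]
    refine Eq.trans (sum_congr rfl fun y _ => sum_congr rfl fun z _ => ?_) this
    congr 1
    exact propext ⟨fun ⟨a, b, e, n⟩ => ⟨⟨⟨a.1, ((lt_cr a.2 e).1 n).1⟩, a.2⟩, ⟨b.1, ((lt_cr a.2 e).1 n).2⟩, e⟩,
      fun ⟨⟨a, k⟩, b, e⟩ => ⟨⟨a.1, k⟩, ⟨b.1, k.mono e.1⟩, e, (lt_cr k e).2 ⟨a.2, b.2⟩⟩⟩
  · rw [← S.hU.triI _ y.K h.2 y.mtA fun q => Set.eq_empty_iff_forall_notMem.1 hb y ⟨h.1, q⟩,
      ← ncard_up y (fun T => T.card = 4)]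
    congr 1; ext z
    exact ⟨fun q => ⟨q.1.2, q.2⟩, fun q => ⟨⟨(hW y z q.2).1 h.1, q.1⟩, q.2⟩⟩
  · rw [← Lad50.ncard_between e.1 (by rw [a.2, b.2]), a.2]
    have := ncard_up x (fun t => t.card = 3 ∧ t ⊆ z.b)
    rw [show {σ | σ ∈ U.K ∧ (σ.card = 3 ∧ σ ⊆ z.b) ∧ x.b ⊆ σ} =
      {ρ | x.b ⊆ ρ ∧ ρ ⊆ z.b ∧ ρ.card = 2 + 1} from Set.ext fun ρ => ⟨fun q => ⟨q.2.2, q.2.1.2, q.2.1.1⟩,
        fun q => ⟨S.hU.cxK.down _ z.K ρ q.2.1 (card_pos.1 (by rw [q.2.2]; decide)), ⟨q.2.2, q.2.1⟩, q.1⟩⟩] at this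
    rw [← this]
    congr 1; ext y
    exact ⟨fun q => ⟨⟨q.1.2, q.2.2.1⟩, q.2.1⟩,
      fun q => ⟨⟨(hW x y q.2).1 a.1, q.1.1⟩, q.2, le_mid q.2 e q.1.2⟩⟩
  · rw [← edge_cnt y h.2]
    congr 1; ext x
    exact ⟨fun q => ⟨q.1.2, q.2⟩, fun q => ⟨⟨(hW x y q.2).2 h.1, q.1⟩, q.2⟩⟩

theorem parity (W : Set S.P) (hb : W ⊆ {x | x.b ∈ U.F})
    (hW : ∀ x ∈ {x : S.P | x.b ∈ U.F}, ∀ y ∈ {x : S.P | x.b ∈ U.F}, le x y → (x ∈ W ↔ y ∈ W)) :
    Even (W ∩ {x | S.Cr x.b}).ncard := by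
  classical
  have := pairs (le := le) (r0 := fun x : S.P => x ∈ W ∧ x.b.card = 2)
    (r1 := fun x => x ∈ W ∧ x.b.card = 3) (H := fun x => S.Cr x.b) (fun x h => ?_) (fun y h => ?_)
  · convert this using 2
    ext y
    exact ⟨fun q => ⟨⟨q.1, le_antisymm (S.hU.dimF _ (hb q.1)) (Cr.card y.K q.2)⟩, q.2⟩,
      fun q => ⟨q.1.1, q.2⟩⟩
  · rw [← S.hU.edgB _ (hb h.1) h.2 x.mtA]
    have := ncard_up x (fun t => t ∈ U.F ∧ t.card = 3)
    rw [show {σ | σ ∈ U.K ∧ (σ ∈ U.F ∧ σ.card = 3) ∧ x.b ⊆ σ} =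
      {t | t ∈ U.F ∧ t.card = 3 ∧ x.b ⊆ t} from Set.ext fun ρ => ⟨fun q => ⟨q.2.1.1, q.2.1.2, q.2.2⟩,
        fun q => ⟨S.hU.FK q.1, ⟨q.1, q.2.1⟩, q.2.2⟩⟩] at this
    rw [← this]
    congr 1; ext y
    exact ⟨fun q => ⟨⟨hb q.1.1, q.1.2⟩, q.2⟩,
      fun q => ⟨⟨(hW x (hb h.1) y q.1.1 q.2).1 h.1, q.1.2⟩, q.2⟩⟩
  · rw [← edge_cnt y h.2]
    congr 1; ext x
    exact ⟨fun q => ⟨q.1.2, q.2⟩, fun q => ⟨⟨(hW x (S.hU.cxF.down _ (hb h.1) _ q.2.1
      (S.hU.cxK.ne _ x.K)) y (hb h.1) q.2).2 h.1, q.1⟩, q.2⟩⟩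

theorem P.pF {x : S.P} : x.b ∈ U.F ↔ x.b.image S.d.p ∈ B.F := S.d.bd _ x.K x.mtE

theorem P.pA (x : S.P) : Mt B.A (x.b.image S.d.p) := by
  obtain ⟨a, h, e⟩ := x.mtE
  exact ⟨_, mem_image_of_mem _ h, S.d.pE a e⟩

variable (S) in
/-- the cut surface -/
noncomputable def cut : Cut S.P G where
  le := le
  H := {x | S.Cr x.b}
  bd := {x | x.b ∈ U.F}
  lo := {x | x.b.card = 3}
  act := act
  lab := P.l
  g x y := B.g (x.b.image S.d.p) (y.b.image S.d.p)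
  refl := le_refl
  trans _ _ _ := le_trans
  up _ c _ e := Cr.mono c e.1
  act_zero x := by
    by_cases c : S.Cr x.b
    · exact P.ext (by rw [act_b _ c]; rfl) (by rw [act_l _ c]; exact add_zero _)
    · exact dif_neg c
  act_add u v x c := P.ext (by rw [act_b _ c, act_b _ (act_cr _ c), act_b _ c]; exact tb_add _ _ _)
    (by rw [act_l _ c, act_l _ (act_cr _ c), act_l _ c, Prod.fst_add]; ring)
  actH u _ c := act_cr u c
  act_mono u x c y e := (le_cr (act_cr u c)).2 ⟨by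
    rw [act_b _ c, act_b _ (Cr.mono c e.1)]; exact tb_mono _ e.1, by
    rw [act_l _ c, act_l _ (Cr.mono c e.1), ((le_cr c).1 e).2]⟩
  sep u hu y c x a b := by
    by_cases q : u.2 = 0
    · have e : (act u y).b = y.b := by rw [act_b _ c, tb, if_pos q]
      have := b.2 (act_cr u c)
      rw [e, a.2 c, act_l _ c] at this
      exact hu (Prod.ext (by simpa using this) q)
    · have := b.1
      rw [act_b _ c, tb, if_neg q] at this
      exact not_sub_t y.K x.mtE a.1 this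
  act_bd u x c f := P.pF.2 (by rw [act_b _ c, tb_p]; exact P.pF.1 f)
  lab_le x c y e := ((le_cr c).1 e).2
  lab_act u x c := act_l u c
  two := two
  stokes := stokes
  parity := parity
  g_act u y c x := by rw [act_b _ c, tb_p]
  g_self x f := S.hB.coc.self ⟨P.pF.1 f, x.pA⟩ subset_rfl

theorem ls_fl {x y : S.P} : S.cut.ls (fun _ => fl) x y ↔ x.b ⊆ y.b := by
  have e : ∀ y : S.P, S.Cr y.b → (act fl y).b = y.b := fun y c => act_b fl c
  refine ⟨fun h => h.elim (fun h => h.1) fun h => e y h.1 ▸ h.2.1, fun h => ?_⟩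
  by_cases q : S.Cr y.b → side y.b x = y.l
  · exact Or.inl ⟨h, q⟩
  · push Not at q
    refine Or.inr ⟨q.1, (e y q.1).symm ▸ h, fun _ => ?_⟩
    change side (act fl y).b x = (act fl y).l
    rw [e y q.1, act_l _ q.1]
    have := q.2
    revert this; generalize side y.b x = a; generalize y.l = b; revert a b; decide

theorem good_init : S.cut.Good (fun _ => fl) Set.univ := by
  have rf : ∀ {Y : Set (Finset U.V)}, ∀ y ∈ Y, sub y y := fun _ _ => subset_rfl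
  have tr : ∀ {Y : Set (Finset U.V)}, ∀ x ∈ Y, ∀ y ∈ Y, ∀ z ∈ Y, sub x y → sub y z → sub x z :=
    fun _ _ _ _ _ _ a b => a.trans b
  have mm : ∀ {Y : Set S.P}, ∀ x ∈ Y, ∀ y ∈ Y, S.cut.ls (fun _ => fl) x y → sub x.b y.b :=
    fun _ _ _ _ e => ls_fl.1 e
  have fb : ∀ (Y : Set S.P) (σ : Finset U.V) (h : σ ∈ Sf U.K S.w),
      (⟨(σ, 0), h, fun _ => rfl⟩ : S.P) ∈ Y → Ac (S.cut.ls fun _ => fl) (Fb sub Y P.b σ) :=
    fun Y σ h m => Ac.of_top (m := ⟨(σ, 0), h, fun _ => rfl⟩) ⟨m, subset_rfl⟩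
      fun x hx => ls_fl.2 hx.2
  have a := Ac.quillen (W := Set.univ) (Y := Sf U.K S.w) (f := P.b) rf tr (fun x _ => ⟨x.K, x.mx⟩) mm
    (fun σ h => fb _ σ h trivial) ⟨S.disc.conn, S.disc.h0⟩
  have mp : ∀ x ∈ Set.univ ∩ S.cut.bd, x.b ∈ Sf U.F S.w := fun x h => ⟨h.2, x.mx⟩
  have fB : ∀ σ ∈ Sf U.F S.w, Conn (S.cut.ls fun _ => fl) (Fb sub (Set.univ ∩ S.cut.bd) P.b σ) :=
    fun σ h => (fb (Set.univ ∩ S.cut.bd) σ ⟨S.hU.FK h.1, h.2⟩ ⟨trivial, h.1⟩).1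
  refine ⟨⟨fun _ _ => fl_ne, fun _ _ _ _ => rfl, fun _ _ _ => rfl⟩, fun _ _ _ => Iff.rfl, a.1, a.2,
    Conn.quillen rf tr mp fB S.disc.connB, fun q => S.disc.ess (Cob.quillen tr mp mm fB
      (S.hU.coc.mono (fun σ m => ⟨m.1, S.disc.mt (S.hU.FK m.1) m.2⟩) fun _ _ _ _ e => e)
      (q.congr fun x hx y hy e => (S.d.geq _ hx.2 _ hy.2 x.mtE (ls_fl.1 e)).symm))⟩

end S2

end Crest.Agent.X212.Dsc37
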