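import Crest.Agent.X212.Dsc37.Defs

/-!
# Toolkit: cocycles on preorders, retractions, Quillen fibre lemmas, chains
-/

namespace Crest.Agent.X212.Dsc37

section Rel
variable {α β G : Type*} [AddGroup G] {r : α → α → Prop} {s : β → β → Prop} {W : Set α}
  {Y : Set β}

/-- connected with `H^1(·; Z/2) = 0` -/
def Ac (r : α → α → Prop) (W : Set α) : Prop := Conn r W ∧ H0 r W

theorem Coc.self {c : α → α → G} (h : Coc r W c) {x : α} (hx : x ∈ W) (hr : r x x) :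
    c x x = 0 := by
  have := h x hx x hx x hx hr hr
  simpa using this

theorem Coc.mono {c : α → α → G} (h : Coc r W c) {r' : α → α → Prop} {W' : Set α}
    (hW : W' ⊆ W) (hr : ∀ x ∈ W', ∀ y ∈ W', r' x y → r x y) : Coc r' W' c :=
  fun x hx y hy z hz a b => h x (hW hx) y (hW hy) z (hW hz) (hr x hx y hy a) (hr y hy z hz b)

theorem Cob.mono {c : α → α → G} (h : Cob r W c) {r' : α → α → Prop} {W' : Set α}
    (hW : W' ⊆ W) (hr : ∀ x ∈ W', ∀ y ∈ W', r' x y → r x y) : Cob r' W' c := by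
  obtain ⟨l, hl⟩ := h
  exact ⟨l, fun x hx y hy a => hl x (hW hx) y (hW hy) (hr x hx y hy a)⟩

theorem Cob.congr {c c' : α → α → G} (h : Cob r W c)
    (e : ∀ x ∈ W, ∀ y ∈ W, r x y → c x y = c' x y) : Cob r W c' := by
  obtain ⟨l, hl⟩ := h
  exact ⟨l, fun x hx y hy a => by rw [← e x hx y hy a]; exact hl x hx y hy a⟩

theorem Conn.const (h : Conn r W) {γ : Type*} (l : α → γ)
    (hl : ∀ x ∈ W, ∀ y ∈ W, r x y → l x = l y) {x y : α} (hx : x ∈ W) (hy : y ∈ W) :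
    l x = l y := by
  have := h.2 (fun z => l x = l z) (fun a ha b hb e => by simp only [hl a ha b hb e]) x hx y hy
  exact this.1 rfl

theorem Conn.of_const (hne : W.Nonempty)
    (h : ∀ l : α → ZMod 2, (∀ x ∈ W, ∀ y ∈ W, r x y → l x = l y) → ∀ x ∈ W, ∀ y ∈ W, l x = l y) :
    Conn r W := by
  classical
  refine ⟨hne, fun κ hκ x hx y hy => ?_⟩
  have := h (fun z => if κ z then 1 else 0)
    (fun a ha b hb e => by simp only [hκ a ha b hb e]) x hx y hy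
  by_cases a : κ x <;> by_cases b : κ y <;> simp_all

theorem Conn.mono_rel (h : Conn r W) {r' : α → α → Prop}
    (hr : ∀ x ∈ W, ∀ y ∈ W, r x y → r' x y) : Conn r' W :=
  ⟨h.1, fun κ hκ => h.2 κ fun x hx y hy a => hκ x hx y hy (hr x hx y hy a)⟩

/-- two potentials differ by a constant on the left -/
theorem Conn.uniq (h : Conn r W) {c : α → α → G} {l l' : α → G}
    (hl : ∀ x ∈ W, ∀ y ∈ W, r x y → l y = l x + c x y)
    (hl' : ∀ x ∈ W, ∀ y ∈ W, r x y → l' y = l' x + c x y) {x y : α} (hx : x ∈ W) (hy : y ∈ W) :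
    l' y = (l' x - l x) + l y := by
  have := h.const (fun z => l' z - l z) (fun a ha b hb e => by
    rw [hl a ha b hb e, hl' a ha b hb e]; simp [sub_eq_add_neg, add_assoc]) hx hy
  rw [this]; simp

theorem Coc.comp {c : β → β → G} (h : Coc s Y c) {f : α → β} (hf : ∀ x ∈ W, f x ∈ Y)
    (hm : ∀ x ∈ W, ∀ y ∈ W, r x y → s (f x) (f y)) : Coc r W fun x y => c (f x) (f y) :=
  fun x hx y hy z hz a b =>
    h _ (hf x hx) _ (hf y hy) _ (hf z hz) (hm x hx y hy a) (hm y hy z hz b)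

theorem Cob.comp {c : β → β → G} (h : Cob s Y c) {f : α → β} (hf : ∀ x ∈ W, f x ∈ Y)
    (hm : ∀ x ∈ W, ∀ y ∈ W, r x y → s (f x) (f y)) : Cob r W fun x y => c (f x) (f y) := by
  obtain ⟨l, hl⟩ := h
  exact ⟨fun x => l (f x), fun x hx y hy a => hl _ (hf x hx) _ (hf y hy) (hm x hx y hy a)⟩

theorem Ac.of_top {m : α} (hm : m ∈ W) (h : ∀ x ∈ W, r x m) : Ac r W := by
  refine ⟨⟨⟨m, hm⟩, fun κ hκ x hx y hy =>
    (hκ x hx m hm (h x hx)).trans (hκ y hy m hm (h y hy)).symm⟩, fun c hc => ?_⟩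
  refine ⟨fun x => -c x m, fun x hx y hy a => ?_⟩
  simp only [hc x hx y hy m hm a (h y hy)]; ring

theorem Ac.of_bot {m : α} (hm : m ∈ W) (h : ∀ x ∈ W, r m x) : Ac r W := by
  refine ⟨⟨⟨m, hm⟩, fun κ hκ x hx y hy =>
    (hκ m hm x hx (h x hx)).symm.trans (hκ m hm y hy (h y hy))⟩, fun c hc => ?_⟩
  exact ⟨fun x => c m x, fun x hx y hy a => hc m hm x hx y hy (h x hx) a⟩

/-- retraction upwards -/
theorem Ac.up (h : Ac s Y) (i : β → α) (ρ : α → β) (hi : ∀ y ∈ Y, i y ∈ W)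
    (him : ∀ x ∈ Y, ∀ y ∈ Y, s x y → r (i x) (i y)) (hρ : ∀ x ∈ W, ρ x ∈ Y)
    (hρm : ∀ x ∈ W, ∀ y ∈ W, r x y → s (ρ x) (ρ y)) (hle : ∀ x ∈ W, r x (i (ρ x))) :
    Ac r W := by
  obtain ⟨⟨⟨y0, hy0⟩, hc⟩, h0⟩ := h
  refine ⟨⟨⟨i y0, hi _ hy0⟩, fun κ hκ x hx y hy => ?_⟩, fun c hc => ?_⟩
  · have := hc (fun z => κ (i z)) (fun a ha b hb e => hκ _ (hi a ha) _ (hi b hb) (him a ha b hb e))
      _ (hρ x hx) _ (hρ y hy)
    exact (hκ x hx _ (hi _ (hρ x hx)) (hle x hx)).trans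
      (this.trans (hκ y hy _ (hi _ (hρ y hy)) (hle y hy)).symm)
  · obtain ⟨l, hl⟩ := h0 _ (hc.comp hi him)
    refine ⟨fun x => l (ρ x) - c x (i (ρ x)), fun x hx y hy a => ?_⟩
    have e1 := hc x hx y hy _ (hi _ (hρ y hy)) a (hle y hy)
    have e2 := hc x hx _ (hi _ (hρ x hx)) _ (hi _ (hρ y hy)) (hle x hx)
      (him _ (hρ x hx) _ (hρ y hy) (hρm x hx y hy a))
    have e3 := hl _ (hρ x hx) _ (hρ y hy) (hρm x hx y hy a)
    simp only at e3 ⊢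
    linear_combination e3 + e1 - e2

/-- retraction downwards -/
theorem Ac.down (h : Ac s Y) (i : β → α) (ρ : α → β) (hi : ∀ y ∈ Y, i y ∈ W)
    (him : ∀ x ∈ Y, ∀ y ∈ Y, s x y → r (i x) (i y)) (hρ : ∀ x ∈ W, ρ x ∈ Y)
    (hρm : ∀ x ∈ W, ∀ y ∈ W, r x y → s (ρ x) (ρ y)) (hle : ∀ x ∈ W, r (i (ρ x)) x) :
    Ac r W := by
  obtain ⟨⟨⟨y0, hy0⟩, hc⟩, h0⟩ := h
  refine ⟨⟨⟨i y0, hi _ hy0⟩, fun κ hκ x hx y hy => ?_⟩, fun c hc => ?_⟩
  · have := hc (fun z => κ (i z)) (fun a ha b hb e => hκ _ (hi a ha) _ (hi b hb) (him a ha b hb e))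
      _ (hρ x hx) _ (hρ y hy)
    exact (hκ _ (hi _ (hρ x hx)) x hx (hle x hx)).symm.trans
      (this.trans (hκ _ (hi _ (hρ y hy)) y hy (hle y hy)))
  · obtain ⟨l, hl⟩ := h0 _ (hc.comp hi him)
    refine ⟨fun x => l (ρ x) + c (i (ρ x)) x, fun x hx y hy a => ?_⟩
    have e1 := hc _ (hi _ (hρ x hx)) x hx y hy (hle x hx) a
    have e2 := hc _ (hi _ (hρ x hx)) _ (hi _ (hρ y hy)) y hy
      (him _ (hρ x hx) _ (hρ y hy) (hρm x hx y hy a)) (hle y hy)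
    have e3 := hl _ (hρ x hx) _ (hρ y hy) (hρm x hx y hy a)
    simp only at e3 ⊢
    linear_combination e3 + e1 - e2

/-- the fibre of `f` below `y` -/
def Fb (s : β → β → Prop) (W : Set α) (f : α → β) (y : β) : Set α := {x | x ∈ W ∧ s (f x) y}

section Quillen
variable {f : α → β} (hs : ∀ y ∈ Y, s y y)
  (ht : ∀ x ∈ Y, ∀ y ∈ Y, ∀ z ∈ Y, s x y → s y z → s x z) (hf : ∀ x ∈ W, f x ∈ Y)
  (hm : ∀ x ∈ W, ∀ y ∈ W, r x y → s (f x) (f y))
include hs ht hf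

theorem Conn.quillen (hF : ∀ y ∈ Y, Conn r (Fb s W f y)) (h : Conn s Y) : Conn r W := by
  obtain ⟨⟨y0, hy0⟩, hc⟩ := h
  obtain ⟨x0, hx0⟩ := (hF y0 hy0).1
  refine ⟨⟨x0, hx0.1⟩, fun κ hκ x hx y hy => ?_⟩
  have k1 : ∀ y ∈ Y, ∀ a ∈ Fb s W f y, ∀ b ∈ Fb s W f y, (κ a ↔ κ b) := fun y hy =>
    (hF y hy).2 κ fun a ha b hb e => hκ a ha.1 b hb.1 e
  have k2 : ∀ y ∈ Y, ∀ a ∈ Fb s W f y, (κ a ↔ ∃ b ∈ Fb s W f y, κ b) := fun y hy a ha =>
    ⟨fun e => ⟨a, ha, e⟩, fun ⟨b, hb, e⟩ => (k1 y hy a ha b hb).2 e⟩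
  have := hc (fun y => ∃ b ∈ Fb s W f y, κ b) (fun a ha b hb e => by
    obtain ⟨z, hz⟩ := (hF a ha).1
    exact (k2 a ha z hz).symm.trans (k2 b hb z ⟨hz.1, ht _ (hf z hz.1) a ha b hb hz.2 e⟩))
    _ (hf x hx) _ (hf y hy)
  exact (k2 _ (hf x hx) x ⟨hx, hs _ (hf x hx)⟩).trans
    (this.trans (k2 _ (hf y hy) y ⟨hy, hs _ (hf y hy)⟩).symm)

include hm

theorem H0.quillen (hF : ∀ y ∈ Y, Ac r (Fb s W f y)) (h : H0 s Y) : H0 r W := by
  classical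
  intro c hc
  have k1 : ∀ y, ∃ l : α → ZMod 2, y ∈ Y → ∀ a ∈ Fb s W f y, ∀ b ∈ Fb s W f y, r a b →
      l b = l a + c a b := by
    intro y
    by_cases hy : y ∈ Y
    · obtain ⟨l, hl⟩ := (hF y hy).2 c (hc.mono (fun a ha => ha.1) fun _ _ _ _ e => e)
      exact ⟨l, fun _ => hl⟩
    · exact ⟨0, fun e => (hy e).elim⟩
  choose l hl using k1
  have hsub : ∀ a ∈ Y, ∀ b ∈ Y, s a b → Fb s W f a ⊆ Fb s W f b := fun a ha b hb e z hz =>
    ⟨hz.1, ht _ (hf z hz.1) a ha b hb hz.2 e⟩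
  have k2 : ∀ a b, ∃ d : ZMod 2, a ∈ Y → b ∈ Y → s a b → ∀ z ∈ Fb s W f a, l b z = d + l a z := by
    intro a b
    by_cases e : a ∈ Y ∧ b ∈ Y ∧ s a b
    · obtain ⟨ha, hb, e⟩ := e
      obtain ⟨z0, hz0⟩ := (hF a ha).1.1
      exact ⟨l b z0 - l a z0, fun _ _ _ z hz => (hF a ha).1.uniq (hl a ha)
        (fun x hx y hy => hl b hb x (hsub a ha b hb e hx) y (hsub a ha b hb e hy)) hz0 hz⟩
    · exact ⟨0, fun a b c => (e ⟨a, b, c⟩).elim⟩
  choose d hd using k2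
  have hdc : Coc s Y d := by
    intro a ha b hb e he h1 h2
    obtain ⟨z, hz⟩ := (hF a ha).1.1
    have e1 := hd a b ha hb h1 z hz
    have e2 := hd b e hb he h2 z (hsub a ha b hb h1 hz)
    have e3 := hd a e ha he (ht a ha b hb e he h1 h2) z hz
    linear_combination e2 + e1 - e3
  obtain ⟨m, hm'⟩ := h d hdc
  refine ⟨fun x => l (f x) x - m (f x), fun x hx y hy a => ?_⟩
  have b := hm x hx y hy a
  have e1 := hm' _ (hf x hx) _ (hf y hy) b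
  have e2 := hd _ _ (hf x hx) (hf y hy) b x ⟨hx, hs _ (hf x hx)⟩
  have e3 := hl _ (hf y hy) x ⟨hx, b⟩ y ⟨hy, hs _ (hf y hy)⟩ a
  simp only
  linear_combination e3 + e2 - e1

omit hs in
theorem Cob.quillen (hF : ∀ y ∈ Y, Conn r (Fb s W f y)) {g : β → β → G} (hg : Coc s Y g)
    (h : Cob r W fun a b => g (f a) (f b)) : Cob s Y g := by
  classical
  obtain ⟨l, hl⟩ := h
  have k1 : ∀ y, ∃ v : G, y ∈ Y → ∀ a ∈ Fb s W f y, v = l a + g (f a) y := by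
    intro y
    by_cases hy : y ∈ Y
    · obtain ⟨z, hz⟩ := (hF y hy).1
      refine ⟨l z + g (f z) y, fun _ a ha => ?_⟩
      refine (hF y hy).const (fun a => l a + g (f a) y) (fun a ha b hb e => ?_) hz ha
      simp only [hl a ha.1 b hb.1 e,
        hg _ (hf a ha.1) _ (hf b hb.1) y hy (hm a ha.1 b hb.1 e) hb.2, add_assoc]
    · exact ⟨0, fun e => (hy e).elim⟩
  choose v hv using k1
  refine ⟨v, fun a ha b hb e => ?_⟩
  obtain ⟨z, hz⟩ := (hF a ha).1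
  rw [hv a ha z hz, hv b hb z ⟨hz.1, ht _ (hf z hz.1) a ha b hb hz.2 e⟩,
    hg _ (hf z hz.1) a ha b hb hz.2 e, add_assoc]

theorem Ac.quillen (hF : ∀ y ∈ Y, Ac r (Fb s W f y)) (h : Ac s Y) : Ac r W :=
  ⟨Conn.quillen hs ht hf (fun y hy => (hF y hy).1) h.1, H0.quillen hs ht hf hm hF h.2⟩

end Quillen

end Rel

section Chains
variable {V : Type*} [DecidableEq V]

theorem mem_top {r : Finset (Finset V)} {x : V} : x ∈ top r ↔ ∃ σ ∈ r, x ∈ σ := by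
  simp [top]

theorem sub_top {r : Finset (Finset V)} {σ : Finset V} (h : σ ∈ r) : σ ⊆ top r :=
  fun _ hx => mem_top.2 ⟨σ, h, hx⟩

theorem top_sub {r : Finset (Finset V)} {ρ : Finset V} (h : ∀ σ ∈ r, σ ⊆ ρ) : top r ⊆ ρ :=
  fun _ hx => by obtain ⟨σ, a, b⟩ := mem_top.1 hx; exact h σ a b

theorem top_mono {r r' : Finset (Finset V)} (h : r ⊆ r') : top r ⊆ top r' :=
  top_sub fun _ a => sub_top (h a)

theorem top_mem {Q : Set (Finset V)} {r : Finset (Finset V)} (h : r ∈ sd Q) : top r ∈ r := by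
  obtain ⟨m, hm, hmax⟩ := Finset.exists_max_image r Finset.card h.1
  have : ∀ σ ∈ r, σ ⊆ m := fun σ hσ => (h.2.2 σ hσ m hm).elim id fun e =>
    (Finset.eq_of_subset_of_card_le e (hmax σ hσ)).symm.subset
  have e : top r = m := (top_sub this).antisymm (sub_top hm)
  rwa [e]

theorem top_mem' {Q : Set (Finset V)} {r : Finset (Finset V)} (h : r ∈ sd Q) : top r ∈ Q :=
  h.2.1 _ (top_mem h)

theorem top_singleton (σ : Finset V) : top {σ} = σ := by simp [top]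

omit [DecidableEq V] in
theorem single_mem_sd {Q : Set (Finset V)} {σ : Finset V} : {σ} ∈ sd Q ↔ σ ∈ Q := by
  simp [sd]

theorem insert_mem_sd {Q : Set (Finset V)} {σ : Finset V} (hσ : σ ∈ Q) {r : Finset (Finset V)}
    (h1 : ∀ ρ ∈ r, ρ ∈ Q) (h2 : ∀ a ∈ r, ∀ b ∈ r, a ⊆ b ∨ b ⊆ a) (h3 : ∀ ρ ∈ r, ρ ⊆ σ) :
    insert σ r ∈ sd Q := by
  refine ⟨Finset.insert_nonempty _ _, fun a ha => ?_, fun a ha b hb => ?_⟩
  · rcases Finset.mem_insert.1 ha with rfl | ha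
    exacts [hσ, h1 a ha]
  · rcases Finset.mem_insert.1 ha with e | ha' <;> rcases Finset.mem_insert.1 hb with e' | hb'
    · rw [e, e']; exact Or.inl subset_rfl
    · rw [e]; exact Or.inr (h3 b hb')
    · rw [e']; exact Or.inl (h3 a ha')
    · exact h2 a ha' b hb'

omit [DecidableEq V] in
theorem sub_mem_sd {Q : Set (Finset V)} {r r' : Finset (Finset V)} (h : r ∈ sd Q) (e : r' ⊆ r)
    (hne : r'.Nonempty) : r' ∈ sd Q :=
  ⟨hne, fun a ha => h.2.1 a (e ha), fun a ha b hb => h.2.2 a (e ha) b (e hb)⟩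

omit [DecidableEq V] in
theorem cx_sd (Q : Set (Finset V)) : Cx (sd Q) :=
  ⟨fun _ h => h.1, fun _ h _ e hne => sub_mem_sd h e hne⟩

theorem ac_fb_top {Q : Set (Finset V)} {y : Finset V} (hy : y ∈ Q) :
    Ac sub (Fb sub (sd Q) top y) := by
  have h1 : Ac sub {r | r ∈ Fb sub (sd Q) top y ∧ y ∈ r} :=
    Ac.of_bot (m := {y}) ⟨⟨single_mem_sd.2 hy, by simp [top_singleton]⟩, by simp⟩
      fun r hr => by simpa using hr.2
  refine h1.up id (insert y) (fun r hr => hr.1) (fun _ _ _ _ e => e) (fun r hr => ?_)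
    (fun a _ b _ e => Finset.insert_subset_insert _ e) fun r _ => Finset.subset_insert _ _
  have h3 : ∀ ρ ∈ r, ρ ⊆ y := fun ρ e => (sub_top e).trans hr.2
  refine ⟨⟨insert_mem_sd hy hr.1.2.1 hr.1.2.2 h3, top_sub fun ρ e => ?_⟩, by simp⟩
  rcases Finset.mem_insert.1 e with rfl | e
  exacts [subset_rfl, h3 ρ e]

theorem Ac.sd {Q : Set (Finset V)} (h : Ac sub Q) : Ac sub (sd Q) :=
  Ac.quillen (f := top) (fun _ _ => subset_rfl) (fun _ _ _ _ _ _ a b => a.trans b)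
    (fun _ h => top_mem' h) (fun _ _ _ _ e => top_mono e) (fun _ hy => ac_fb_top hy) h

/-- chains of `R` that meet both `Q` and its complement -/
def MxCh (R Q : Set (Finset V)) : Set (Finset (Finset V)) :=
  {r | r ∈ Dsc37.sd R ∧ (∃ ρ ∈ r, ρ ∈ Q) ∧ ∃ ρ ∈ r, ρ ∉ Q}

theorem ac_mxCh {R Q : Set (Finset V)} {σ : Finset V} (hσ : σ ∈ R) (htop : ∀ ρ ∈ R, ρ ⊆ σ)
    (hQ : Q ⊆ R) (hσQ : σ ∉ Q) (h : Ac sub Q) : Ac sub (MxCh R Q) := by
  classical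
  have h1 : Ac sub {r | r ∈ MxCh R Q ∧ σ ∈ r} := by
    refine h.sd.down (insert σ) (fun r => r.filter (· ∈ Q)) (fun q hq => ?_)
      (fun a _ b _ e => Finset.insert_subset_insert _ e) (fun r hr => ?_)
      (fun a _ b _ e => Finset.filter_subset_filter _ e) fun r hr => ?_
    · obtain ⟨ρ, hρ⟩ := hq.1
      exact ⟨⟨insert_mem_sd hσ (fun a ha => hQ (hq.2.1 a ha)) hq.2.2
        fun a ha => htop a (hQ (hq.2.1 a ha)),
        ⟨ρ, Finset.mem_insert_of_mem hρ, hq.2.1 ρ hρ⟩, σ, by simp, hσQ⟩, by simp⟩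
    · obtain ⟨ρ, a, b⟩ := hr.1.2.1
      exact ⟨⟨ρ, Finset.mem_filter.2 ⟨a, b⟩⟩, fun x hx => (Finset.mem_filter.1 hx).2,
        fun x hx y hy => hr.1.1.2.2 x (Finset.mem_filter.1 hx).1 y (Finset.mem_filter.1 hy).1⟩
    · exact Finset.insert_subset hr.2 (Finset.filter_subset _ _)
  refine h1.up id (insert σ) (fun r hr => hr.1) (fun _ _ _ _ e => e) (fun r hr => ?_)
    (fun a _ b _ e => Finset.insert_subset_insert _ e) fun r _ => Finset.subset_insert _ _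
  obtain ⟨ρ, a, b⟩ := hr.2.1
  exact ⟨⟨insert_mem_sd hσ hr.1.2.1 hr.1.2.2 fun a ha => htop a (hr.1.2.1 a ha),
    ⟨ρ, Finset.mem_insert_of_mem a, b⟩, σ, by simp, hσQ⟩, by simp⟩

end Chains

end Crest.Agent.X212.Dsc37
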