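import Crest.Agent.X212.Lad50.Sd
import Crest.Agent.X212.Dsc37.Tool

/-!
# First subdivision: coorientation, doubly marked edges become antiparallel
-/

namespace Crest.Agent.X212.Dsc37

/-- subdivision of a double cover (the proof of `Lad50.dcSubStmt`, remembering `τ`) -/
theorem dc_sub {G : Type} [AddGroup G] {U B : Dat G} (hU : U.OK) (hB : B.OK) (d : DC U B) :
    ∃ d' : DC U.sub1 B.sub1, d'.τ = Finset.image d.τ := by
  have pτ : ∀ σ : Finset U.V, (σ.image d.τ).image d.p = σ.image d.p := fun σ => by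
    rw [Finset.image_image]; exact Finset.image_congr fun x _ => d.pτ x
  refine ⟨⟨Finset.image d.p, Finset.image d.τ, {σ | σ ∈ U.K ∧ Mt d.E σ}, fun σ => ?_, pτ,
    fun σ ⟨h, a, ha, hE⟩ => ⟨d.τK σ h, d.τ a, Finset.mem_image_of_mem _ ha, d.τE a hE⟩,
    fun σ ⟨h, a, ha, hA⟩ => ⟨h, a, ha, d.AE hA⟩,
    fun σ ⟨h, a, ha, hE⟩ => ⟨d.pK σ h, d.p a, Finset.mem_image_of_mem _ ha, d.pE a hE⟩,
    fun r hr => Lad50.image_mem_sd d.pK hr, fun r hr => Lad50.image_mem_sd d.τK hr,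
    fun r hr σ hσ ρ hρ e => Lad50.eq_of_image_eq (d.inj _ (Lad50.top_memK hr)) (Lad50.sub_top hσ) (Lad50.sub_top hρ) e,
    fun (σ : Finset U.V) ⟨h, a, ha, hE⟩ e => d.free a hE ?_,
    fun (σ : Finset U.V) ⟨h, a, ha, hE⟩ (ρ : Finset U.V) hρ e => ?_,
    fun (σ : Finset U.V) ⟨h, a, ha, hE⟩ (s : Finset (Finset B.V)) hs hσ => ?_,
    fun (σ : Finset U.V) ⟨h, a, ha, hE⟩ (r : Finset (Finset U.V)) hr (r' : Finset (Finset U.V))
      hr' h1 h2 e => ?_,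
    fun (r : Finset (Finset U.V)) hr hm => ?_,
    fun (r : Finset (Finset U.V)) hr (s : Finset (Finset U.V)) hs hm hrs => ?_⟩, rfl⟩
  · exact (Finset.image_image (s := (σ : Finset U.V))).trans
      ((Finset.image_congr fun x _ => d.ττ x).trans Finset.image_id)
  · have h1 : d.τ a ∈ σ := by
      have := Finset.mem_image_of_mem d.τ ha
      rwa [show Finset.image d.τ σ = σ from e] at this
    exact d.inj σ h h1 ha (d.pτ a)
  · have hρK : ρ ∈ U.K := hρ.2.1 ρ (Finset.mem_singleton_self _)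
    have e' : ρ.image d.p = σ.image d.p := e
    obtain ⟨b, hb, eb⟩ := Finset.mem_image.1 (e' ▸ Finset.mem_image_of_mem d.p ha)
    rcases d.fib a hE b (hU.cxK.down ρ hρK _ (Finset.singleton_subset_iff.2 hb)
      (Finset.singleton_nonempty b)) eb with rfl | rfl
    · exact Or.inl (d.uniq b hE ρ hρK σ h hb ha e')
    · exact Or.inr (d.uniq _ (d.τE a hE) ρ hρK _ (d.τK σ h) hb (Finset.mem_image_of_mem _ ha)
        (e'.trans (pτ σ).symm))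
  · obtain ⟨T, hT, haT, eT⟩ := d.lift a hE _ (Lad50.top_memK hs)
      (Lad50.sub_top hσ (Finset.mem_image_of_mem _ ha))
    have k1 : ∀ β ∈ s, (T.filter fun x => d.p x ∈ β).image d.p = β := fun β hβ => by
      ext w
      simp only [Finset.mem_image, Finset.mem_filter]
      constructor
      · rintro ⟨x, ⟨-, h⟩, rfl⟩; exact h
      · intro hw
        obtain ⟨x, hx, rfl⟩ := Finset.mem_image.1 (eT ▸ Lad50.sub_top hβ hw)
        exact ⟨x, ⟨hx, hw⟩, rfl⟩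
    have k2 : ∀ β ∈ s, (T.filter fun x => d.p x ∈ β) ∈ U.K := fun β hβ =>
      hU.cxK.down T hT _ (Finset.filter_subset _ _) (by
        have := hB.cxK.ne β (hs.2.1 β hβ)
        rw [← k1 β hβ] at this
        exact this.of_image)
    refine ⟨s.image fun β => T.filter fun x => d.p x ∈ β, ⟨hs.1.image _, fun ρ hρ => ?_,
      fun ρ hρ ρ' hρ' => ?_⟩, Finset.mem_image.2 ⟨_, hσ, ?_⟩, ?_⟩
    · obtain ⟨β, hβ, rfl⟩ := Finset.mem_image.1 hρ
      exact k2 β hβ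
    · obtain ⟨β, hβ, rfl⟩ := Finset.mem_image.1 hρ
      obtain ⟨β', hβ', rfl⟩ := Finset.mem_image.1 hρ'
      exact (hs.2.2 β hβ β' hβ').imp (fun h => Finset.monotone_filter_right _ fun x _ hx => h hx)
        fun h => Finset.monotone_filter_right _ fun x _ hx => h hx
    · exact d.uniq a hE _ (k2 _ hσ) σ h
        (Finset.mem_filter.2 ⟨haT, Finset.mem_image_of_mem _ ha⟩) ha (k1 _ hσ)
    · exact (Finset.image_image (s := s)).trans
        ((Finset.image_congr fun β hβ => k1 β hβ).trans Finset.image_id)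
  · have e1 : top r = top r' := d.uniq a hE _ (Lad50.top_memK hr) _ (Lad50.top_memK hr') (Lad50.sub_top h1 ha)
      (Lad50.sub_top h2 ha) (by rw [← Lad50.top_image, ← Lad50.top_image]; exact congrArg top e)
    have key : ∀ {r r' : Finset (Finset U.V)}, r ∈ sd U.K → top r = top r' →
        r.image (Finset.image d.p) = r'.image (Finset.image d.p) → r ⊆ r' := by
      intro r r' hr e1 e ρ hρ
      obtain ⟨ρ', hρ', e2⟩ := Finset.mem_image.1 (e ▸ Finset.mem_image_of_mem _ hρ)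
      exact Lad50.eq_of_image_eq (d.inj _ (Lad50.top_memK hr)) (e1 ▸ Lad50.sub_top hρ') (Lad50.sub_top hρ) e2 ▸ hρ'
    exact Finset.Subset.antisymm (key hr e1 e) (key hr' e1.symm e.symm)
  · refine (Lad50.mem_sd_iff hU.cxK hU.cxF hr).trans (Iff.trans ?_
      (Lad50.mem_sd_iff hB.cxK hB.cxF (Lad50.image_mem_sd d.pK hr)).symm)
    rw [Lad50.top_image]
    exact d.bd _ (Lad50.top_memK hr) (Lad50.mt_top hm)
  · change U.g (top r) (top s) = B.g (top (r.image (Finset.image d.p)))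
      (top (s.image (Finset.image d.p)))
    rw [Lad50.top_image, Lad50.top_image]
    exact d.geq _ (Lad50.top_memK hr) _ (Lad50.top_memK hs) (Lad50.mt_top hm) (Lad50.top_mono hrs)


section
variable {V : Type*} [DecidableEq V] {K : Set (Finset V)} {w : V → V → ZMod 2} {o : V → V → Prop}

/-- a coorientation of `w`: `o x y` means that `x` is below and `y` above the surface -/
structure Ori (K : Set (Finset V)) (w : V → V → ZMod 2) (o : V → V → Prop) : Prop where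
  iff : ∀ σ ∈ K, ∀ x ∈ σ, ∀ y ∈ σ, (w x y ≠ 0 ↔ o x y ∨ o y x)
  tri : ∀ σ ∈ K, ∀ x ∈ σ, ∀ y ∈ σ, ∀ z ∈ σ, o x y → o x z ∨ o z y
  asy : ∀ σ ∈ K, ∀ x ∈ σ, ∀ y ∈ σ, ∀ z ∈ σ, o x y → ¬ o y z

/-- `x` is a low vertex of `σ` -/
def Lw (o : V → V → Prop) (σ : Finset V) (x : V) : Prop := ∃ y ∈ σ, o x y

omit [DecidableEq V] in
theorem Mx.mono {σ ρ : Finset V} (h : Mx w σ) (e : σ ⊆ ρ) : Mx w ρ := by
  obtain ⟨x, a, y, b, c⟩ := h; exact ⟨x, e a, y, e b, c⟩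

omit [DecidableEq V] in
theorem Mt.mono {A : Set V} {σ ρ : Finset V} (h : Mt A σ) (e : σ ⊆ ρ) : Mt A ρ := by
  obtain ⟨x, a, b⟩ := h; exact ⟨x, e a, b⟩

theorem exists_ori (hK : Cx K)
    (ec : ∀ σ ∈ K, ∀ x ∈ σ, ∀ y ∈ σ, ∀ z ∈ σ, w x z = w x y + w y z) (hne : (Sf K w).Nonempty)
    (h0 : H0 sub (Sf K w)) : ∃ o, Ori K w o := by
  obtain ⟨σ0, -, x0, -⟩ := hne
  have : ∀ σ : Finset V, ∃ b, σ ∈ K → b ∈ σ := fun σ => by
    by_cases h : σ ∈ K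
    · obtain ⟨b, hb⟩ := hK.ne σ h; exact ⟨b, fun _ => hb⟩
    · exact ⟨x0, fun e => (h e).elim⟩
  choose b hb using this
  obtain ⟨l, hl⟩ := h0 (fun σ ρ => w (b σ) (b ρ)) fun x hx y hy z hz p q =>
    ec z hz.1 _ (q (p (hb x hx.1))) _ (q (hb y hy.1)) _ (hb z hz.1)
  let u : Finset V → V → ZMod 2 := fun σ x => l σ + w (b σ) x
  have k1 : ∀ σ ∈ K, ∀ x ∈ σ, ∀ y ∈ σ, w x y = u σ y - u σ x := fun σ h x hx y hy => by
    simp only [u, ec σ h _ (hb σ h) x hx y hy]; ring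
  have key : ∀ σ ∈ K, ∀ x ∈ σ, ∀ y ∈ σ,
      ((w x y ≠ 0 ∧ u {x, y} x = 0) ↔ u σ x = 0 ∧ u σ y = 1) := by
    intro σ h x hx y hy
    have s : ({x, y} : Finset V) ⊆ σ := Finset.insert_subset hx (Finset.singleton_subset_iff.2 hy)
    have m := hK.down σ h _ s (Finset.insert_nonempty _ _)
    have e : w x y ≠ 0 → u {x, y} x = u σ x := fun q => by
      have q' : Mx w {x, y} := ⟨x, by simp, y, by simp, q⟩
      simp only [u, hl _ ⟨m, q'⟩ σ ⟨h, q'.mono s⟩ s,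
        ec σ h _ (s (hb _ m)) _ (hb σ h) x hx, add_assoc]
    rw [and_congr_right fun q => by rw [e q], k1 σ h x hx y hy]
    generalize u σ x = a; generalize u σ y = c; revert a c; decide
  refine ⟨fun x y => w x y ≠ 0 ∧ u {x, y} x = 0, fun σ h x hx y hy => ?_,
    fun σ h x hx y hy z hz => ?_, fun σ h x hx y hy z hz => ?_⟩
  · rw [key σ h x hx y hy, key σ h y hy x hx, k1 σ h x hx y hy]
    generalize u σ x = a; generalize u σ y = c; revert a c; decide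
  · rw [key σ h x hx y hy, key σ h x hx z hz, key σ h z hz y hy]
    generalize u σ x = a; generalize u σ y = c; generalize u σ z = d; revert a c d; decide
  · rw [key σ h x hx y hy, key σ h y hy z hz]
    generalize u σ x = a; generalize u σ y = c; generalize u σ z = d; revert a c d; decide

namespace Ori
omit [DecidableEq V]
variable (h : Ori K w o) {σ ρ : Finset V} (hσ : σ ∈ K)
include h hσ

theorem lw_iff {x y : V} (hx : x ∈ σ) (hy : y ∈ σ) : o x y ↔ Lw o σ x ∧ ¬ Lw o σ y :=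
  ⟨fun e => ⟨⟨y, hy, e⟩, fun ⟨z, hz, q⟩ => h.asy σ hσ x hx y hy z hz e q⟩,
    fun ⟨⟨z, hz, q⟩, n⟩ => (h.tri σ hσ x hx z hz y hy q).resolve_right fun e => n ⟨z, hz, e⟩⟩

theorem mx_iff (e : ρ ⊆ σ) : Mx w ρ ↔ (∃ x ∈ ρ, Lw o σ x) ∧ ∃ y ∈ ρ, ¬ Lw o σ y := by
  constructor
  · rintro ⟨x, hx, y, hy, q⟩
    rcases (h.iff σ hσ x (e hx) y (e hy)).1 q with q | q
    · have := (h.lw_iff hσ (e hx) (e hy)).1 q
      exact ⟨⟨x, hx, this.1⟩, y, hy, this.2⟩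
    · have := (h.lw_iff hσ (e hy) (e hx)).1 q
      exact ⟨⟨y, hy, this.1⟩, x, hx, this.2⟩
  · rintro ⟨⟨x, hx, a⟩, y, hy, b⟩
    exact ⟨x, hx, y, hy, (h.iff σ hσ x (e hx) y (e hy)).2
      (Or.inl ((h.lw_iff hσ (e hx) (e hy)).2 ⟨a, b⟩))⟩

theorem lw_sub (e : ρ ⊆ σ) (m : Mx w ρ) {x : V} (hx : x ∈ ρ) : Lw o ρ x ↔ Lw o σ x := by
  obtain ⟨-, y, hy, b⟩ := (h.mx_iff hσ e).1 m
  exact ⟨fun ⟨z, hz, q⟩ => ⟨z, e hz, q⟩,
    fun a => ⟨y, hy, (h.lw_iff hσ (e hx) (e hy)).2 ⟨a, b⟩⟩⟩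

end Ori

theorem ac_faces {Q : Set (Finset V)} {W : Finset V} (hW : W.Nonempty)
    (h1 : ∀ ρ ∈ Q, (ρ ∩ W).Nonempty) (h2 : ∀ ρ ⊆ W, ρ.Nonempty → ρ ∈ Q) : Ac sub Q :=
  (Ac.of_top (r := sub) (W := {ρ | ρ ⊆ W ∧ ρ.Nonempty}) (m := W) ⟨subset_rfl, hW⟩
    fun _ h => h.1).down id (· ∩ W) (fun ρ h => h2 ρ h.1 h.2) (fun _ _ _ _ e => e)
    (fun ρ h => ⟨Finset.inter_subset_right, h1 ρ h⟩)
    (fun _ _ _ _ e => Finset.inter_subset_inter_right e) fun _ _ => Finset.inter_subset_left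

/-- the non-empty faces of `σ` -/
def fcs (σ : Finset V) : Set (Finset V) := {ρ | ρ.Nonempty ∧ ρ ⊆ σ}

omit [DecidableEq V] in
theorem MxCh_congr {R Q Q' : Set (Finset V)}
    (h : (∀ ρ ∈ R, (ρ ∈ Q ↔ ρ ∈ Q')) ∨ ∀ ρ ∈ R, (ρ ∈ Q ↔ ρ ∉ Q')) : MxCh R Q = MxCh R Q' := by
  ext r
  refine and_congr_right fun hr => ?_
  rcases h with h | h
  · exact and_congr (exists_congr fun ρ => and_congr_right fun a => h ρ (hr.2.1 ρ a))
      (exists_congr fun ρ => and_congr_right fun a => not_congr (h ρ (hr.2.1 ρ a)))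
  · rw [and_comm]
    exact and_congr (exists_congr fun ρ => and_congr_right fun a => by
      rw [h ρ (hr.2.1 ρ a), not_not]) (exists_congr fun ρ => and_congr_right fun a =>
        h ρ (hr.2.1 ρ a))

theorem mem_sd_fcs {L : Set (Finset V)} (hL : Cx L) {σ : Finset V} (hσ : σ ∈ L)
    {r : Finset (Finset V)} : r ∈ sd (fcs σ) ↔ r ∈ sd L ∧ top r ⊆ σ :=
  ⟨fun h => ⟨⟨h.1, fun ρ a => hL.down σ hσ ρ (h.2.1 ρ a).2 (h.2.1 ρ a).1, h.2.2⟩,
    top_sub fun ρ a => (h.2.1 ρ a).2⟩,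
    fun h => ⟨h.1.1, fun ρ a => ⟨hL.ne ρ (h.1.2.1 ρ a), (sub_top a).trans h.2⟩, h.1.2.2⟩⟩

/-- colour of the barycentre of `ρ` inside `σ` -/
def lc (w : V → V → ZMod 2) (o : V → V → Prop) (T : Finset V → Prop) (σ ρ : Finset V) : Prop :=
  (Mx w ρ ∧ T ρ) ∨ (¬ Mx w ρ ∧ ∃ x ∈ ρ, Lw o σ x)

/-- the subdivided coorientation -/
def o1 (w : V → V → ZMod 2) (o : V → V → Prop) (T : Finset V → Prop) (ρ ρ' : Finset V) : Prop :=
  Mx w (ρ ∪ ρ') ∧ lc w o T (ρ ∪ ρ') ρ ∧ ¬ lc w o T (ρ ∪ ρ') ρ'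

open Classical in
/-- the subdivided cocycle -/
noncomputable def w1 (w : V → V → ZMod 2) (o : V → V → Prop) (T : Finset V → Prop)
    (ρ ρ' : Finset V) : ZMod 2 := if o1 w o T ρ ρ' ∨ o1 w o T ρ' ρ then 1 else 0

variable {T : Finset V → Prop}

theorem o1_iff (_ : Cx K) (h : Ori K w o) {σ ρ ρ' : Finset V} (hσ : σ ∈ K) (e : ρ ⊆ σ)
    (e' : ρ' ⊆ σ) (hne : ρ'.Nonempty) : o1 w o T ρ ρ' ↔ lc w o T σ ρ ∧ ¬ lc w o T σ ρ' := by
  have s : ρ ∪ ρ' ⊆ σ := Finset.union_subset e e'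
  have k : Mx w (ρ ∪ ρ') → ∀ π ⊆ ρ ∪ ρ', (lc w o T (ρ ∪ ρ') π ↔ lc w o T σ π) := fun m π q =>
    or_congr Iff.rfl (and_congr Iff.rfl (exists_congr fun x => and_congr_right fun a =>
      h.lw_sub hσ s m (q a)))
  constructor
  · rintro ⟨m, a, b⟩
    exact ⟨(k m _ Finset.subset_union_left).1 a, fun q => b ((k m _ Finset.subset_union_right).2 q)⟩
  · rintro ⟨a, b⟩
    have m : Mx w (ρ ∪ ρ') := by
      rcases a with a | ⟨-, x, hx, a⟩
      · exact a.1.mono Finset.subset_union_left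
      · by_cases q : Mx w ρ'
        · exact q.mono Finset.subset_union_right
        · obtain ⟨y, hy⟩ := hne
          exact (h.mx_iff hσ s).2 ⟨⟨x, Finset.mem_union_left _ hx, a⟩, y,
            Finset.mem_union_right _ hy, fun c => b (Or.inr ⟨q, y, hy, c⟩)⟩
    exact ⟨m, (k m _ Finset.subset_union_left).2 a,
      fun q => b ((k m _ Finset.subset_union_right).1 q)⟩

theorem w1_ne {ρ ρ' : Finset V} : w1 w o T ρ ρ' ≠ 0 ↔ o1 w o T ρ ρ' ∨ o1 w o T ρ' ρ := by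
  unfold w1; split_ifs with h <;> simp [h]

theorem ori_sub (hK : Cx K) (h : Ori K w o) : Ori (sd K) (w1 w o T) (o1 w o T) := by
  have key : ∀ r ∈ sd K, ∀ x ∈ r, ∀ y ∈ r,
      (o1 w o T x y ↔ lc w o T (top r) x ∧ ¬ lc w o T (top r) y) := fun r hr x hx y hy =>
    o1_iff hK h (top_mem' hr) (sub_top hx) (sub_top hy) (hK.ne y (hr.2.1 y hy))
  refine ⟨fun _ _ _ _ _ _ => w1_ne, fun r hr x hx y hy z hz => ?_, fun r hr x hx y hy z hz => ?_⟩
  · rw [key r hr x hx y hy, key r hr x hx z hz, key r hr z hz y hy]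
    exact fun q => (em (lc w o T (top r) z)).elim (fun e => Or.inr ⟨e, q.2⟩) fun e => Or.inl ⟨q.1, e⟩
  · rw [key r hr x hx y hy, key r hr y hy z hz]; tauto

omit [DecidableEq V] in
theorem Ori.ec (h : Ori K w o) : ∀ σ ∈ K, ∀ x ∈ σ, ∀ y ∈ σ, ∀ z ∈ σ, w x z = w x y + w y z := by
  intro σ hσ x hx y hy z hz
  have k : ∀ a ∈ σ, ∀ b ∈ σ, (w a b ≠ 0 ↔ ¬ (Lw o σ a ↔ Lw o σ b)) := fun a ha b hb => by
    rw [h.iff σ hσ a ha b hb, h.lw_iff hσ ha hb, h.lw_iff hσ hb ha]; tauto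
  have q : (w x z ≠ 0 ↔ ¬ (w x y ≠ 0 ↔ w y z ≠ 0)) := by
    rw [k x hx z hz, k x hx y hy, k y hy z hz]; tauto
  revert q; generalize w x z = a; generalize w x y = b; generalize w y z = c
  revert a b c; decide

theorem mx_top {r : Finset (Finset V)} (h : Mx (w1 w o T) r) : Mx w (top r) := by
  obtain ⟨x, hx, y, hy, q⟩ := h
  rcases w1_ne.1 q with q | q
  · exact q.1.mono (Finset.union_subset (sub_top hx) (sub_top hy))
  · exact q.1.mono (Finset.union_subset (sub_top hy) (sub_top hx))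

theorem ac_fb1 (hK : Cx K) (h : Ori K w o) {L : Set (Finset V)} (hL : Cx L) (hLK : L ⊆ K)
    {σ : Finset V} (hσ : σ ∈ Sf L w) : Ac sub (Fb sub (Sf (sd L) (w1 w o T)) top σ) := by
  classical
  have sK := hLK hσ.1
  have e : Fb sub (Sf (sd L) (w1 w o T)) top σ = MxCh (fcs σ) {ρ | lc w o T σ ρ} := by
    ext r
    have : r ∈ sd (fcs σ) → (Mx (w1 w o T) r ↔
        (∃ ρ ∈ r, lc w o T σ ρ) ∧ ∃ ρ ∈ r, ¬ lc w o T σ ρ) := fun hr =>
      ⟨fun ⟨x, hx, y, hy, q⟩ => by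
        rcases w1_ne.1 q with q | q
        · have := (o1_iff hK h sK (hr.2.1 x hx).2 (hr.2.1 y hy).2 (hr.2.1 y hy).1).1 q
          exact ⟨⟨x, hx, this.1⟩, y, hy, this.2⟩
        · have := (o1_iff hK h sK (hr.2.1 y hy).2 (hr.2.1 x hx).2 (hr.2.1 x hx).1).1 q
          exact ⟨⟨y, hy, this.1⟩, x, hx, this.2⟩,
      fun ⟨⟨x, hx, a⟩, y, hy, b⟩ => ⟨x, hx, y, hy, w1_ne.2 (Or.inl
        ((o1_iff hK h sK (hr.2.1 x hx).2 (hr.2.1 y hy).2 (hr.2.1 y hy).1).2 ⟨a, b⟩))⟩⟩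
    constructor
    · rintro ⟨⟨a, b⟩, c⟩
      have a' := (mem_sd_fcs hL hσ.1).2 ⟨a, c⟩
      exact ⟨a', (this a').1 b⟩
    · rintro ⟨a, b⟩
      have a' := (mem_sd_fcs hL hσ.1).1 a
      exact ⟨⟨a'.1, (this a).2 b⟩, a'.2⟩
  obtain ⟨⟨x, hx, a⟩, y, hy, b⟩ := (h.mx_iff sK subset_rfl).1 hσ.2
  have sσ : σ ∈ fcs σ := ⟨⟨x, hx⟩, subset_rfl⟩
  rw [e]
  by_cases q : lc w o T σ σ
  · rw [MxCh_congr (Q' := {ρ | ρ ∈ fcs σ ∧ ¬ lc w o T σ ρ})
      (Or.inr fun ρ m => by simp [m])]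
    refine ac_mxCh sσ (fun ρ m => m.2) (fun ρ m => m.1) (fun m => m.2 q)
      (ac_faces (W := σ.filter fun z => ¬ Lw o σ z) ⟨y, by simp [hy, b]⟩ (fun ρ m => ?_)
        fun ρ m n => ?_)
    · by_cases c : Mx w ρ
      · obtain ⟨-, z, hz, d⟩ := (h.mx_iff sK m.1.2).1 c
        exact ⟨z, by simp [hz, d, m.1.2 hz]⟩
      · obtain ⟨z, hz⟩ := m.1.1
        have d : ¬ Lw o σ z := fun d => m.2 (Or.inr ⟨c, z, hz, d⟩)
        exact ⟨z, by simp [hz, d, m.1.2 hz]⟩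
    · have s := m.trans (Finset.filter_subset _ _)
      have d : ¬ ∃ z ∈ ρ, Lw o σ z := fun ⟨z, hz, d⟩ => (Finset.mem_filter.1 (m hz)).2 d
      exact ⟨⟨n, s⟩, fun c => c.elim (fun c => d ((h.mx_iff sK s).1 c.1).1) fun c => d c.2⟩
  · rw [MxCh_congr (Q' := {ρ | ρ ∈ fcs σ ∧ lc w o T σ ρ}) (Or.inl fun ρ m => by simp [m])]
    refine ac_mxCh sσ (fun ρ m => m.2) (fun ρ m => m.1) (fun m => q m.2)
      (ac_faces (W := σ.filter fun z => Lw o σ z) ⟨x, by simp [hx, a]⟩ (fun ρ m => ?_)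
        fun ρ m n => ?_)
    · obtain ⟨z, hz, d⟩ : ∃ z ∈ ρ, Lw o σ z :=
        m.2.elim (fun c => ((h.mx_iff sK m.1.2).1 c.1).1) fun c => c.2
      exact ⟨z, by simp [hz, d, m.1.2 hz]⟩
    · have s := m.trans (Finset.filter_subset _ _)
      obtain ⟨z, hz⟩ := n
      exact ⟨⟨⟨z, hz⟩, s⟩, Or.inr ⟨fun c => by
        obtain ⟨-, v, hv, d⟩ := (h.mx_iff sK s).1 c
        exact d (Finset.mem_filter.1 (m hv)).2, z, hz, (Finset.mem_filter.1 (m hz)).2⟩⟩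

end

variable {G : Type} [AddGroup G]

theorem Dat.Disc.mt {X : Dat G} {w : X.V → X.V → ZMod 2} (h : X.Disc w) {σ : Finset X.V}
    (hσ : σ ∈ X.K) (m : Mx w σ) : Mt X.A σ := by
  obtain ⟨x, hx, y, hy, q⟩ := m
  exact (h.supp σ hσ x hx y hy q).elim (fun a => ⟨x, hx, a⟩) fun a => ⟨y, hy, a⟩

theorem Dat.Disc.sub1 {X : Dat G} (hX : X.OK) {w : X.V → X.V → ZMod 2} (h : X.Disc w)
    {o : X.V → X.V → Prop} (ho : Ori X.K w o) (T : Finset X.V → Prop) :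
    X.sub1.Disc (w1 w o T) := by
  have rf : ∀ {Y : Set (Finset X.V)}, ∀ y ∈ Y, sub y y := fun _ _ => subset_rfl
  have tr : ∀ {Y : Set (Finset X.V)}, ∀ x ∈ Y, ∀ y ∈ Y, ∀ z ∈ Y, sub x y → sub y z → sub x z :=
    fun _ _ _ _ _ _ a b => a.trans b
  have mp : ∀ {L : Set (Finset X.V)}, ∀ r ∈ Sf (sd L) (w1 w o T), top r ∈ Sf L w :=
    fun r hr => ⟨top_mem' hr.1, mx_top hr.2⟩
  have mm : ∀ {Y : Set (Finset (Finset X.V))}, ∀ x ∈ Y, ∀ y ∈ Y, sub x y → sub (top x) (top y) :=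
    fun _ _ _ _ e => top_mono e
  have a := Ac.quillen (r := sub) rf tr mp mm
    (fun y hy => ac_fb1 (T := T) hX.cxK ho hX.cxK subset_rfl hy) ⟨h.conn, h.h0⟩
  refine ⟨(ori_sub hX.cxK ho).ec, fun r hr x hx y hy q => ?_, a.1, a.2,
    Conn.quillen rf tr mp (fun y hy => (ac_fb1 hX.cxK ho hX.cxF hX.FK hy).1) h.connB,
    fun q => h.ess (Cob.quillen tr mp mm (fun y hy => (ac_fb1 hX.cxK ho hX.cxF hX.FK hy).1)
      (hX.coc.mono (fun σ m => ⟨m.1, h.mt (hX.FK m.1) m.2⟩) fun _ _ _ _ e => e) q)⟩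
  have m : Mx w (x ∪ y) := (w1_ne.1 q).elim (fun q => q.1) fun q => Finset.union_comm y x ▸ q.1
  rcases hr.2.2 x hx y hy with e | e
  · rw [Finset.union_eq_right.2 e] at m
    exact Or.inr ⟨hr.2.1 y hy, h.mt (hr.2.1 y hy) m⟩
  · rw [Finset.union_eq_left.2 e] at m
    exact Or.inl ⟨hr.2.1 x hx, h.mt (hr.2.1 x hx) m⟩

omit [AddGroup G] in
theorem DC.img_img {U B : Dat G} (d : DC U B) (σ : Finset U.V) :
    (σ.image d.τ).image d.τ = σ :=
  Finset.image_image.trans ((Finset.image_congr fun x _ => d.ττ x).trans Finset.image_id)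

omit [AddGroup G] in
theorem DC.img_ne {U B : Dat G} (d : DC U B) {σ : Finset U.V} (h : σ ∈ U.K) (m : Mt d.E σ) :
    σ.image d.τ ≠ σ := fun e => by
  obtain ⟨a, ha, hE⟩ := m
  exact d.free a hE (d.inj σ h (e ▸ Finset.mem_image_of_mem d.τ ha) ha (d.pτ a))

/-- **first subdivision** -/
theorem step1 {U B : Dat G} (hU : U.OK) (hB : B.OK) (d : DC U B) (h : U.HasDisc) :
    ∃ (d' : DC U.sub1 B.sub1) (w : U.sub1.V → U.sub1.V → ZMod 2) (o : U.sub1.V → U.sub1.V → Prop),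
      U.sub1.Disc w ∧ Ori U.sub1.K w o ∧
        ∀ σ ∈ U.sub1.K, ∀ x ∈ σ, ∀ y ∈ σ, o x y → ¬ o (d'.τ x) (d'.τ y) := by
  obtain ⟨w, h⟩ := h
  obtain ⟨o, ho⟩ := exists_ori hU.cxK h.ec h.conn.1 h.h0
  obtain ⟨d', e⟩ := dc_sub hU hB d
  let n := Fintype.equivFin (Finset U.V)
  let T : Finset U.V → Prop := fun ρ => Mx w (ρ.image d.τ) ∧ n ρ < n (ρ.image d.τ)
  refine ⟨d', w1 w o T, o1 w o T, h.sub1 hU ho T, ori_sub hU.cxK ho, ?_⟩
  intro r hr (x : Finset U.V) hx (y : Finset U.V) hy a b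
  rw [e] at b
  have k : ∀ σ ρ, Mx w ρ → (lc w o T σ ρ ↔ T ρ) := fun σ ρ m =>
    ⟨fun c => c.elim (fun c => c.2) fun c => (c.1 m).elim, fun c => Or.inl ⟨m, c⟩⟩
  obtain ⟨a1, a2, a3⟩ := a
  obtain ⟨b1, b2, b3⟩ := b
  rw [← Finset.image_union] at b1
  rcases hr.2.2 x hx y hy with q | q
  · rw [Finset.union_eq_right.2 q] at a1 b1
    rw [k _ _ a1] at a3
    rw [k _ _ b1] at b3
    simp only [T, d.img_img, a1, b1, true_and, not_lt] at a3 b3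
    obtain ⟨z, hz, hA⟩ := h.mt (hr.2.1 y hy) a1
    exact d.img_ne (hr.2.1 y hy) ⟨z, hz, d.AE hA⟩ (n.injective (le_antisymm a3 b3))
  · rw [Finset.union_eq_left.2 q] at a1 b1
    rw [k _ _ a1] at a2
    rw [k _ _ b1] at b2
    simp only [T, d.img_img] at a2 b2
    exact lt_asymm a2.2 b2.2

end Crest.Agent.X212.Dsc37
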